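import Vale.Agent.P209.Core

/-! Basic API. Plan: chain rule (`fderiv_comp`), `ContDiffOn` on open sets gives
differentiability; `CEmb.trans`: the image of the compact set is compact, take
`U' ∩ F ⁻¹' V'` (`ContinuousOn.isOpen_inter_preimage`). -/

open scoped ContDiff Topology
open Set MeasureTheory

namespace Vale.Agent.P209

variable {ι κ μ : Type} [Fintype ι] [Fintype κ] [Fintype μ]

omit [Fintype ι] in
theorem LatEq.refl (x : Ph ι) : LatEq x x := ⟨rfl, fun _ => ⟨0, by simp⟩⟩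

omit [Fintype ι] in
theorem LatEq.symm {x y : Ph ι} (h : LatEq x y) : LatEq y x :=
  ⟨h.1.symm, fun i => by
    obtain ⟨m, hm⟩ := h.2 i
    exact ⟨-m, by rw [hm]; push_cast; ring⟩⟩

omit [Fintype ι] in
theorem LatEq.trans {x y z : Ph ι} (h : LatEq x y) (h' : LatEq y z) : LatEq x z :=
  ⟨h.1.trans h'.1, fun i => by
    obtain ⟨m, hm⟩ := h.2 i
    obtain ⟨m', hm'⟩ := h'.2 i
    exact ⟨m + m', by rw [hm', hm]; push_cast; ring⟩⟩

theorem isOpen_T {A : Set (ι → ℝ)} (h : IsOpen A) : IsOpen (T A) := h.preimage continuous_fst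

theorem Symp.diffAt {F : Ph ι → Ph κ} {U : Set (Ph ι)} (h : Symp F U) {x : Ph ι} (hx : x ∈ U) :
    DifferentiableAt ℝ F x :=
  (h.smooth.contDiffAt (h.isOpen.mem_nhds hx)).differentiableAt (by simp)

theorem Symp.id : Symp (fun z : Ph ι => z) univ :=
  ⟨isOpen_univ, contDiffOn_id, fun x _ u v => by rw [fderiv_fun_id]; rfl⟩

theorem Symp.mono {F : Ph ι → Ph κ} {U U' : Set (Ph ι)} (h : Symp F U) (hU : IsOpen U')
    (hs : U' ⊆ U) : Symp F U' := ⟨hU, h.smooth.mono hs, fun x hx => h.pres x (hs hx)⟩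

theorem Symp.comp {F : Ph ι → Ph κ} {G : Ph κ → Ph μ} {U : Set (Ph ι)} {V : Set (Ph κ)}
    (hG : Symp G V) (hF : Symp F U) (hm : MapsTo F U V) : Symp (fun z => G (F z)) U :=
  ⟨hF.isOpen, hG.smooth.comp hF.smooth hm, fun x hx u v => by
    rw [fderiv_fun_comp x (hG.diffAt (hm hx)) (hF.diffAt hx)]
    exact (hG.pres _ (hm hx) _ _).trans (hF.pres x hx u v)⟩

theorem Symp.comp_inter {F : Ph ι → Ph κ} {G : Ph κ → Ph μ} {U : Set (Ph ι)} {V : Set (Ph κ)}
    (hG : Symp G V) (hF : Symp F U) : Symp (fun z => G (F z)) (U ∩ F ⁻¹' V) :=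
  hG.comp (hF.mono (hF.smooth.continuousOn.isOpen_inter_preimage hF.isOpen hG.isOpen)
    inter_subset_left) fun _ hx => hx.2

theorem Symp.of_local {F : Ph ι → Ph κ} {U : Set (Ph ι)} (hU : IsOpen U)
    (h : ∀ x ∈ U, ∃ (F' : Ph ι → Ph κ) (U' : Set (Ph ι)), Symp F' U' ∧ x ∈ U' ∧ F =ᶠ[𝓝 x] F') :
    Symp F U := by
  refine ⟨hU, fun x hx => ?_, fun x hx u v => ?_⟩
  · obtain ⟨F', U', h1, h2, h3⟩ := h x hx
    exact ((h1.smooth.contDiffAt (h1.isOpen.mem_nhds h2)).congr_of_eventuallyEq h3).contDiffWithinAt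
  · obtain ⟨F', U', h1, h2, h3⟩ := h x hx
    rw [h3.fderiv_eq]
    exact h1.pres x h2 u v

theorem Symp.congr {F F' : Ph ι → Ph κ} {U : Set (Ph ι)} (h : Symp F U)
    (he : ∀ x ∈ U, F' x = F x) : Symp F' U :=
  Symp.of_local h.isOpen fun _ hx =>
    ⟨F, U, h, hx, Filter.eventually_of_mem (h.isOpen.mem_nhds hx) he⟩

/-- translations are symplectic. -/
theorem symp_add_const (c : Ph ι) : Symp (fun z : Ph ι => z + c) univ :=
  ⟨isOpen_univ, (contDiff_id.add contDiff_const).contDiffOn, fun x _ u v => by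
    rw [fderiv_add_const, fderiv_fun_id]; rfl⟩

theorem basic_lin {F : Ph ι → Ph κ} (ha : ∀ u v, F (u + v) = F u + F v)
    (hs : ∀ (c : ℝ) u, F (c • u) = c • F u) (h : ∀ u v, om (F u) (F v) = om u v) : Symp F univ := by
  let L : Ph ι →L[ℝ] Ph κ := LinearMap.toContinuousLinearMap ⟨⟨F, ha⟩, hs⟩
  have e : F = L := rfl
  refine ⟨isOpen_univ, e ▸ L.contDiff.contDiffOn, fun x _ u v => ?_⟩
  rw [e, L.fderiv]
  exact h u v

theorem symp_Jsw [DecidableEq ι] (i₀ : ι) : Symp (Jsw i₀) univ := by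
  refine basic_lin (fun u v => ?_) (fun c u => ?_) fun u v => Finset.sum_congr rfl fun i _ => ?_
  · ext i <;> by_cases h : i = i₀ <;> simp [Jsw, h, add_comm]
  · ext i <;> by_cases h : i = i₀ <;> simp [Jsw, h]
  · by_cases h : i = i₀
    · subst h
      simp only [Jsw, Function.update_self]
      ring
    · simp [Jsw, h]

theorem symp_Jinv [DecidableEq ι] (i₀ : ι) : Symp (Jinv i₀) univ := by
  refine basic_lin (fun u v => ?_) (fun c u => ?_) fun u v => Finset.sum_congr rfl fun i _ => ?_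
  · ext i <;> by_cases h : i = i₀ <;> simp [Jinv, h, add_comm]
  · ext i <;> by_cases h : i = i₀ <;> simp [Jinv, h]
  · by_cases h : i = i₀
    · subst h
      simp only [Jinv, Function.update_self]
      ring
    · simp [Jinv, h]

/-- exactness criterion: if `P dQ = p dq + dK` then `(Q, P)` is symplectic (symmetry of second
derivatives, `ContDiffAt.isSymmSndFDerivAt`; differentiate the identity for fixed `v`). -/
theorem symp_of_exact {F : Ph ι → Ph κ} {U : Set (Ph ι)} (hU : IsOpen U)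
    (hF : ContDiffOn ℝ ∞ F U) {K : Ph ι → ℝ} (hK : ContDiffOn ℝ ∞ K U)
    (h : ∀ x ∈ U, ∀ v : Ph ι, ∑ i, (F x).2 i * (fderiv ℝ F x v).1 i =
      ∑ i, x.2 i * v.1 i + fderiv ℝ K x v) : Symp F U := by
  refine ⟨hU, hF, fun x hx u v => ?_⟩
  have hFx := hF.contDiffAt (hU.mem_nhds hx)
  have hKx := hK.contDiffAt (hU.mem_nhds hx)
  have h1 := (hFx.differentiableAt (by simp)).hasFDerivAt
  have h2 := ((hFx.fderiv_right (m := ∞) (by simp)).differentiableAt (by simp)).hasFDerivAt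
  have k2 := ((hKx.fderiv_right (m := ∞) (by simp)).differentiableAt (by simp)).hasFDerivAt
  have s1 := hFx.isSymmSndFDerivAt (by rw [minSmoothness_of_isRCLikeNormedField]; norm_cast)
  have s2 := hKx.isSymmSndFDerivAt (by rw [minSmoothness_of_isRCLikeNormedField]; norm_cast)
  have key : ∀ u v : Ph ι, ∑ i, ((F x).2 i * (fderiv ℝ (fderiv ℝ F) x u v).1 i +
      (fderiv ℝ F x v).1 i * (fderiv ℝ F x u).2 i) =
      ∑ i, v.1 i * u.2 i + fderiv ℝ (fderiv ℝ K) x u v := by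
    intro u v
    have a1 := HasFDerivAt.fun_sum (u := Finset.univ) fun i _ =>
      (hasFDerivAt_pi'.1 h1.snd i).fun_mul
        (hasFDerivAt_pi'.1 (h2.clm_apply (hasFDerivAt_const v x)).fst i)
    have a2 := (HasFDerivAt.fun_sum (u := Finset.univ) fun i _ =>
      (hasFDerivAt_pi'.1 (hasFDerivAt_snd (𝕜 := ℝ) (p := x)) i).mul_const (v.1 i)).fun_add
      (k2.clm_apply (hasFDerivAt_const v x))
    have a3 := a1.unique (a2.congr_of_eventuallyEq
      (Filter.eventually_of_mem (hU.mem_nhds hx) fun y hy => h y hy v))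
    simpa using congrArg (fun L => L u) a3
  have e1 := key u v
  have e2 := key v u
  rw [s1.eq v u, s2.eq v u] at e2
  simp only [Finset.sum_add_distrib] at e1 e2
  simp only [om, Finset.sum_sub_distrib, mul_comm (u.2 _), mul_comm ((fderiv ℝ F x u).2 _)]
  linarith

theorem CEmb.trans {U : Set (Ph ι)} {V : Set (Ph κ)} {W : Set (Ph μ)} (h : CEmb U V)
    (h' : CEmb V W) : CEmb U W := by
  intro K hK hKU
  obtain ⟨F, U', h1, h2, h3, h4⟩ := h K hK hKU
  obtain ⟨G, V', g1, g2, g3, g4⟩ := h' (F '' K)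
    (hK.image_of_continuousOn (h1.smooth.continuousOn.mono h2))
    (image_subset_iff.2 fun x hx => h3 (h2 hx))
  exact ⟨fun z => G (F z), U' ∩ F ⁻¹' V', g1.comp_inter h1,
    fun x hx => ⟨h2 hx, g2 (mem_image_of_mem F hx)⟩, fun x hx => g3 hx.2,
    fun x hx y hy e => h4 x hx.1 y hy.1 (g4 _ hx.2 _ hy.2 e)⟩

theorem CEmb.mono {U U' : Set (Ph ι)} {V V' : Set (Ph κ)} (h : CEmb U V) (hU : U' ⊆ U)
    (hV : V ⊆ V') : CEmb U' V' := by
  intro K hK hKU
  obtain ⟨F, U'', h1, h2, h3, h4⟩ := h K hK (hKU.trans hU)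
  exact ⟨F, U'', h1, h2, h3.mono_right hV, h4⟩

theorem TEmb.trans {A : Set (ι → ℝ)} {B : Set (κ → ℝ)} {C : Set (μ → ℝ)} (h : TEmb A B)
    (h' : TEmb B C) : TEmb A C := CEmb.trans h h'

theorem TEmb.mono {A A' : Set (ι → ℝ)} {B B' : Set (κ → ℝ)} (h : TEmb A B) (hA : A' ⊆ A)
    (hB : B ⊆ B') : TEmb A' B' := CEmb.mono h (fun _ hx => hA hx) fun _ hx => hB hx

theorem TEmb.of_subset {A B : Set (ι → ℝ)} (hB : IsOpen B) (h : A ⊆ B) : TEmb A B :=
  fun _ _ hK => ⟨fun z => z, T B, Symp.id.mono (isOpen_T hB) (subset_univ _),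
    fun _ hx => h (hK hx), fun _ hx => hx, fun _ _ _ _ e => e⟩

theorem isCompact_cball (n : ℕ) (R : ℝ) : IsCompact (cball n R) := by
  refine Metric.isCompact_of_isClosed_isBounded (isClosed_le (by fun_prop) continuous_const) ?_
  refine (Metric.isBounded_closedBall (x := 0) (r := |R| + 1)).subset fun z hz => ?_
  rw [mem_closedBall_zero_iff, pi_norm_le_iff_of_nonneg (by positivity)]
  intro j
  have h1 : ‖z j‖ ^ 2 ≤ ∑ j, ‖z j‖ ^ 2 :=
    Finset.single_le_sum (f := fun j => ‖z j‖ ^ 2) (fun _ _ => sq_nonneg _) (Finset.mem_univ j)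
  have h2 : Real.pi * ∑ j, ‖z j‖ ^ 2 ≤ R := hz
  nlinarith [Real.pi_gt_three, le_abs_self R, sq_nonneg (‖z j‖ - 1), sq_nonneg ‖z j‖,
    mul_le_mul_of_nonneg_left h1 Real.pi_pos.le]

theorem BallEmb.trans {n : ℕ} {R : ℝ} {V : Set (Ph ι)} {W : Set (Ph κ)} (h : BallEmb n R V)
    (h' : CEmb V W) : BallEmb n R W := by
  obtain ⟨f, U, hU, h2, h1, hp, h3, h4⟩ := h
  obtain ⟨G, V', g1, g2, g3, g4⟩ := h' (f '' cball n R)
    ((isCompact_cball n R).image_of_continuousOn (h1.continuousOn.mono h2))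
    (image_subset_iff.2 fun x hx => h3 (h2 hx))
  refine ⟨fun z => G (f z), U ∩ f ⁻¹' V', h1.continuousOn.isOpen_inter_preimage hU g1.isOpen,
    fun x hx => ⟨h2 hx, g2 (mem_image_of_mem f hx)⟩,
    g1.smooth.comp (h1.mono inter_subset_left) fun _ hx => hx.2, fun x hx u v => ?_,
    fun x hx => g3 hx.2, fun x hx y hy e => h4 x hx.1 y hy.1 (g4 _ hx.2 _ hy.2 e)⟩
  rw [fderiv_fun_comp x (g1.diffAt hx.2)
    ((h1.contDiffAt (hU.mem_nhds hx.1)).differentiableAt (by simp))]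
  exact (g1.pres _ hx.2 _ _).trans (hp x hx.1 u v)

end Vale.Agent.P209
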