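import Vale.Agent.P209.RectB

/-! The rectangle map in one coordinate plane, and the ball in the simplex.
Plan: `coord_rect`: replace `(z.1 i₀, z.2 i₀)` by `σ (pol (z.1 i₀) (z.2 i₀))`; split the sum in
`om` at `i₀`. `ball_emb`: apply `σ` in every coordinate (`A = R'`, `ε = (R' - R) / (2 n + 2)`,
`U = {π ∑ |zⱼ|² < (R + R') / 2}`); angles lie in `(0, 1)`, so congruent angles are equal. -/

open scoped ContDiff Topology
open Set MeasureTheory

namespace Vale.Agent.P209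

theorem coord_om {ι : Type} [Fintype ι] [DecidableEq ι] (i₀ : ι) (u v : Ph ι) (a b : ℝ × ℝ) :
    om (u + (Pi.single i₀ a.1, Pi.single i₀ a.2)) (v + (Pi.single i₀ b.1, Pi.single i₀ b.2)) =
      om u v + ((u.1 i₀ + a.1) * (v.2 i₀ + b.2) - (u.2 i₀ + a.2) * (v.1 i₀ + b.1)) -
        (u.1 i₀ * v.2 i₀ - u.2 i₀ * v.1 i₀) := by
  unfold om
  rw [← Finset.add_sum_erase _ _ (Finset.mem_univ i₀),
    ← Finset.add_sum_erase _ _ (Finset.mem_univ i₀)]
  have e : ∑ i ∈ Finset.univ.erase i₀,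
      ((u + (Pi.single i₀ a.1, Pi.single i₀ a.2) : Ph ι).1 i *
        (v + (Pi.single i₀ b.1, Pi.single i₀ b.2) : Ph ι).2 i -
        (u + (Pi.single i₀ a.1, Pi.single i₀ a.2) : Ph ι).2 i *
        (v + (Pi.single i₀ b.1, Pi.single i₀ b.2) : Ph ι).1 i) =
      ∑ i ∈ Finset.univ.erase i₀, (u.1 i * v.2 i - u.2 i * v.1 i) := by
    refine Finset.sum_congr rfl fun i hi => ?_
    have h := Finset.ne_of_mem_erase hi
    simp [h]
  rw [e]
  simp only [Prod.fst_add, Prod.snd_add, Pi.add_apply, Pi.single_eq_same]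
  ring

theorem coord_plane {ι : Type} [Fintype ι] [DecidableEq ι] (i₀ : ι) {G : ℝ × ℝ → ℝ × ℝ}
    {O : Set (ℝ × ℝ)} (hO : IsOpen O) (hG : ContDiffOn ℝ ∞ G O)
    (hp : ∀ x ∈ O, ∀ u v, (fderiv ℝ G x u).1 * (fderiv ℝ G x v).2 -
      (fderiv ℝ G x u).2 * (fderiv ℝ G x v).1 = u.1 * v.2 - u.2 * v.1) :
    ∃ F : Ph ι → Ph ι, Symp F {z | (z.1 i₀, z.2 i₀) ∈ O} ∧
      (∀ z j, j ≠ i₀ → (F z).1 j = z.1 j ∧ (F z).2 j = z.2 j) ∧
      ∀ z, (F z).1 i₀ = (G (z.1 i₀, z.2 i₀)).1 ∧ (F z).2 i₀ = (G (z.1 i₀, z.2 i₀)).2 := by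
  let P : Ph ι →L[ℝ] ℝ × ℝ :=
    (ContinuousLinearMap.proj (R := ℝ) (φ := fun _ : ι => ℝ) i₀).prodMap
      (ContinuousLinearMap.proj (R := ℝ) (φ := fun _ : ι => ℝ) i₀)
  let E : ℝ × ℝ →L[ℝ] Ph ι :=
    (ContinuousLinearMap.single ℝ (fun _ : ι => ℝ) i₀).prodMap
      (ContinuousLinearMap.single ℝ (fun _ : ι => ℝ) i₀)
  have hP : ∀ z, P z = (z.1 i₀, z.2 i₀) := fun z => rfl
  have hE : ∀ a, E a = (Pi.single i₀ a.1, Pi.single i₀ a.2) := fun a => rfl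
  have hU : IsOpen {z : Ph ι | (z.1 i₀, z.2 i₀) ∈ O} := hO.preimage P.continuous
  refine ⟨fun z => z + E (G (P z) - P z), ⟨hU, ?_, fun x hx u v => ?_⟩, fun z j hj => ?_,
    fun z => ?_⟩
  · refine contDiffOn_id.add (E.contDiff.comp_contDiffOn ?_)
    exact (hG.comp P.contDiff.contDiffOn fun z hz => hz).sub P.contDiff.contDiffOn
  · have hd : DifferentiableAt ℝ G (P x) :=
      (hG.contDiffAt (hO.mem_nhds hx)).differentiableAt (by simp)
    have h1 : HasFDerivAt (fun z => z + E (G (P z) - P z))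
        (ContinuousLinearMap.id ℝ (Ph ι) + E.comp ((fderiv ℝ G (P x)).comp P - P)) x :=
      (hasFDerivAt_id x).add (E.hasFDerivAt.comp x
        ((hd.hasFDerivAt.comp x P.hasFDerivAt).sub P.hasFDerivAt))
    rw [h1.fderiv]
    have e : ∀ u, (ContinuousLinearMap.id ℝ (Ph ι) + E.comp ((fderiv ℝ G (P x)).comp P - P)) u =
        u + (Pi.single i₀ (fderiv ℝ G (P x) (P u) - P u).1,
          Pi.single i₀ (fderiv ℝ G (P x) (P u) - P u).2) := fun u => rfl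
    rw [e, e, coord_om]
    have h2 := hp (P x) hx (P u) (P v)
    simp only [Prod.fst_sub, Prod.snd_sub]
    have e1 : ∀ u, (P u).1 = u.1 i₀ := fun u => rfl
    have e2 : ∀ u, (P u).2 = u.2 i₀ := fun u => rfl
    simp only [e1, e2] at h2 ⊢
    linear_combination h2
  · simp [hE, hj]
  · simp [hE, hP]

theorem coord_rect {ι : Type} [Fintype ι] [DecidableEq ι] (i₀ : ι) {A ε : ℝ} (hA : 0 < A)
    (hε : 0 < ε) :
    ∃ F : Ph ι → Ph ι, Symp F {z | 0 < z.1 i₀ ∧ z.1 i₀ < A} ∧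
      (∀ z j, j ≠ i₀ → (F z).1 j = z.1 j ∧ (F z).2 j = z.2 j) ∧
      (∀ z : Ph ι, 0 < z.1 i₀ → z.1 i₀ < A → 0 < (F z).1 i₀ ∧ (F z).1 i₀ < z.1 i₀ + ε ∧
        0 < (F z).2 i₀ ∧ (F z).2 i₀ < 1) ∧
      ∀ z z' : Ph ι, 0 < z.1 i₀ → z.1 i₀ < A → 0 < z'.1 i₀ → z'.1 i₀ < A →
        (F z).1 i₀ = (F z').1 i₀ → (F z).2 i₀ = (F z').2 i₀ →
        z.1 i₀ = z'.1 i₀ ∧ ∃ m : ℤ, z'.2 i₀ = z.2 i₀ + m := by
  obtain ⟨σ, hσ, hinj, hpres, hb⟩ := exists_rect hA hε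
  have hO : IsOpen {x : ℝ × ℝ | 0 < x.1 ∧ x.1 < A} :=
    (isOpen_lt continuous_const continuous_fst).inter (isOpen_lt continuous_fst continuous_const)
  have hD : IsOpen {z : ℂ | Real.pi * ‖z‖ ^ 2 < A} := isOpen_lt (by fun_prop) continuous_const
  have hm : ∀ x : ℝ × ℝ, 0 < x.1 → x.1 < A → Real.pi * ‖pol x.1 x.2‖ ^ 2 < A := fun x h1 h2 => by
    rwa [norm_pol h1.le]
  obtain ⟨F, hF, h1, h2⟩ := coord_plane i₀ (G := fun x => σ (pol x.1 x.2)) hO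
    (hσ.comp (contDiffOn_pol.mono fun x hx => hx.1) fun x hx => hm x hx.1 hx.2) (by
      intro x hx u v
      have d1 : DifferentiableAt ℝ σ (pol x.1 x.2) :=
        (hσ.contDiffAt (hD.mem_nhds (hm x hx.1 hx.2))).differentiableAt (by simp)
      have d2 : DifferentiableAt ℝ (fun x : ℝ × ℝ => pol x.1 x.2) x :=
        (contDiffOn_pol.contDiffAt ((isOpen_lt continuous_const continuous_fst).mem_nhds
          hx.1)).differentiableAt (by simp)
      have e : fderiv ℝ (fun x : ℝ × ℝ => σ (pol x.1 x.2)) x =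
          (fderiv ℝ σ (pol x.1 x.2)).comp (fderiv ℝ (fun x : ℝ × ℝ => pol x.1 x.2) x) :=
        (d1.hasFDerivAt.comp x d2.hasFDerivAt).fderiv
      rw [e, ContinuousLinearMap.comp_apply, ContinuousLinearMap.comp_apply,
        hpres _ (hm x hx.1 hx.2), pol_pres x hx.1])
  refine ⟨F, hF, h1, fun z h3 h4 => ?_, fun z z' h3 h4 h5 h6 h7 h8 => ?_⟩
  · have h5 := hb _ (hm (z.1 i₀, z.2 i₀) h3 h4)
    rw [norm_pol h3.le] at h5
    rw [(h2 z).1, (h2 z).2]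
    exact h5
  · rw [(h2 z).1, (h2 z').1] at h7
    rw [(h2 z).2, (h2 z').2] at h8
    exact pol_inj h3 h5 (hinj (hm (z.1 i₀, z.2 i₀) h3 h4) (hm (z'.1 i₀, z'.2 i₀) h5 h6)
      (Prod.ext h7 h8))

theorem ball_emb (n : ℕ) {R R' : ℝ} (hR : 0 < R) (h : R < R') :
    BallEmb n R (T (spx (Fin n) R')) := by
  have hε : 0 < (R' - R) / (2 * n + 2) := div_pos (by linarith) (by positivity)
  obtain ⟨σ, hσ, hinj, hpres, hb⟩ := exists_rect (hR.trans h) hε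
  have hD : IsOpen {z : ℂ | Real.pi * ‖z‖ ^ 2 < R'} := isOpen_lt (by fun_prop) continuous_const
  have hm : ∀ x : Fin n → ℂ, Real.pi * ∑ j, ‖x j‖ ^ 2 < (R + R') / 2 → ∀ j,
      Real.pi * ‖x j‖ ^ 2 < R' := fun x hx j => by
    have h1 : ‖x j‖ ^ 2 ≤ ∑ j, ‖x j‖ ^ 2 :=
      Finset.single_le_sum (f := fun j => ‖x j‖ ^ 2) (fun _ _ => sq_nonneg _) (Finset.mem_univ j)
    have h2 := mul_le_mul_of_nonneg_left h1 Real.pi_pos.le
    linarith
  have hc : ∀ j, ContDiffOn ℝ ∞ (fun x : Fin n → ℂ => σ (x j))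
      {x | Real.pi * ∑ j, ‖x j‖ ^ 2 < (R + R') / 2} := fun j =>
    hσ.comp (contDiff_apply ℝ ℂ j).contDiffOn fun x hx => hm x hx j
  refine ⟨fun x => (fun j => (σ (x j)).1, fun j => (σ (x j)).2),
    {x | Real.pi * ∑ j, ‖x j‖ ^ 2 < (R + R') / 2}, isOpen_lt (by fun_prop) continuous_const,
    fun x hx => ?_, ?_, fun x hx u v => ?_, fun x hx => ⟨fun j => (hb _ (hm x hx j)).1, ?_⟩,
    fun x hx y hy hl => ?_⟩
  · have h1 : Real.pi * ∑ j, ‖x j‖ ^ 2 ≤ R := hx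
    change Real.pi * ∑ j, ‖x j‖ ^ 2 < (R + R') / 2
    linarith
  · exact (contDiffOn_pi.2 fun j => (hc j).fst).prodMk (contDiffOn_pi.2 fun j => (hc j).snd)
  · have d1 : ∀ j, HasFDerivAt (fun x : Fin n → ℂ => σ (x j))
        ((fderiv ℝ σ (x j)).comp (ContinuousLinearMap.proj j)) x := fun j =>
      ((hσ.contDiffAt (hD.mem_nhds (hm x hx j))).differentiableAt (by simp)).hasFDerivAt.comp x
        (hasFDerivAt_apply j x)
    have d2 := (hasFDerivAt_pi.2 fun j => (d1 j).fst).prodMk (hasFDerivAt_pi.2 fun j => (d1 j).snd)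
    rw [d2.fderiv]
    unfold om omega
    exact Finset.sum_congr rfl fun j _ => hpres _ (hm x hx j) (u j) (v j)
  · have h1 : ∑ j, (σ (x j)).1 ≤ ∑ j : Fin n, (Real.pi * ‖x j‖ ^ 2 + (R' - R) / (2 * n + 2)) :=
      Finset.sum_le_sum fun j _ => (hb _ (hm x hx j)).2.1.le
    rw [Finset.sum_add_distrib, ← Finset.mul_sum, Finset.sum_const, Finset.card_univ,
      Fintype.card_fin, nsmul_eq_mul] at h1
    have h2 : Real.pi * ∑ j, ‖x j‖ ^ 2 < (R + R') / 2 := hx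
    have h3 : (n : ℝ) * ((R' - R) / (2 * n + 2)) ≤ (R' - R) / 2 := by
      rw [mul_div_assoc', div_le_div_iff₀ (by positivity) two_pos]
      nlinarith
    change ∑ j, (σ (x j)).1 < R'
    linarith
  · funext j
    obtain ⟨m, hm'⟩ := hl.2 j
    have h1 : (σ (y j)).2 = (σ (x j)).2 + m := hm'
    have h2 := (hb _ (hm x hx j)).2.2
    have h3 := (hb _ (hm y hy j)).2.2
    have h4 : (m : ℝ) < 1 := by linarith [h2.1, h3.2]
    have h5 : (-1 : ℝ) < m := by linarith [h2.2, h3.1]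
    have h6 : m < 1 := by exact_mod_cast h4
    have h7 : -1 < m := by exact_mod_cast h5
    obtain rfl : m = 0 := by omega
    refine hinj (hm x hx j) (hm y hy j) (Prod.ext (congrFun hl.1 j) ?_)
    simpa using h1.symm

end Vale.Agent.P209
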