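import Vale.Agent.P209.Defs

/-! P209 sufficiency: basic definitions (overview in notes/P209.md).
`Ph ι` is the cover of `ℝ^ι × 𝕋^ι` : first component = actions (base), second = angles. -/

open scoped ContDiff
open Set

namespace Vale.Agent.P209

abbrev Ph (ι : Type) := (ι → ℝ) × (ι → ℝ)

variable {ι κ : Type}

def om [Fintype ι] (u v : Ph ι) : ℝ := ∑ i, (u.1 i * v.2 i - u.2 i * v.1 i)

structure Symp [Fintype ι] [Fintype κ] (F : Ph ι → Ph κ) (U : Set (Ph ι)) : Prop where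
  isOpen : IsOpen U
  smooth : ContDiffOn ℝ ∞ F U
  pres : ∀ x ∈ U, ∀ u v, om (fderiv ℝ F x u) (fderiv ℝ F x v) = om u v

/-- same actions, angles congruent mod `ℤ`. -/
def LatEq (x y : Ph ι) : Prop := x.1 = y.1 ∧ ∀ i, ∃ m : ℤ, y.2 i = x.2 i + m

/-- every compact part of `U` embeds symplectically in `V` (injectively mod the angle lattice). -/
def CEmb [Fintype ι] [Fintype κ] (U : Set (Ph ι)) (V : Set (Ph κ)) : Prop :=
  ∀ K, IsCompact K → K ⊆ U → ∃ (F : Ph ι → Ph κ) (U' : Set (Ph ι)), Symp F U' ∧ K ⊆ U' ∧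
    MapsTo F U' V ∧ ∀ x ∈ U', ∀ y ∈ U', LatEq (F x) (F y) → LatEq x y

/-- toric region over `A`. -/
def T (A : Set (ι → ℝ)) : Set (Ph ι) := {z | z.1 ∈ A}

def TEmb [Fintype ι] [Fintype κ] (A : Set (ι → ℝ)) (B : Set (κ → ℝ)) : Prop := CEmb (T A) (T B)

/-- the closed ball embeds in `V`, injectively mod the lattice. -/
def BallEmb [Fintype ι] (n : ℕ) (R : ℝ) (V : Set (Ph ι)) : Prop :=
  ∃ (f : (Fin n → ℂ) → Ph ι) (U : Set (Fin n → ℂ)), IsOpen U ∧ cball n R ⊆ U ∧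
    ContDiffOn ℝ ∞ f U ∧ (∀ x ∈ U, ∀ u v, om (fderiv ℝ f x u) (fderiv ℝ f x v) = omega u v) ∧
    MapsTo f U V ∧ ∀ x ∈ U, ∀ y ∈ U, LatEq (f x) (f y) → x = y

/-- open simplex. -/
def spx (ι : Type) [Fintype ι] (R : ℝ) : Set (ι → ℝ) := {y | (∀ i, 0 < y i) ∧ ∑ i, y i < R}

/-- cotangent lift of the base map `Y`, followed by the fibre translation by `dK`. -/
noncomputable def liftF [Fintype ι] [DecidableEq ι] (Y : (ι → ℝ) → (ι → ℝ)) (K : (ι → ℝ) → ℝ)
    (z : Ph ι) : Ph ι :=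
  (Y z.1, fun i => (∑ j, z.2 j * ((fderiv ℝ Y z.1).inverse (Pi.single i 1)) j) +
    fderiv ℝ K z.1 ((fderiv ℝ Y z.1).inverse (Pi.single i 1)))

/-- lift of the shear `y i₀ ↦ y i₀ + f y` (for `f` independent of the coordinate `i₀`). -/
noncomputable def Tr [Fintype ι] [DecidableEq ι] (i₀ : ι) (f : (ι → ℝ) → ℝ) (z : Ph ι) : Ph ι :=
  (Function.update z.1 i₀ (z.1 i₀ + f z.1),
    fun j => z.2 j - z.2 i₀ * fderiv ℝ f z.1 (Pi.single j 1))

/-- quarter turn in the coordinate plane `i₀` : `(q, p) ↦ (p, -q)`. -/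
def Jsw [DecidableEq ι] (i₀ : ι) (z : Ph ι) : Ph ι :=
  (Function.update z.1 i₀ (z.2 i₀), Function.update z.2 i₀ (-z.1 i₀))

/-- inverse quarter turn `(q, p) ↦ (-p, q)`. -/
def Jinv [DecidableEq ι] (i₀ : ι) (z : Ph ι) : Ph ι :=
  (Function.update z.1 i₀ (-z.2 i₀), Function.update z.2 i₀ (z.1 i₀))

/-- action-angle chart of `ℂ`. -/
noncomputable def pol (a θ : ℝ) : ℂ :=
  (Real.sqrt (a / Real.pi) : ℂ) * Complex.exp (2 * Real.pi * θ * Complex.I)

/-- derivative of the smooth ramp. -/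
noncomputable def rp (ν x : ℝ) : ℝ := Real.smoothTransition ((x + ν) / (2 * ν))

/-- smooth version of `max x 0`. -/
noncomputable def ramp (ν x : ℝ) : ℝ := ∫ y in (-ν)..x, rp ν y

/-- smooth version of `min a b`. -/
noncomputable def smin (ν a b : ℝ) : ℝ := a - ramp ν (a - b)

/-- smooth staircase: equals `k` on `[k + g, k + 1]`. -/
noncomputable def stair (g ξ : ℝ) : ℝ := (⌊ξ⌋ : ℝ) - 1 + Real.smoothTransition (Int.fract ξ / g)

/-- parameters of a point with two special coordinates. -/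
def tt (y : Option (Option κ) → ℝ) : κ → ℝ := fun r => y (some (some r))

/-- the base part of a point with one special coordinate. -/
def bb (y : Option κ → ℝ) : κ → ℝ := fun r => y (some r)

/-- point with first special coordinate `a`, second `b`, parameters `t`. -/
def mk3 (a b : ℝ) (t : κ → ℝ) : Option (Option κ) → ℝ
  | none => a
  | some none => b
  | some (some r) => t r

/-- domain of a window map: base point in `Z`, and the angle conjugate to the special coordinate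
in `(0, W)` unless the special coordinate lies in the handle strip `(m₀, m₁)`. -/
def WDom (Z : Set (κ → ℝ)) (W : ℝ → (κ → ℝ) → ℝ) (m₀ m₁ : ℝ) : Set (Ph (Option κ)) :=
  {z | bb z.1 ∈ Z ∧ ((0 < z.2 none ∧ z.2 none < W (z.1 none) (bb z.1)) ∨ z.1 none ∈ Ioo m₀ m₁)}

/-- `E` embeds the punctured-torus bundle with widths `W`, period `L` and handle strip
`(m₀, m₁)`, cut down to `S`, into the toric region over `V`. -/
structure IsWin {κ' : Type} [Fintype κ] [DecidableEq κ] [Fintype κ'] (Z : Set (κ → ℝ))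
    (S : Set (Ph (Option κ))) (W : ℝ → (κ → ℝ) → ℝ) (L m₀ m₁ c₀ : ℝ)
    (E : Ph (Option κ) → Ph κ') (V : Set (κ' → ℝ)) (mv : κ' → ℤ) : Prop where
  isOpen : IsOpen Z
  smoothW : ContDiffOn ℝ ∞ (fun p : ℝ × (κ → ℝ) => W p.1 p.2) (univ ×ˢ Z)
  pos : ∀ M, ∀ b ∈ Z, 0 < W M b
  per : ∀ M, ∀ b ∈ Z, W (M + L) b = W M b
  lt01 : m₀ < m₁
  le1L : m₁ ≤ m₀ + L
  strip : ∀ M ∈ Ioo m₀ m₁, ∀ b ∈ Z, W M b = c₀
  symp : Symp E (S ∩ WDom Z W m₀ m₁)
  maps : MapsTo E (S ∩ WDom Z W m₀ m₁) (T V)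
  equiv : ∀ z ∈ S, bb z.1 ∈ Z → z.1 none ∈ Ioo m₀ m₁ →
    E (z.1, Function.update z.2 none (z.2 none + c₀)) = ((E z).1, fun i => (E z).2 i + mv i)
  refl : ∀ z ∈ S ∩ WDom Z W m₀ m₁, ∀ z' ∈ S ∩ WDom Z W m₀ m₁, LatEq (E z) (E z') →
    bb z.1 = bb z'.1 ∧ (∀ r, ∃ m : ℤ, z'.2 (some r) = z.2 (some r) + m) ∧
    ∃ k j : ℤ, z'.1 none = z.1 none + k * L ∧ z'.2 none = z.2 none + j * W (z.1 none) (bb z.1)

/-- total length of the level curves at depth `u` in the chain of `lam` pieces. -/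
noncomputable def ellW (lam : ℕ) (h w H K u : ℝ) : ℝ :=
  ((lam : ℝ) - 1) * (2 * h + 4 * w - 8 * u) + min (h - u) (K - 2 * u) + min (H - u) (K - 2 * u) +
    min (K - u) (h + H - 2 * u) - 4 * u

end Vale.Agent.P209
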