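import Vale.Agent.P209.Core

/-! Smooth inversion of a monotone function depending on parameters.
Plan: `s ↦ Θ s e` is strictly increasing (`strictMono_of_deriv_pos`), continuous and unbounded
both ways (`Θ (s + n L) e = Θ s e + n c e`), hence bijective; let `g` be the inverse.
Smoothness at `(Θ s₀ e₀, e₀)`: the map `Φ (s, e) = (Θ s e, e)` has invertible derivative,
`ContDiffAt.toOpenPartialHomeomorph` / `ContDiffAt.to_localInverse`; `(x, e) ↦ (g x e, e)`
agrees with the local inverse near the point because `Φ` is injective on `univ ×ˢ U`. -/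

open scoped ContDiff Topology
open Set MeasureTheory

namespace Vale.Agent.P209

theorem exists_mono_inv {E : Type} [NormedAddCommGroup E] [NormedSpace ℝ E] [CompleteSpace E]
    {U : Set E} (hU : IsOpen U) (Θ : ℝ → E → ℝ)
    (hΘ : ContDiffOn ℝ ∞ (fun p : ℝ × E => Θ p.1 p.2) (univ ×ˢ U))
    (hd : ∀ s, ∀ e ∈ U, 0 < deriv (fun s => Θ s e) s) {L : ℝ} (c : E → ℝ)
    (hc : ∀ e ∈ U, 0 < c e) (hper : ∀ s, ∀ e ∈ U, Θ (s + L) e = Θ s e + c e) :
    ∃ g : ℝ → E → ℝ, ContDiffOn ℝ ∞ (fun p : ℝ × E => g p.1 p.2) (univ ×ˢ U) ∧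
      (∀ x, ∀ e ∈ U, Θ (g x e) e = x) ∧ (∀ s, ∀ e ∈ U, g (Θ s e) e = s) := by
  have hO : IsOpen ((univ : Set ℝ) ×ˢ U) := isOpen_univ.prod hU
  have hcs : ∀ e ∈ U, ContDiff ℝ ∞ (fun s => Θ s e) := by
    intro e he
    rw [← contDiffOn_univ]
    exact hΘ.comp (f := fun s : ℝ => (s, e)) (by fun_prop) (fun s _ => ⟨trivial, he⟩)
  have hmono : ∀ e ∈ U, StrictMono (fun s => Θ s e) := fun e he =>
    strictMono_of_deriv_pos (fun s => hd s e he)
  have hnat : ∀ e ∈ U, ∀ n : ℕ, ∀ s, Θ (s + n * L) e = Θ s e + n * c e := by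
    intro e he n
    induction n with
    | zero => simp
    | succ n ih =>
      intro s
      have : s + ((n + 1 : ℕ) : ℝ) * L = (s + n * L) + L := by push_cast; ring
      rw [this, hper _ e he, ih]; push_cast; ring
  have hsurj : ∀ e ∈ U, Function.Surjective (fun s => Θ s e) := by
    intro e he x
    obtain ⟨n, hn⟩ := exists_nat_ge (|x - Θ 0 e| / c e)
    have hce := hc e he
    rw [div_le_iff₀ hce] at hn
    have h1 := hnat e he n 0
    have h2 := hnat e he n (-(n * L))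
    rw [neg_add_cancel] at h2
    have h3 := abs_le.1 hn
    have := intermediate_value_univ (-(n * L)) (0 + n * L) (hcs e he).continuous
      (show x ∈ Icc (Θ (-(n * L)) e) (Θ (0 + n * L) e) from ⟨by linarith [h3.1], by linarith [h3.2]⟩)
    exact this
  classical
  let g : ℝ → E → ℝ := fun x e => if he : e ∈ U then (hsurj e he x).choose else 0
  have hg1 : ∀ x, ∀ e ∈ U, Θ (g x e) e = x := by
    intro x e he
    simp only [g, dif_pos he]
    exact (hsurj e he x).choose_spec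
  have hg2 : ∀ s, ∀ e ∈ U, g (Θ s e) e = s := fun s e he =>
    (hmono e he).injective (hg1 _ e he)
  refine ⟨g, ?_, hg1, hg2⟩
  rintro ⟨x₀, e₀⟩ ⟨-, he₀⟩
  simp only at he₀
  apply ContDiffAt.contDiffWithinAt
  set s₀ := g x₀ e₀ with hs₀
  have hx₀ : Θ s₀ e₀ = x₀ := hg1 x₀ e₀ he₀
  let θ : ℝ × E → ℝ := fun p => Θ p.1 p.2
  have hθ : ContDiffAt ℝ ∞ θ (s₀, e₀) := hΘ.contDiffAt (hO.mem_nhds ⟨trivial, he₀⟩)
  have hθd : HasFDerivAt θ (fderiv ℝ θ (s₀, e₀)) (s₀, e₀) :=
    (hθ.differentiableAt (by simp)).hasFDerivAt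
  set A := fderiv ℝ θ (s₀, e₀) with hA
  have hA1 : 0 < A (1, 0) := by
    have h1 : HasDerivAt (fun s : ℝ => (s, e₀)) ((1 : ℝ), (0 : E)) s₀ :=
      (hasDerivAt_id s₀).prodMk (hasDerivAt_const s₀ e₀)
    have h2 := hθd.comp_hasDerivAt s₀ h1
    have h3 := hd s₀ e₀ he₀
    have h4 : deriv (fun s => Θ s e₀) s₀ = A (1, 0) := h2.deriv
    rwa [h4] at h3
  let B : (ℝ × E) →L[ℝ] (ℝ × E) := A.prod (ContinuousLinearMap.snd ℝ ℝ E)
  let C : (ℝ × E) →L[ℝ] (ℝ × E) :=
    ((A (1, 0))⁻¹ • (ContinuousLinearMap.fst ℝ ℝ E -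
      A.comp ((ContinuousLinearMap.inr ℝ ℝ E).comp (ContinuousLinearMap.snd ℝ ℝ E)))).prod
      (ContinuousLinearMap.snd ℝ ℝ E)
  have hsplit : ∀ s : ℝ, ∀ e : E, A (s, e) = s * A (1, 0) + A (0, e) := by
    intro s e
    have : ((s, e) : ℝ × E) = s • ((1 : ℝ), (0 : E)) + (0, e) := by simp
    rw [this, map_add, map_smul, smul_eq_mul]
  let D : (ℝ × E) ≃L[ℝ] (ℝ × E) := ContinuousLinearEquiv.equivOfInverse B C
    (by
      rintro ⟨s, e⟩
      simp only [B, C]
      ext
      · simp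
        rw [hsplit s e]; field_simp; ring
      · simp)
    (by
      rintro ⟨s, e⟩
      simp only [B, C]
      ext
      · simp
        rw [hsplit]; field_simp; ring
      · simp)
  let Φ : ℝ × E → ℝ × E := fun p => (θ p, p.2)
  have hΦ : ContDiffAt ℝ ∞ Φ (s₀, e₀) := hθ.prodMk contDiffAt_snd
  have hΦd : HasFDerivAt Φ (D : (ℝ × E) →L[ℝ] (ℝ × E)) (s₀, e₀) :=
    hθd.prodMk hasFDerivAt_snd
  have hinv := hΦ.to_localInverse hΦd (by simp)
  have hΦ0 : Φ (s₀, e₀) = (x₀, e₀) := by simp [Φ, θ, hx₀]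
  rw [hΦ0] at hinv
  have hst := hΦ.hasStrictFDerivAt' hΦd (by simp)
  have hr := hst.eventually_right_inverse
  rw [hΦ0] at hr
  have hU' : ∀ᶠ p : ℝ × E in 𝓝 (x₀, e₀), p.2 ∈ U :=
    continuous_snd.continuousAt.eventually (hU.mem_nhds he₀)
  refine (contDiffAt_fst.comp _ hinv).congr_of_eventuallyEq ?_
  filter_upwards [hr, hU'] with p hp hpU
  simp only [Function.comp]
  change g p.1 p.2 = (hst.localInverse Φ D (s₀, e₀) p).1
  set q := hst.localInverse Φ D (s₀, e₀) p
  have h1 : Θ q.1 q.2 = p.1 := congrArg Prod.fst hp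
  have h2 : q.2 = p.2 := show (Φ q).2 = p.2 from congrArg Prod.snd hp
  rw [← h1, h2]
  exact hg2 _ _ hpU

/-- primitives in the first variable of smooth functions with parameters are smooth
(`contDiff_parametric_primitive`-type statement; one way: substitute `y = a + τ (s - a)`,
differentiate under `∫ τ in 0..1` by induction on the order, or use an ODE-free argument via
`hasFDerivAt_integral_of_dominated_of_fderiv_le` on compact neighbourhoods). -/
theorem contDiffOn_primitive {E : Type} [NormedAddCommGroup E] [NormedSpace ℝ E]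
    [FiniteDimensional ℝ E] {U : Set E} (hU : IsOpen U) (f : ℝ → E → ℝ)
    (hf : ContDiffOn ℝ ∞ (fun p : ℝ × E => f p.1 p.2) (univ ×ˢ U)) (a : ℝ) :
    ContDiffOn ℝ ∞ (fun p : ℝ × E => ∫ y in a..p.1, f y p.2) (univ ×ˢ U) := by
  let χ : ContDiffBump (0 : ℝ) := ⟨1, 2, one_pos, one_lt_two⟩
  let F : ℝ → ℝ := (Ioc (0 : ℝ) 1).indicator (fun _ => 1)
  let g : ℝ × E → ℝ → ℝ := fun p x => χ x * ((p.1 - a) * f (a + (-x) * (p.1 - a)) p.2)
  have hO : IsOpen ((univ : Set ℝ) ×ˢ U) := isOpen_univ.prod hU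
  have hF : LocallyIntegrable F volume :=
    ((integrable_indicator_iff measurableSet_Ioc).2 (by simp)).locallyIntegrable
  have hg : ContDiffOn ℝ ((⊤ : ℕ∞) : WithTop ℕ∞) ↿g (((univ : Set ℝ) ×ˢ U) ×ˢ univ) := by
    have h1 : ContDiffOn ℝ ∞ (fun q : (ℝ × E) × ℝ => f (a + (-q.2) * (q.1.1 - a)) q.1.2)
        (((univ : Set ℝ) ×ˢ U) ×ˢ univ) :=
      hf.comp (f := fun q : (ℝ × E) × ℝ => (a + (-q.2) * (q.1.1 - a), q.1.2)) (by fun_prop)
        (fun q hq => ⟨trivial, hq.1.2⟩)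
    have h2 : ContDiff ℝ ∞ (fun q : (ℝ × E) × ℝ => χ q.2) := χ.contDiff.comp contDiff_snd
    exact h2.contDiffOn.mul (ContDiffOn.mul (by fun_prop) h1)
  have key := contDiffOn_convolution_right_with_param_comp (𝕜 := ℝ) (n := ⊤)
    (ContinuousLinearMap.mul ℝ ℝ) (s := (univ : Set ℝ) ×ˢ U) (v := fun _ => (0 : ℝ))
    contDiffOn_const (f := F) (g := g) (k := Metric.closedBall 0 2) (μ := volume) hO
    (isCompact_closedBall 0 2)
    (by
      intro p x _ hx
      have : χ x = 0 := χ.zero_of_le_dist (by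
        simp only [Metric.mem_closedBall, not_le] at hx
        exact hx.le)
      simp [g, this]) hF hg
  refine key.congr ?_
  rintro ⟨s, e⟩ -
  simp only [convolution, ContinuousLinearMap.mul_apply', zero_sub]
  have h1 : (fun t => F t * g (s, e) (-t)) =
      (Ioc (0 : ℝ) 1).indicator (fun t => (s - a) * f ((s - a) * t + a) e) := by
    funext t
    by_cases ht : t ∈ Ioc (0 : ℝ) 1
    · have : χ (-t) = 1 := χ.one_of_mem_closedBall (by
        simp only [Metric.mem_closedBall, dist_zero_right, norm_neg, Real.norm_eq_abs]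
        exact abs_le.2 ⟨by linarith [ht.1], ht.2⟩)
      simp only [F, g, indicator_of_mem ht, this, neg_neg, one_mul]
      congr 2; ring
    · simp [F, indicator_of_notMem ht]
  rw [h1, integral_indicator measurableSet_Ioc, ← intervalIntegral.integral_of_le zero_le_one,
    intervalIntegral.integral_const_mul]
  have := intervalIntegral.mul_integral_comp_mul_add (f := fun y => f y e) (a := 0) (b := 1)
    (s - a) a
  rw [this]
  simp

end Vale.Agent.P209
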