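import Vale.Agent.P209.Lift
import Vale.Agent.P209.Inv

/-! Straightening the window and extending it periodically in the angle. Plan:
`X M b = ∫ m₀..M, W · b` (`contDiffOn_primitive`), inverse `Mi` (`exists_mono_inv`, `c = ℓ`),
`F₂ = liftF (fun y => update y none (Mi (y none) (bb y))) 0`; by `liftF_pair` its angle `none` is
`θ * W`, the other angles are `θ_r - θ W ∂_r Mi`; on the strip `Mi = m₀ + x / c₀`, so there
`F₂` turns `θ ↦ θ + 1` into `η ↦ η + c₀` and nothing else. Put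
`E' z = E (F₂ (z - ⌊θ⌋ e)) + ⌊θ⌋ mv`. It is locally `E (F₂ (z - j e)) + j mv` for a fixed `j`
(on the strip by `equiv`, iterated), so `Symp.of_local` applies. Injectivity: the reduced angles
lie in `[0, 1)`, so the integer `j` of `IsWin.refl` vanishes; `X (M + k L) = X M + k ℓ`. -/

open scoped ContDiff Topology
open Set MeasureTheory

namespace Vale.Agent.P209

theorem cylb_pd {ι : Type} [Fintype ι] [DecidableEq ι] {K : (ι → ℝ) → ℝ} {y : ι → ℝ}
    (hK : DifferentiableAt ℝ K y) (i : ι) :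
    HasDerivAt (fun s => K (Function.update y i s)) (fderiv ℝ K y (Pi.single i 1)) (y i) :=
  hK.hasFDerivAt.comp_hasDerivAt_of_eq (y i) (hasDerivAt_update y i (y i)) (by simp)

theorem cylb_bb_update {β : Type} [DecidableEq β] (y : Option β → ℝ) (s : ℝ) :
    bb (Function.update y none s) = bb y := by
  funext r
  simp [bb]

theorem cylb_ext {β : Type} {y y' : Option β → ℝ} (h : y none = y' none) (h' : bb y = bb y') :
    y = y' := by
  funext o
  rcases o with _ | r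
  · exact h
  · exact congrFun h' r

theorem cylb_bb_smooth {β : Type} [Fintype β] :
    ContDiff ℝ ∞ (bb : (Option β → ℝ) → β → ℝ) :=
  contDiff_pi.2 fun r => contDiff_apply ℝ ℝ (some r)

/-- the straightening map. -/
theorem cylb_str {β : Type} [Fintype β] [DecidableEq β] {Z : Set (β → ℝ)}
    {W : ℝ → (β → ℝ) → ℝ} {L m₀ m₁ c₀ : ℝ} (hZ : IsOpen Z)
    (hW : ContDiffOn ℝ ∞ (fun p : ℝ × (β → ℝ) => W p.1 p.2) (univ ×ˢ Z))
    (hpos : ∀ M, ∀ b ∈ Z, 0 < W M b) (hper : ∀ M, ∀ b ∈ Z, W (M + L) b = W M b)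
    (h01 : m₀ < m₁) (h1L : m₁ ≤ m₀ + L) (hstrip : ∀ M ∈ Ioo m₀ m₁, ∀ b ∈ Z, W M b = c₀) :
    ∃ (F : Ph (Option β) → Ph (Option β)) (μ : (Option β → ℝ) → ℝ)
      (d : (Option β → ℝ) → β → ℝ), Symp F {z | bb z.1 ∈ Z} ∧
      (∀ z, bb (F z).1 = bb z.1) ∧ (∀ z, (F z).1 none = μ z.1) ∧
      (∀ z, bb z.1 ∈ Z → (F z).2 none = z.2 none * W (μ z.1) (bb z.1)) ∧
      (∀ z r, (F z).2 (some r) = z.2 (some r) - z.2 none * d z.1 r) ∧
      (∀ y, bb y ∈ Z → y none ∈ Ioo 0 (c₀ * (m₁ - m₀)) → μ y ∈ Ioo m₀ m₁ ∧ ∀ r, d y r = 0) ∧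
      ∀ y y', bb y ∈ Z → bb y = bb y' → ∀ k : ℤ, μ y' = μ y + k * L →
        y' none = y none + k * ∫ M in m₀..m₀ + L, W M (bb y) := by
  have hc : ∀ b ∈ Z, Continuous fun M => W M b := fun b hb =>
    hW.continuousOn.comp_continuous (f := fun M : ℝ => (M, b)) (by fun_prop)
      fun M => ⟨mem_univ _, hb⟩
  have hX : ∀ b ∈ Z, ∀ s, HasDerivAt (fun s => ∫ M in m₀..s, W M b) (W s b) s := fun b hb s =>
    ((hc b hb).integral_hasStrictDerivAt m₀ s).hasDerivAt
  have hk : ∀ b ∈ Z, ∀ (k : ℤ) s, (∫ M in m₀..s + k * L, W M b) =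
      (∫ M in m₀..s, W M b) + k * ∫ M in m₀..m₀ + L, W M b := by
    intro b hb k s
    have hp : Function.Periodic (fun M => W M b) L := fun M => hper M b hb
    have hi : ∀ t₁ t₂, IntervalIntegrable (fun M => W M b) volume t₁ t₂ := fun _ _ =>
      (hc b hb).intervalIntegrable _ _
    rw [← intervalIntegral.integral_add_adjacent_intervals (hi m₀ s) (hi s _),
      ← hp.intervalIntegral_add_eq s m₀, ← zsmul_eq_mul, ← zsmul_eq_mul,
      hp.intervalIntegral_add_zsmul_eq k s hi]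
  obtain ⟨Mi, hMi, hl, hr⟩ := exists_mono_inv hZ (fun s b => ∫ M in m₀..s, W M b)
    (contDiffOn_primitive hZ W hW m₀) (fun s b hb => by rw [(hX b hb s).deriv]; exact hpos s b hb)
    (L := L) (fun b => ∫ M in m₀..m₀ + L, W M b)
    (fun b hb => intervalIntegral.intervalIntegral_pos_of_pos ((hc b hb).intervalIntegrable _ _)
      (fun M => hpos M b hb) (by linarith))
    (fun s b hb => by simpa using hk b hb 1 s)
  have hU : IsOpen {y : Option β → ℝ | bb y ∈ Z} := hZ.preimage cylb_bb_smooth.continuous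
  have hn : ContDiff ℝ ∞ fun y : Option β → ℝ => y none := contDiff_apply ℝ ℝ none
  have hμ : ContDiffOn ℝ ∞ (fun y : Option β → ℝ => Mi (y none) (bb y)) {y | bb y ∈ Z} :=
    hMi.comp (hn.prodMk cylb_bb_smooth).contDiffOn fun _ h => ⟨mem_univ _, h⟩
  have hω : ContDiffOn ℝ ∞ (fun y : Option β → ℝ => W (Mi (y none) (bb y)) (bb y))
      {y | bb y ∈ Z} :=
    hW.comp (hμ.prodMk cylb_bb_smooth.contDiffOn) fun _ h => ⟨mem_univ _, h⟩
  obtain ⟨f, hf⟩ : ∃ f : (Option β → ℝ) → ℝ, f = fun y => Mi (y none) (bb y) - y none :=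
    ⟨_, rfl⟩
  have hfs : ContDiffOn ℝ ∞ f {y | bb y ∈ Z} := by
    rw [hf]
    exact hμ.sub hn.contDiffOn
  have hfd : ∀ y, bb y ∈ Z → DifferentiableAt ℝ f y := fun y hy =>
    (hfs.contDiffAt (hU.mem_nhds hy)).differentiableAt (by simp)
  have key : ∀ y, bb y ∈ Z → W (Mi (y none) (bb y)) (bb y) * fderiv ℝ f y (Pi.single none 1) =
      1 - W (Mi (y none) (bb y)) (bb y) := by
    intro y hy
    have a := (cylb_pd (hfd y hy) none).add (hasDerivAt_id (y none))
    have a' : HasDerivAt (fun s => Mi s (bb y)) (fderiv ℝ f y (Pi.single none 1) + 1) (y none) := by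
      refine a.congr_of_eventuallyEq (Filter.Eventually.of_forall fun s => ?_)
      simp [hf, cylb_bb_update]
    have b := (hX _ hy (Mi (y none) (bb y))).comp (y none) a'
    have b' : HasDerivAt (fun s : ℝ => s) (W (Mi (y none) (bb y)) (bb y) *
        (fderiv ℝ f y (Pi.single none 1) + 1)) (y none) :=
      b.congr_of_eventuallyEq (Filter.Eventually.of_forall fun s => (hl s _ hy).symm)
    have := b'.unique (hasDerivAt_id (y none))
    linarith
  have hS := lift_exact (Y := fun y => y + f y • (Pi.single none 1 : Option β → ℝ))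
    (K := fun _ => 0)
    (P := fun z j => z.2 j - z.2 none * (W (Mi (z.1 none) (bb z.1)) (bb z.1) *
      fderiv ℝ f z.1 (Pi.single j 1))) hU
    (contDiffOn_id.add (hfs.smul contDiffOn_const)) contDiffOn_const
    (fun z hz => ContDiffAt.contDiffWithinAt (contDiffAt_pi.2 fun j =>
      (contDiffAt_pi.1 contDiffAt_snd j).sub ((contDiffAt_pi.1 contDiffAt_snd none).mul
        (((hω.contDiffAt (hU.mem_nhds hz)).comp z contDiffAt_fst).mul
          ((((hfs.contDiffAt (hU.mem_nhds hz)).fderiv_right (by simp)).comp z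
            contDiffAt_fst).clm_apply contDiffAt_const)))))
    fun z hz v => by
      rw [lift_shear none (hfd _ hz), key _ hz]
      simp only [sub_mul, mul_assoc, Finset.sum_sub_distrib, ← Finset.mul_sum, lift_lin]
      simp
      ring
  refine ⟨_, fun y => Mi (y none) (bb y), fun y r => W (Mi (y none) (bb y)) (bb y) *
    fderiv ℝ f y (Pi.single (some r) 1), hS, fun z => ?_, fun z => ?_, fun z hz => ?_,
    fun z r => rfl, fun y hy hy' => ?_, fun y y' hy hb k hk' => ?_⟩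
  · funext r
    simp [bb]
  · simp [hf]
  · simp only
    rw [key _ hz]
    ring
  · have hc0 : 0 < c₀ := by
      rw [← hstrip ((m₀ + m₁) / 2) ⟨by linarith, by linarith⟩ _ hy]
      exact hpos _ _ hy
    have hm : ∀ x ∈ Ioo 0 (c₀ * (m₁ - m₀)), m₀ + x / c₀ ∈ Ioo m₀ m₁ := by
      intro x hx
      have := div_pos hx.1 hc0
      have : x / c₀ < m₁ - m₀ := by rw [div_lt_iff₀' hc0]; exact hx.2
      constructor <;> linarith
    have hv : ∀ x ∈ Ioo 0 (c₀ * (m₁ - m₀)), ∀ b ∈ Z, Mi x b = m₀ + x / c₀ := by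
      intro x hx b hb
      have h1 := hm x hx
      have h2 : (∫ M in m₀..m₀ + x / c₀, W M b) = x := by
        rw [intervalIntegral.integral_of_le h1.1.le,
          setIntegral_congr_fun (g := fun _ => c₀) measurableSet_Ioc
            (fun M hM => hstrip M ⟨hM.1, hM.2.trans_lt h1.2⟩ b hb),
          ← intervalIntegral.integral_of_le h1.1.le, intervalIntegral.integral_const]
        simp only [smul_eq_mul, add_sub_cancel_left]
        field_simp
      have h3 := hr (m₀ + x / c₀) b hb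
      simp only [h2] at h3
      exact h3
    refine ⟨by simp only [hv _ hy' _ hy]; exact hm _ hy', fun r => ?_⟩
    have he : f =ᶠ[𝓝 y] fun y => m₀ + y none / c₀ - y none := by
      filter_upwards [hU.mem_nhds hy, (isOpen_Ioo.preimage hn.continuous).mem_nhds hy'] with
        x h1 h2
      rw [hf]
      simp only [hv _ h2 _ h1]
    simp only
    rw [he.fderiv_eq, fderiv_single_eq_zero (some r) (fun y t => by simp), mul_zero]
  · have h1 := hl (y none) _ hy
    have h2 := hl (y' none) _ hy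
    simp only [← hb] at hk'
    rw [hk', hk _ hy, h1] at h2
    exact h2.symm

theorem exists_straight {β κ' : Type} [Fintype β] [DecidableEq β] [Fintype κ'] {Z : Set (β → ℝ)}
    {W : ℝ → (β → ℝ) → ℝ} {L m₀ m₁ c₀ : ℝ} {E : Ph (Option β) → Ph κ'} {V : Set (κ' → ℝ)}
    {mv : κ' → ℤ} (h : IsWin Z univ W L m₀ m₁ c₀ E V mv) :
    ∃ E' : Ph (Option β) → Ph κ',
      Symp E' {z | bb z.1 ∈ Z ∧ ((∀ j : ℤ, z.2 none ≠ j) ∨ z.1 none ∈ Ioo 0 (c₀ * (m₁ - m₀)))} ∧
      MapsTo E' {z | bb z.1 ∈ Z ∧ ((∀ j : ℤ, z.2 none ≠ j) ∨ z.1 none ∈ Ioo 0 (c₀ * (m₁ - m₀)))}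
        (T V) ∧
      ∀ z z' : Ph (Option β),
        bb z.1 ∈ Z → ((∀ j : ℤ, z.2 none ≠ j) ∨ z.1 none ∈ Ioo 0 (c₀ * (m₁ - m₀))) →
        bb z'.1 ∈ Z → ((∀ j : ℤ, z'.2 none ≠ j) ∨ z'.1 none ∈ Ioo 0 (c₀ * (m₁ - m₀))) →
        LatEq (E' z) (E' z') → bb z.1 = bb z'.1 ∧ ∃ k j : ℤ,
          z'.1 none = z.1 none + k * ∫ M in m₀..m₀ + L, W M (bb z.1) ∧
          z'.2 none = z.2 none + j ∧ (k = 0 → LatEq z z') := by
  obtain ⟨F, μ, d, hF, hb, hx, hθ, hη, hst, hk⟩ :=
    cylb_str h.isOpen h.smoothW h.pos h.per h.lt01 h.le1L h.strip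
  obtain ⟨sh, hsh⟩ : ∃ sh : ℤ → Ph (Option β) → Ph (Option β),
      sh = fun (j : ℤ) z => z + (0, Pi.single none (-(j : ℝ))) := ⟨_, rfl⟩
  have s1 : ∀ j z, (sh j z).1 = z.1 := fun j z => by simp [hsh]
  have s2 : ∀ j z, (sh j z).2 none = z.2 none - j := fun j z => by simp [hsh, sub_eq_add_neg]
  have s3 : ∀ j z r, (sh j z).2 (some r) = z.2 (some r) := fun j z r => by simp [hsh]
  obtain ⟨Φ, hΦ⟩ : ∃ Φ : ℤ → Ph (Option β) → Ph κ',
      Φ = fun (j : ℤ) z => E (F (sh j z)) + (0, fun i => (j : ℝ) * mv i) := ⟨_, rfl⟩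
  obtain ⟨U, hU⟩ : ∃ U : ℤ → Set (Ph (Option β)), U = fun (j : ℤ) => {z | bb z.1 ∈ Z ∧
      (z.2 none ∈ Ioo (j : ℝ) (j + 1) ∨ z.1 none ∈ Ioo 0 (c₀ * (m₁ - m₀)))} := ⟨_, rfl⟩
  have hZ' : IsOpen {z : Ph (Option β) | bb z.1 ∈ Z} :=
    h.isOpen.preimage (cylb_bb_smooth.continuous.comp continuous_fst)
  have c1 : Continuous fun z : Ph (Option β) => z.1 none := by fun_prop
  have c2 : Continuous fun z : Ph (Option β) => z.2 none := by fun_prop
  have hUo : ∀ j, IsOpen (U j) := fun j => by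
    rw [hU]
    exact hZ'.inter ((isOpen_Ioo.preimage c2).union (isOpen_Ioo.preimage c1))
  have hUZ : ∀ j z, z ∈ U j → bb z.1 ∈ Z := fun j z hz => by
    rw [hU] at hz
    exact hz.1
  have hdom : ∀ j z, z ∈ U j → F (sh j z) ∈ univ ∩ WDom Z W m₀ m₁ := by
    intro j z hz
    rw [hU] at hz
    obtain ⟨h1, h2⟩ := hz
    refine ⟨mem_univ _, by rw [hb, s1]; exact h1, ?_⟩
    rw [hθ _ (by rw [s1]; exact h1), hx, hb, s1, s2]
    rcases h2 with h2 | h2
    · have := h.pos (μ z.1) _ h1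
      left
      constructor <;> nlinarith [h2.1, h2.2]
    · exact Or.inr (hst _ h1 h2).1
  have hΦs : ∀ j, Symp (Φ j) (U j) := by
    intro j
    have a : Symp (sh j) (U j) := by
      rw [hsh]
      exact (symp_add_const _).mono (hUo j) (subset_univ _)
    have b : Symp (fun z => F (sh j z)) (U j) := hF.comp a fun z hz => by
      change bb (sh j z).1 ∈ Z
      rw [s1]
      exact hUZ j z hz
    rw [hΦ]
    exact (symp_add_const _).comp (h.symp.comp b (hdom j)) (mapsTo_univ _ _)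
  have hstep : ∀ z : Ph (Option β), bb z.1 ∈ Z → z.1 none ∈ Ioo 0 (c₀ * (m₁ - m₀)) →
      ∀ j : ℤ, Φ (j + 1) z = Φ j z := by
    intro z h1 h2 j
    obtain ⟨a1, a2⟩ := hst _ h1 h2
    have e : F (sh j z) = ((F (sh (j + 1) z)).1, Function.update (F (sh (j + 1) z)).2 none
        ((F (sh (j + 1) z)).2 none + c₀)) := by
      refine Prod.ext (cylb_ext ?_ ?_) (cylb_ext ?_ ?_)
      · simp only [hx, s1]
      · simp only [hb, s1]
      · simp only [Function.update_self]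
        rw [hθ _ (by rw [s1]; exact h1), hθ _ (by rw [s1]; exact h1), s1, s1, s2, s2,
          h.strip _ a1 _ h1]
        push_cast
        ring
      · rw [cylb_bb_update]
        funext r
        simp only [bb, hη, s1, s3, a2, mul_zero]
    have e' := h.equiv (F (sh (j + 1) z)) (mem_univ _) (by rw [hb, s1]; exact h1)
      (by rw [hx, s1]; exact a1)
    simp only [hΦ]
    rw [e, e']
    refine Prod.ext (by simp) (funext fun i => ?_)
    simp only [Prod.snd_add, Pi.add_apply]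
    push_cast
    ring
  have hall : ∀ z : Ph (Option β), bb z.1 ∈ Z → z.1 none ∈ Ioo 0 (c₀ * (m₁ - m₀)) →
      ∀ j : ℤ, Φ j z = Φ 0 z := by
    intro z h1 h2 j
    induction j using Int.induction_on with
    | zero => rfl
    | succ n ih => rw [hstep z h1 h2, ih]
    | pred n ih => rw [← hstep z h1 h2, sub_add_cancel, ih]
  have hfl : ∀ z : Ph (Option β), bb z.1 ∈ Z →
      ((∀ j : ℤ, z.2 none ≠ j) ∨ z.1 none ∈ Ioo 0 (c₀ * (m₁ - m₀))) → z ∈ U ⌊z.2 none⌋ := by
    intro z h1 h2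
    rw [hU]
    exact ⟨h1, h2.imp_left fun h2 => ⟨lt_of_le_of_ne (Int.floor_le _) (h2 _).symm,
      Int.lt_floor_add_one _⟩⟩
  have hD : IsOpen {z : Ph (Option β) | bb z.1 ∈ Z ∧
      ((∀ j : ℤ, z.2 none ≠ j) ∨ z.1 none ∈ Ioo 0 (c₀ * (m₁ - m₀)))} := by
    refine isOpen_iff_mem_nhds.2 fun z hz => Filter.mem_of_superset
      ((hUo _).mem_nhds (hfl z hz.1 hz.2)) fun x hx => ?_
    rw [hU] at hx
    refine ⟨hx.1, hx.2.imp_left fun h2 j hj => ?_⟩
    rw [hj] at h2
    have a : ⌊z.2 none⌋ < j := by exact_mod_cast h2.1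
    have b : j < ⌊z.2 none⌋ + 1 := by exact_mod_cast h2.2
    omega
  refine ⟨fun z => Φ ⌊z.2 none⌋ z, Symp.of_local hD fun z hz => ?_, fun z hz => ?_, ?_⟩
  · refine ⟨Φ ⌊z.2 none⌋, U ⌊z.2 none⌋, hΦs _, hfl z hz.1 hz.2, ?_⟩
    filter_upwards [(hUo _).mem_nhds (hfl z hz.1 hz.2)] with x hx
    rw [hU] at hx
    rcases hx.2 with h2 | h2
    · rw [Int.floor_eq_iff.2 ⟨h2.1.le, h2.2⟩]
    · rw [hall x hx.1 h2, hall x hx.1 h2 ⌊z.2 none⌋]
  · have := h.maps (hdom _ z (hfl z hz.1 hz.2))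
    simp only [hΦ]
    change (E (F (sh ⌊z.2 none⌋ z))).1 + 0 ∈ V
    rw [add_zero]
    exact this
  · intro z z' h1 h2 h3 h4 hL
    have hL' : LatEq (E (F (sh ⌊z.2 none⌋ z))) (E (F (sh ⌊z'.2 none⌋ z'))) := by
      simp only [hΦ] at hL
      refine ⟨by simpa using hL.1, fun i => ?_⟩
      obtain ⟨m, hm⟩ := hL.2 i
      simp only [Prod.snd_add, Pi.add_apply] at hm
      exact ⟨m + ⌊z.2 none⌋ * mv i - ⌊z'.2 none⌋ * mv i, by push_cast; linarith⟩
    obtain ⟨r1, r2, k, j, r3, r4⟩ := h.refl _ (hdom _ z (hfl z h1 h2)) _ (hdom _ z' (hfl z' h3 h4))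
      hL'
    rw [hb, hb, s1, s1] at r1
    rw [hx, hx, s1, s1] at r3
    have hp : Function.Periodic (fun M => W M (bb z.1)) L := fun M => h.per M _ h1
    have hw : W (μ z'.1) (bb z'.1) = W (μ z.1) (bb z.1) := by
      rw [← r1, r3]
      exact hp.int_mul k _
    rw [hθ _ (by rw [s1]; exact h3), hθ _ (by rw [s1]; exact h1), hx, hb, s1, s1, s2, s2,
      hw] at r4
    have r5 : z'.2 none - ⌊z'.2 none⌋ = z.2 none - ⌊z.2 none⌋ + j :=
      mul_right_cancel₀ (h.pos (μ z.1) _ h1).ne' (by rw [r4]; ring)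
    have hj : j = 0 := by
      have a := Int.floor_le (z.2 none)
      have b := Int.lt_floor_add_one (z.2 none)
      have a' := Int.floor_le (z'.2 none)
      have b' := Int.lt_floor_add_one (z'.2 none)
      have p : (j : ℝ) < 1 := by linarith
      have q : (-1 : ℝ) < j := by linarith
      have p' : j < 1 := by exact_mod_cast p
      have q' : -1 < j := by exact_mod_cast q
      omega
    rw [hj, Int.cast_zero, add_zero] at r5
    have r6 : z'.2 none = z.2 none + (⌊z'.2 none⌋ - ⌊z.2 none⌋ : ℤ) := by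
      push_cast
      linarith
    have r7 := hk z.1 z'.1 h1 r1 k r3
    refine ⟨r1, k, _, r7, r6, fun h0 => ?_⟩
    rw [h0, Int.cast_zero, zero_mul, add_zero] at r7
    have r8 : z.1 = z'.1 := cylb_ext r7.symm r1
    refine ⟨r8, fun i => ?_⟩
    rcases i with _ | r
    · exact ⟨_, r6⟩
    · obtain ⟨m, hm⟩ := r2 r
      rw [hη, hη, s1, s1, s2, s2, s3, s3, r5, r8] at hm
      exact ⟨m, by linarith⟩

end Vale.Agent.P209
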