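import Vale.Agent.P209.Slice

/-! Volume of the simplex; smooth approximation near a compact set.
Plan: `volume_spx` for `Fin n` by induction (`volume_option_slices`, `volume_reindex` with
`finSuccEquiv`, `∫ (R - x)ⁿ / n!`), then reindex; or use
`MeasureTheory.volume_sum_rpow_lt` with `p = 1` and symmetry. `exists_approx`: extend `f` from a
compact neighbourhood of `C` inside `O` (Tietze or a bump function) and apply
`Continuous.exists_contMDiff_approx` / `exists_contDiff...`. -/

open scoped ContDiff Topology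
open Set MeasureTheory

namespace Vale.Agent.P209

variable {ι : Type} [Fintype ι] [DecidableEq ι]

omit [DecidableEq ι] in
theorem isOpen_spx (R : ℝ) : IsOpen (spx ι R) := by
  have e : spx ι R = (⋂ i, {y : ι → ℝ | 0 < y i}) ∩ {y | ∑ i, y i < R} := by
    ext y
    simp [spx]
  rw [e]
  exact (isOpen_iInter_of_finite fun i => isOpen_lt continuous_const (continuous_apply i)).inter
    (isOpen_lt (by fun_prop) continuous_const)

theorem spx_int (n : ℕ) {R : ℝ} (hR : 0 < R) :
    ∫⁻ x in Ioo 0 R, ENNReal.ofReal ((R - x) ^ n / n.factorial) =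
      ENNReal.ofReal (R ^ (n + 1) / (n + 1).factorial) := by
  have hc : Continuous fun x : ℝ => (R - x) ^ n / n.factorial := by fun_prop
  rw [← ofReal_integral_eq_lintegral_ofReal
    ((hc.integrableOn_Icc (a := 0) (b := R)).mono_set Ioo_subset_Icc_self)]
  · congr 1
    rw [← integral_Ioc_eq_integral_Ioo, ← intervalIntegral.integral_of_le hR.le,
      intervalIntegral.integral_div,
      intervalIntegral.integral_comp_sub_left (fun x : ℝ => x ^ n) R, integral_pow,
      Nat.factorial_succ]
    have : (n.factorial : ℝ) ≠ 0 := by positivity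
    push_cast
    simp only [sub_self, sub_zero, ne_eq, Nat.add_eq_zero_iff, one_ne_zero, and_false,
      not_false_eq_true, zero_pow]
    field_simp
  · refine (ae_restrict_iff' measurableSet_Ioo).2 (Filter.Eventually.of_forall fun x hx => ?_)
    have := sub_pos.2 hx.2
    positivity

theorem spx_vol_pos (κ : Type) [Fintype κ] : ∀ R : ℝ, 0 < R →
    volume (spx κ R) = ENNReal.ofReal (R ^ Fintype.card κ / (Fintype.card κ).factorial) := by
  classical
  refine Fintype.induction_empty_option (P := fun κ _ => ∀ R : ℝ, 0 < R →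
    volume (spx κ R) = ENNReal.ofReal (R ^ Fintype.card κ / (Fintype.card κ).factorial))
    ?_ ?_ ?_ κ
  · intro α β _ e ih R hR
    letI : Fintype α := Fintype.ofEquiv β e.symm
    rw [← Fintype.card_congr e, ← ih R hR, ← volume_reindex e (isOpen_spx R).measurableSet]
    congr 1
    ext y
    simp only [spx, mem_setOf_eq, Equiv.sum_comp e.symm y]
    exact and_congr_left' ⟨fun h i => by simpa using h (e i), fun h k => h _⟩
  · intro R hR
    have e : spx PEmpty R = univ := by
      ext y
      simp [spx, hR]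
    rw [e]
    simp [volume_pi]
  · intro α _ ih R hR
    rw [volume_option_slices (isOpen_spx R).measurableSet, Fintype.card_option,
      ← spx_int _ hR, ← lintegral_indicator measurableSet_Ioo]
    refine lintegral_congr fun x => ?_
    by_cases hx : x ∈ Ioo 0 R
    · rw [indicator_of_mem hx, ← ih _ (sub_pos.2 hx.2)]
      congr 1
      ext y
      simp only [spx, mem_setOf_eq, Fintype.sum_option, Option.forall, Option.elim, hx.1,
        true_and]
      exact and_congr_right' ⟨fun h => by linarith, fun h => by linarith⟩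
    · rw [indicator_of_notMem hx]
      have e : {y : α → ℝ | (fun o => Option.elim o x y) ∈ spx (Option α) R} = ∅ := by
        ext y
        simp only [spx, mem_setOf_eq, Fintype.sum_option, Option.forall, Option.elim,
          mem_empty_iff_false, iff_false]
        rintro ⟨⟨h1, h2⟩, h3⟩
        have := Finset.sum_nonneg fun i (_ : i ∈ Finset.univ) => (h2 i).le
        exact hx ⟨h1, by linarith⟩
      rw [e, measure_empty]

theorem volume_spx {R : ℝ} (hR : 0 ≤ R) (hι : 0 < Fintype.card ι) :
    volume (spx ι R) = ENNReal.ofReal (R ^ Fintype.card ι / (Fintype.card ι).factorial) := by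
  rcases hR.eq_or_lt with h | h
  · subst h
    have e : spx ι 0 = ∅ := by
      ext y
      simp only [spx, mem_setOf_eq, mem_empty_iff_false, iff_false, not_and, not_lt]
      exact fun h => Finset.sum_nonneg fun i _ => (h i).le
    rw [e, zero_pow hι.ne']
    simp
  · exact spx_vol_pos ι R h

theorem spx_plane (a : ℝ) (hι : 0 < Fintype.card ι) :
    volume {y : ι → ℝ | ∑ i, y i = a} = 0 := by
  obtain ⟨i₀⟩ := Fintype.card_pos_iff.1 hι
  refine le_antisymm ((volume_le_of_slices i₀
    (isClosed_eq (by fun_prop) continuous_const).measurableSet MeasurableSet.empty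
    fun y => ?_).trans measure_empty.le) zero_le
  refine le_trans (le_of_eq (Set.Subsingleton.measure_zero (fun s hs t ht => ?_) _)) zero_le
  simp only [mem_setOf_eq, Finset.sum_update_of_mem (Finset.mem_univ i₀)] at hs ht
  linarith

theorem volume_shell {a R : ℝ} (ha : 0 ≤ a) (h : a ≤ R) (hι : 0 < Fintype.card ι) :
    ENNReal.ofReal ((R ^ Fintype.card ι - a ^ Fintype.card ι) / (Fintype.card ι).factorial) ≤
      volume {y : ι → ℝ | (∀ i, 0 < y i) ∧ a < ∑ i, y i ∧ ∑ i, y i < R} := by
  rw [sub_div, ENNReal.ofReal_sub _ (by positivity), ← volume_spx ha hι,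
    ← volume_spx (ha.trans h) hι, tsub_le_iff_right]
  have hs : spx ι R ⊆ ({y : ι → ℝ | (∀ i, 0 < y i) ∧ a < ∑ i, y i ∧ ∑ i, y i < R} ∪ spx ι a) ∪
      {y : ι → ℝ | ∑ i, y i = a} := by
    intro y hy
    rcases lt_trichotomy a (∑ i, y i) with h1 | h1 | h1
    · exact Or.inl (Or.inl ⟨hy.1, h1, hy.2⟩)
    · exact Or.inr h1.symm
    · exact Or.inl (Or.inr ⟨hy.1, h1⟩)
  refine (measure_mono hs).trans ((measure_union_le _ _).trans ?_)
  rw [spx_plane a hι, add_zero]
  exact measure_union_le _ _

theorem lintegral_cone {R : ℝ} (hR : 0 ≤ R) :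
    ∫⁻ y in {y : ι → ℝ | 0 ≤ y}, ENNReal.ofReal (R - ∑ i, y i) =
      ENNReal.ofReal (R ^ (Fintype.card ι + 1) / (Fintype.card ι + 1).factorial) := by
  have h1 : (Set.pi univ fun _ : ι => Ioi (0 : ℝ)) =ᵐ[volume] {y : ι → ℝ | 0 ≤ y} :=
    Measure.univ_pi_Ioi_ae_eq_Ici (μ := fun _ : ι => (volume : Measure ℝ)) (f := 0)
  have h2 := volume_option (κ := ι) (D := Set.pi univ fun _ : ι => Ioi (0 : ℝ))
    (MeasurableSet.univ_pi fun _ => measurableSet_Ioi) (f := fun _ => 0)
    (g := fun y => R - ∑ i, y i) measurable_const (by fun_prop)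
  simp only [sub_zero] at h2
  rw [← setLIntegral_congr h1, ← h2, ← Fintype.card_option,
    ← volume_spx hR (by rw [Fintype.card_option]; omega)]
  congr 1
  ext z
  simp only [spx, bb, mem_setOf_eq, Fintype.sum_option, Option.forall, mem_pi, mem_univ,
    mem_Ioi, forall_const]
  exact ⟨fun h => ⟨⟨h.2.1, h.1⟩, by linarith [h.2.2]⟩, fun h => ⟨h.1.2, h.1.1, by linarith [h.2]⟩⟩

theorem exists_approx {C O : Set (ι → ℝ)} (hC : IsCompact C) (hO : IsOpen O) (hCO : C ⊆ O)
    {f : (ι → ℝ) → ℝ} (hf : ContinuousOn f O) {ε : ℝ} (hε : 0 < ε) :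
    ∃ (g : (ι → ℝ) → ℝ) (O' : Set (ι → ℝ)), ContDiff ℝ ∞ g ∧ IsOpen O' ∧ C ⊆ O' ∧ O' ⊆ O ∧
      ∀ t ∈ O', |g t - f t| < ε := by
  obtain ⟨K, hK, h1, h2⟩ := exists_compact_between hC hO hCO
  obtain ⟨F, hF⟩ := ContinuousMap.exists_restrict_eq hK.isClosed
    ⟨K.restrict f, (hf.mono h2).restrict⟩
  obtain ⟨g, hg, ha, -⟩ := F.continuous.exists_contDiff_approx ⊤ (ε := fun _ => ε)
    continuous_const fun _ => hε
  refine ⟨g, interior K, hg, isOpen_interior, h1, interior_subset.trans h2, fun t ht => ?_⟩
  have e : F t = f t := congrArg (fun G : C(K, ℝ) => G ⟨t, interior_subset ht⟩) hF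
  rw [← e]
  exact ha t

end Vale.Agent.P209
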