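import Vale.Agent.P209.CylA
import Vale.Agent.P209.CylB
import Vale.Agent.P209.Spx

/-! Any cut of the window embeds. Plan: for compact `K` let `C` be its projection to the base,
`2δ` a margin with `lc + 2δ < x < lc + ℓ - 2δ` on `K`; `G` a smooth `δ`-approximation of `lc`
(`exists_approx`) on an open `O' ⊇ C`, shrunk so that `ℓ ≤ Lm` there (`ℓ` is smooth on `Z`,
`contDiffOn_primitive`); `F` from `exists_slit` with `g = c₀ (m₁ - m₀)` (positive if `Z` is
nonempty), `U' = {bb ∈ O', G < x < G + ℓ}`, map `E' ∘ F`. Two points of `U'` over the same base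
point differ by less than `ℓ`, so `k = 0`. -/

open scoped ContDiff Topology
open Set MeasureTheory

namespace Vale.Agent.P209

theorem cyl {β κ' : Type} [Fintype β] [DecidableEq β] [Fintype κ'] {Z : Set (β → ℝ)}
    {W : ℝ → (β → ℝ) → ℝ} {L m₀ m₁ c₀ : ℝ} {E : Ph (Option β) → Ph κ'} {V : Set (κ' → ℝ)}
    {mv : κ' → ℤ} (h : IsWin Z univ W L m₀ m₁ c₀ E V mv) {lc : (β → ℝ) → ℝ}
    (hlc : ContinuousOn lc Z) :
    TEmb {y : Option β → ℝ | bb y ∈ Z ∧ lc (bb y) < y none ∧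
      y none < lc (bb y) + ∫ M in m₀..m₀ + L, W M (bb y)} V := by
  intro K hK hKU
  rcases K.eq_empty_or_nonempty with rfl | ⟨z₀, hz₀⟩
  · exact ⟨fun _ => 0, ∅, ⟨isOpen_empty, contDiffOn_empty, fun _ hx => hx.elim⟩, Subset.rfl,
      mapsTo_empty _ _, fun _ hx => hx.elim⟩
  set ℓ : (β → ℝ) → ℝ := fun b => ∫ M in m₀..m₀ + L, W M b with hℓdef
  have hc₀ : 0 < c₀ := by
    have h1 := h.lt01
    rw [← h.strip ((m₀ + m₁) / 2) ⟨by linarith, by linarith⟩ _ (hKU hz₀).1]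
    exact h.pos _ _ (hKU hz₀).1
  have hℓ : ContDiffOn ℝ ∞ ℓ Z :=
    (contDiffOn_primitive h.isOpen W h.smoothW m₀).comp
      (contDiff_const.prodMk contDiff_id).contDiffOn fun b hb => ⟨mem_univ (m₀ + L), hb⟩
  have hpos : ∀ b ∈ Z, 0 < ℓ b := by
    intro b hb
    have hc : Continuous fun M => W M b :=
      continuousOn_univ.1 (h.smoothW.continuousOn.comp
        (continuous_id.prodMk continuous_const).continuousOn fun M _ => ⟨mem_univ M, hb⟩)
    exact intervalIntegral.intervalIntegral_pos_of_pos (hc.intervalIntegrable _ _)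
      (fun M => h.pos M b hb) (by linarith [h.lt01, h.le1L])
  have hb : Continuous fun z : Ph (Option β) => bb z.1 := by unfold bb; fun_prop
  have hx : Continuous fun z : Ph (Option β) => z.1 none := by fun_prop
  have hm : MapsTo (fun z : Ph (Option β) => bb z.1) K Z := fun z hz => (hKU hz).1
  have c1 : ContinuousOn (fun z : Ph (Option β) => lc (bb z.1)) K := hlc.comp hb.continuousOn hm
  have c2 : ContinuousOn (fun z : Ph (Option β) => ℓ (bb z.1)) K :=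
    hℓ.continuousOn.comp hb.continuousOn hm
  obtain ⟨δ, hδ, hδ'⟩ := hK.exists_forall_le' (a := 0)
    (f := fun z => min (z.1 none - lc (bb z.1)) (lc (bb z.1) + ℓ (bb z.1) - z.1 none))
    ((hx.continuousOn.sub c1).inf ((c1.add c2).sub hx.continuousOn)) fun z hz =>
      lt_min (sub_pos.2 (hKU hz).2.1) (sub_pos.2 (hKU hz).2.2)
  obtain ⟨G, O, hG, hO, hCO, hOZ, hGl⟩ := exists_approx (hK.image hb) h.isOpen
    hm.image_subset hlc hδ
  obtain ⟨Lm, hLm⟩ := (hK.image_of_continuousOn c2).bddAbove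
  set Z' := O ∩ ℓ ⁻¹' Iio (Lm + 1) with hZ'
  have hZ'o : IsOpen Z' := (hℓ.continuousOn.mono hOZ).isOpen_inter_preimage hO isOpen_Iio
  have hZ'Z : Z' ⊆ Z := fun b hb => hOZ hb.1
  obtain ⟨F, hF, hFb, hFs, hFk, hFi⟩ := exists_slit hZ'o (hℓ.mono hZ'Z) hG.contDiffOn
    (fun b hb => hpos b (hZ'Z hb)) (Lm := Lm + 1) (fun b hb => le_of_lt hb.2)
    (mul_pos hc₀ (sub_pos.2 h.lt01))
  obtain ⟨E', hE, hEm, hEi⟩ := exists_straight h
  set U' : Set (Ph (Option β)) := ({z | bb z.1 ∈ Z'} ∩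
    (fun z => G (bb z.1) + ℓ (bb z.1) - z.1 none) ⁻¹' Ioi 0) ∩ {z | G (bb z.1) < z.1 none}
    with hU'
  have hU'o : IsOpen U' := by
    refine IsOpen.inter (ContinuousOn.isOpen_inter_preimage ?_ (hZ'o.preimage hb) isOpen_Ioi)
      (isOpen_lt (hG.continuous.comp hb) hx)
    exact ((hG.continuous.comp hb).continuousOn.add
      (hℓ.continuousOn.comp hb.continuousOn fun z hz => hZ'Z hz)).sub hx.continuousOn
  have hin : ∀ z ∈ U', bb (F z).1 ∈ Z ∧
      ((∀ j : ℤ, (F z).2 none ≠ j) ∨ (F z).1 none ∈ Ioo 0 (c₀ * (m₁ - m₀))) := fun z hz =>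
    ⟨by rw [hFb]; exact hZ'Z hz.1.1, hFs z hz.1.1 hz.2 (sub_pos.1 hz.1.2)⟩
  refine ⟨fun z => E' (F z), U', hE.comp (hF.mono hU'o fun z hz => hz.1.1) hin, fun z hz => ?_,
    fun z hz => hEm (hin z hz), fun z hz z' hz' hL => ?_⟩
  · have h1 : bb z.1 ∈ O := hCO ⟨z, hz, rfl⟩
    have h2 : ℓ (bb z.1) ≤ Lm := hLm ⟨z, hz, rfl⟩
    have h3 := abs_lt.1 (hGl _ h1)
    have h4 := le_min_iff.1 (hδ' z hz)
    refine ⟨⟨⟨h1, show ℓ (bb z.1) < Lm + 1 by linarith⟩, ?_⟩, ?_⟩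
    · show 0 < G (bb z.1) + ℓ (bb z.1) - z.1 none
      linarith [h3.1, h4.2]
    · show G (bb z.1) < z.1 none
      linarith [h3.2, h4.1]
  · obtain ⟨e, k, j, h1, h2, h3⟩ := hEi _ _ (hin z hz).1 (hin z hz).2 (hin z' hz').1 (hin z' hz').2 hL
    rw [hFb, hFb] at e
    rw [hFb] at h1
    have h4 := (hFk z z' hz.1.1 e k j h1 h2).1
    have h5 : 0 < G (bb z.1) + ℓ (bb z.1) - z.1 none := hz.1.2
    have h6 : 0 < G (bb z'.1) + ℓ (bb z'.1) - z'.1 none := hz'.1.2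
    have h7 : G (bb z.1) < z.1 none := hz.2
    have h8 : G (bb z'.1) < z'.1 none := hz'.2
    rw [← e] at h6 h8
    have h9 := hpos _ (hZ'Z hz.1.1)
    have hk1 : (k : ℝ) < 1 := by nlinarith
    have hk2 : (-1 : ℝ) < k := by nlinarith
    have hk : k = 0 := by
      have a1 : k < 1 := by exact_mod_cast hk1
      have a2 : -1 < k := by exact_mod_cast hk2
      omega
    exact hFi z z' hz.1.1 hz'.1.1 (h3 hk)

end Vale.Agent.P209
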