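import Vale.Agent.P209.Core

/-! Smooth ramp, smooth minimum, smooth staircase. Plan: `Real.smoothTransition` API
(`zero_of_nonpos`, `one_of_one_le`, `pos_of_pos`, `contDiff`; prove
`smoothTransition x + smoothTransition (1 - x) = 1` from the definition);
`contDiff_infty_iff_deriv` / FTC for `ramp`; `ramp x - ramp (-x) - x` has derivative zero and
vanishes at `0`. `stair`: on `(k - 1 + g, k + 1)` it equals
`k - 1 + smoothTransition ((ξ - k) / g)`. -/

open scoped ContDiff Topology
open Set MeasureTheory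

namespace Vale.Agent.P209

variable {ν : ℝ}

theorem rp_nonneg (ν x : ℝ) : 0 ≤ rp ν x := by
  exact Real.smoothTransition.nonneg _
theorem rp_le_one (ν x : ℝ) : rp ν x ≤ 1 := by
  exact Real.smoothTransition.le_one _
theorem rp_pos (hν : 0 < ν) {x : ℝ} (hx : -ν < x) : 0 < rp ν x := by
  exact Real.smoothTransition.pos_of_pos (div_pos (by linarith) (by linarith))
theorem rp_of_le (hν : 0 < ν) {x : ℝ} (hx : x ≤ -ν) : rp ν x = 0 := by
  exact Real.smoothTransition.zero_of_nonpos
    (div_nonpos_of_nonpos_of_nonneg (by linarith) (by linarith))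
theorem rp_of_ge (hν : 0 < ν) {x : ℝ} (hx : ν ≤ x) : rp ν x = 1 := by
  exact Real.smoothTransition.one_of_one_le (by rw [le_div_iff₀ (by linarith)]; linarith)
theorem smoothTransition_add_one_sub (x : ℝ) :
    Real.smoothTransition x + Real.smoothTransition (1 - x) = 1 := by
  have h := Real.smoothTransition.pos_denom x
  unfold Real.smoothTransition
  rw [sub_sub_cancel, add_comm (expNegInvGlue (1 - x)) (expNegInvGlue x), ← add_div]
  exact div_self h.ne'

theorem rp_add_neg (hν : 0 < ν) (x : ℝ) : rp ν x + rp ν (-x) = 1 := by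
  have : (-x + ν) / (2 * ν) = 1 - (x + ν) / (2 * ν) := by field_simp; ring
  unfold rp
  rw [this]
  exact smoothTransition_add_one_sub _
theorem contDiff_rp (ν : ℝ) : ContDiff ℝ ∞ (rp ν) := by
  unfold rp
  exact Real.smoothTransition.contDiff.comp ((contDiff_id.add contDiff_const).div_const _)
theorem hasDerivAt_ramp (ν x : ℝ) : HasDerivAt (ramp ν) (rp ν x) x := by
  have hc := (contDiff_rp ν).continuous
  exact intervalIntegral.integral_hasDerivAt_right (hc.intervalIntegrable _ _)
    (hc.stronglyMeasurableAtFilter _ _) hc.continuousAt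
theorem contDiff_ramp (ν : ℝ) : ContDiff ℝ ∞ (ramp ν) := by
  rw [contDiff_infty_iff_deriv]
  refine ⟨fun x => (hasDerivAt_ramp ν x).differentiableAt, ?_⟩
  have : deriv (ramp ν) = rp ν := funext fun x => (hasDerivAt_ramp ν x).deriv
  rw [this]
  exact contDiff_rp ν
theorem monotone_ramp (ν : ℝ) : Monotone (ramp ν) := by
  refine monotone_of_deriv_nonneg (fun x => (hasDerivAt_ramp ν x).differentiableAt) (fun x => ?_)
  rw [(hasDerivAt_ramp ν x).deriv]
  exact rp_nonneg ν x
theorem ramp_of_le (hν : 0 < ν) {x : ℝ} (hx : x ≤ -ν) : ramp ν x = 0 := by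
  unfold ramp
  rw [intervalIntegral.integral_congr (g := fun _ => (0 : ℝ))]
  · simp
  · intro y hy
    rw [uIcc_of_ge hx] at hy
    exact rp_of_le hν hy.2
theorem ramp_sub (hν : 0 < ν) (x : ℝ) : ramp ν x - ramp ν (-x) = x := by
  have hd : ∀ y, HasDerivAt (fun y => ramp ν y - ramp ν (-y) - y) 0 y := by
    intro y
    have h1 := (hasDerivAt_ramp ν (-y)).comp y (hasDerivAt_neg y)
    have h2 := ((hasDerivAt_ramp ν y).sub h1).sub (hasDerivAt_id y)
    have h3 := rp_add_neg hν y
    have h4 : rp ν y - rp ν (-y) * -1 - 1 = 0 := by linarith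
    rw [h4] at h2
    exact h2
  have := is_const_of_deriv_eq_zero (fun y => (hd y).differentiableAt) (fun y => (hd y).deriv) x 0
  simp only [neg_zero, sub_self] at this
  linarith
theorem ramp_of_ge (hν : 0 < ν) {x : ℝ} (hx : ν ≤ x) : ramp ν x = x := by
  have h1 := ramp_sub hν x
  have h2 := ramp_of_le hν (x := -x) (by linarith)
  linarith
theorem ramp_nonneg (hν : 0 < ν) (x : ℝ) : 0 ≤ ramp ν x := by
  rcases le_total x (-ν) with h | h
  · rw [ramp_of_le hν h]
  · have := monotone_ramp ν h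
    rwa [ramp_of_le hν le_rfl] at this

theorem ramp_lip (ν : ℝ) {x y : ℝ} (h : x ≤ y) : ramp ν y - ramp ν x ≤ y - x := by
  have hd : ∀ y, HasDerivAt (fun y => y - ramp ν y) (1 - rp ν y) y := fun y =>
    (hasDerivAt_id y).sub (hasDerivAt_ramp ν y)
  have hm : Monotone (fun y => y - ramp ν y) := by
    refine monotone_of_deriv_nonneg (fun x => (hd x).differentiableAt) (fun x => ?_)
    rw [(hd x).deriv]
    linarith [rp_le_one ν x]
  have := hm h
  simp only at this
  linarith

theorem max_le_ramp (hν : 0 < ν) (x : ℝ) : max x 0 ≤ ramp ν x := by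
  refine max_le ?_ (ramp_nonneg hν x)
  linarith [ramp_sub hν x, ramp_nonneg hν (-x)]
theorem ramp_le_max (hν : 0 < ν) (x : ℝ) : ramp ν x ≤ max x 0 + ν := by
  rcases le_total x (-ν) with h | h
  · rw [ramp_of_le hν h]
    linarith [le_max_right x 0]
  · have := ramp_lip ν h
    rw [ramp_of_le hν le_rfl] at this
    linarith [le_max_left x 0]
theorem ramp_le_of_le (hν : 0 < ν) {x : ℝ} (hx : x ≤ ν) : ramp ν x ≤ ν := by
  have := monotone_ramp ν hx
  rwa [ramp_of_ge hν le_rfl] at this
/-- `ramp` is 1-Lipschitz. -/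
theorem ramp_sub_ramp_le (ν : ℝ) {x y : ℝ} (h : x ≤ y) : ramp ν y - ramp ν x ≤ y - x := by
  exact ramp_lip ν h

theorem smin_le (hν : 0 < ν) (a b : ℝ) : smin ν a b ≤ min a b := by
  unfold smin
  have := max_le_ramp hν (a - b)
  exact le_min (by linarith [le_max_right (a - b) 0]) (by linarith [le_max_left (a - b) 0])
theorem le_smin (hν : 0 < ν) (a b : ℝ) : min a b - ν ≤ smin ν a b := by
  unfold smin
  have := ramp_le_max hν (a - b)
  rcases le_total a b with h | h
  · rw [min_eq_left h]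
    rw [max_eq_right (by linarith)] at this
    linarith
  · rw [min_eq_right h]
    rw [max_eq_left (by linarith)] at this
    linarith
theorem smin_eq_left (hν : 0 < ν) {a b : ℝ} (h : a + ν ≤ b) : smin ν a b = a := by
  unfold smin
  rw [ramp_of_le hν (by linarith)]
  ring
theorem smin_eq_right (hν : 0 < ν) {a b : ℝ} (h : b + ν ≤ a) : smin ν a b = b := by
  unfold smin
  rw [ramp_of_ge hν (by linarith)]
  ring
theorem contDiff_smin (ν : ℝ) : ContDiff ℝ ∞ (fun p : ℝ × ℝ => smin ν p.1 p.2) := by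
  unfold smin
  exact contDiff_fst.sub ((contDiff_ramp ν).comp (contDiff_fst.sub contDiff_snd))
/-- increments of `smin` lie between the increments of its arguments. -/
theorem smin_sub_le (ν : ℝ) {a b a' b' c : ℝ} (ha : a' - a ≤ c) (hb : b' - b ≤ c) :
    smin ν a' b' - smin ν a b ≤ c := by
  unfold smin
  rcases le_total (a - b) (a' - b') with h | h
  · have := monotone_ramp ν h
    linarith
  · have := ramp_lip ν h
    linarith
theorem hasDerivAt_smin (ν : ℝ) {a b : ℝ → ℝ} {a' b' x : ℝ} (ha : HasDerivAt a a' x)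
    (hb : HasDerivAt b b' x) :
    HasDerivAt (fun y => smin ν (a y) (b y))
      ((1 - rp ν (a x - b x)) * a' + rp ν (a x - b x) * b') x := by
  unfold smin
  have h1 := (hasDerivAt_ramp ν (a x - b x)).comp x (ha.sub hb)
  have h2 := ha.sub h1
  have h3 : a' - rp ν (a x - b x) * (a' - b') =
      (1 - rp ν (a x - b x)) * a' + rp ν (a x - b x) * b' := by ring
  rw [h3] at h2
  exact h2

theorem stair_of_mem (g : ℝ) (k : ℤ) {ξ : ℝ} (h : (k : ℝ) ≤ ξ) (h' : ξ < k + 1) :
    stair g ξ = k - 1 + Real.smoothTransition ((ξ - k) / g) := by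
  have hf : ⌊ξ⌋ = k := Int.floor_eq_iff.2 ⟨h, h'⟩
  unfold stair Int.fract
  rw [hf]

theorem contDiff_stair {g : ℝ} (h0 : 0 < g) (h1 : g < 1) : ContDiff ℝ ∞ (stair g) := by
  rw [contDiff_iff_contDiffAt]
  intro ξ₀
  set k := ⌊ξ₀⌋ with hk
  have hk1 : (k : ℝ) ≤ ξ₀ := Int.floor_le ξ₀
  have hk2 : ξ₀ < k + 1 := Int.lt_floor_add_one ξ₀
  have hs : ContDiff ℝ ∞ (fun ξ : ℝ => (k : ℝ) - 1 + Real.smoothTransition ((ξ - k) / g)) :=
    contDiff_const.add
      (Real.smoothTransition.contDiff.comp ((contDiff_id.sub contDiff_const).div_const _))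
  refine hs.contDiffAt.congr_of_eventuallyEq ?_
  filter_upwards [Ioo_mem_nhds (show (k : ℝ) - 1 + g < ξ₀ by linarith) hk2] with ξ hξ
  rcases le_or_gt (k : ℝ) ξ with h | h
  · exact stair_of_mem g k h hξ.2
  · rw [stair_of_mem g (k - 1) (by push_cast; linarith [hξ.1]) (by push_cast; linarith),
      Real.smoothTransition.one_of_one_le
        (by rw [le_div_iff₀ h0]; push_cast; linarith [hξ.1]),
      Real.smoothTransition.zero_of_nonpos
        (div_nonpos_of_nonpos_of_nonneg (by linarith) h0.le)]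
    push_cast; ring
theorem stair_add_int (g ξ : ℝ) (k : ℤ) : stair g (ξ + k) = stair g ξ + k := by
  unfold stair
  rw [Int.floor_add_intCast, Int.fract_add_intCast]
  push_cast; ring
theorem stair_eq {g : ℝ} (h0 : 0 < g) (h1 : g < 1) (k : ℤ) {ξ : ℝ} (h : k + g ≤ ξ)
    (h' : ξ ≤ k + 1) : stair g ξ = k := by
  rcases h'.lt_or_eq with h2 | h2
  · rw [stair_of_mem g k (by linarith) h2, Real.smoothTransition.one_of_one_le
      (by rw [le_div_iff₀ h0]; linarith)]
    ring
  · rw [stair_of_mem g (k + 1) (by push_cast; linarith) (by push_cast; linarith), h2]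
    push_cast
    simp
theorem stair_mem {g : ℝ} (h0 : 0 < g) (h1 : g < 1) (k : ℤ) {ξ : ℝ} (h : (k : ℝ) ≤ ξ)
    (h' : ξ ≤ k + 1) : (k : ℝ) - 1 ≤ stair g ξ ∧ stair g ξ ≤ k := by
  rcases h'.lt_or_eq with h2 | h2
  · rw [stair_of_mem g k h h2]
    constructor
    · linarith [Real.smoothTransition.nonneg ((ξ - k) / g)]
    · linarith [Real.smoothTransition.le_one ((ξ - k) / g)]
  · rw [stair_eq h0 h1 k (by linarith) h']
    constructor <;> linarith

end Vale.Agent.P209
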