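import Vale.Agent.P209.Lift
import Vale.Agent.P209.Inv
import Vale.Agent.P209.Ramp

/-! Moving the slit of the punctured torus into the gap. Write `x = z.1 none`, `θ = z.2 none`,
`b = bb z.1`. Plan: `g' = min (g / Lm) (1/4)` (if `Z` is empty anything works),
`ψ₂ θ = θ - stair (1/4) θ` (periodic, `= θ - j` on `[j + 1/4, j + 1]`),
`χ (θ, b) = ℓ b (ψ₂ θ - 1/4)² - (G b + ℓ b) ψ₂ θ`,
`Hz = Jinv none ∘ liftF id (-χ) ∘ Jsw none` (so `x ↦ x + ∂_θ χ`, `θ` fixed),
`V = liftF id 𝔣`, `𝔣 (x, b) = -x/4 - x²/(4ℓ) + (ℓ/2) ∫₀^{x/ℓ} stair g'` (so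
`θ ↦ θ - 1/4 - ψ/2`, `ψ = ξ - stair g' ξ ∈ [0, 1 + g']`, `ξ = x/ℓ`, `ℓ`-periodic in `x`),
`F = V ∘ Hz`. If the new angle is an integer `j` then `θ - j = 1/4 + ψ/2 ∈ [1/4, 7/8]`, hence
`x = ℓ * stair g' ξ + G + ℓ` (`ξ` = new `x` over `ℓ`); `G < x < G + ℓ` forces
`stair g' ξ ∈ (-1, 0)`, i.e. `ξ ∈ (0, g')` (`stair_eq`, `stair_mem`). -/

open scoped ContDiff Topology
open Set MeasureTheory

namespace Vale.Agent.P209

section
variable {ι : Type} [Fintype ι] [DecidableEq ι]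

/-- fibre translation by `dK`. -/
noncomputable def cylaV (K : (ι → ℝ) → ℝ) (z : Ph ι) : Ph ι :=
  (z.1, fun i => z.2 i + fderiv ℝ K z.1 (Pi.single i 1))

theorem cyla_symp {K : (ι → ℝ) → ℝ} {U : Set (ι → ℝ)} (hU : IsOpen U) (hK : ContDiffOn ℝ ∞ K U) :
    Symp (cylaV K) (T U) := by
  refine lift_exact (Y := fun y => y) (K := K)
    (P := fun z i => z.2 i + fderiv ℝ K z.1 (Pi.single i 1)) hU contDiffOn_id hK
    (fun z hz => ContDiffAt.contDiffWithinAt (contDiffAt_pi.2 fun j =>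
      (contDiffAt_pi.1 contDiffAt_snd j).add
        ((((hK.contDiffAt (hU.mem_nhds hz)).fderiv_right (by simp)).comp z
          contDiffAt_fst).clm_apply contDiffAt_const))) fun z _ v => ?_
  simp only [fderiv_fun_id, ContinuousLinearMap.id_apply, add_mul, Finset.sum_add_distrib,
    lift_lin]

theorem cyla_pd {K : (ι → ℝ) → ℝ} {y : ι → ℝ} (hK : DifferentiableAt ℝ K y) (i : ι) {d : ℝ}
    (hd : HasDerivAt (fun s => K (Function.update y i s)) d (y i)) :
    fderiv ℝ K y (Pi.single i 1) = d := by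
  have h := hK.hasFDerivAt.comp_hasDerivAt_of_eq (y i) (hasDerivAt_update y i (y i))
    (by simp)
  exact h.unique hd

theorem cyla_per {K : (ι → ℝ) → ℝ} (i : ι) (c : ℝ)
    (hK : ∀ y, K (Function.update y i (y i + c)) = K y) (y : ι → ℝ) :
    fderiv ℝ K (Function.update y i (y i + c)) = fderiv ℝ K y := by
  rw [lift_upd, ← fderiv_comp_add_right]
  congr 1
  funext x
  rw [← lift_upd, hK]

end

theorem cyla_bb_update {β : Type} [DecidableEq β] (y : Option β → ℝ) (s : ℝ) :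
    bb (Function.update y none s) = bb y := by
  funext r
  simp [bb]

theorem cyla_ext {β : Type} {y y' : Option β → ℝ} (h : y none = y' none) (h' : bb y = bb y') :
    y = y' := by
  funext o
  rcases o with _ | r
  · exact h
  · exact congrFun h' r

theorem cyla_bb_smooth {β : Type} [Fintype β] :
    ContDiff ℝ ∞ (bb : (Option β → ℝ) → β → ℝ) :=
  contDiff_pi.2 fun r => contDiff_apply ℝ ℝ (some r)

theorem cyla_prim {f : ℝ → ℝ} (hf : ContDiff ℝ ∞ f) :
    ∃ S : ℝ → ℝ, ContDiff ℝ ∞ S ∧ ∀ t, HasDerivAt S (f t) t := by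
  have h : ∀ t, HasDerivAt (fun t => ∫ s in (0 : ℝ)..t, f s) (f t) t := fun t =>
    (hf.continuous.integral_hasStrictDerivAt 0 t).hasDerivAt
  refine ⟨_, contDiff_infty_iff_deriv.2 ⟨fun t => (h t).differentiableAt, ?_⟩, h⟩
  rw [show deriv (fun t => ∫ s in (0 : ℝ)..t, f s) = f from funext fun t => (h t).deriv]
  exact hf

theorem cyla_psi {g : ℝ} (h0 : 0 < g) (h1 : g ≤ 1 / 4) (ξ : ℝ) :
    0 ≤ ξ - stair g ξ ∧ ξ - stair g ξ ≤ 5 / 4 := by
  have a := Int.floor_le ξ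
  have b := Int.lt_floor_add_one ξ
  have c := stair_mem h0 (by linarith) ⌊ξ⌋ a b.le
  refine ⟨by linarith [c.2], ?_⟩
  rcases le_total ((⌊ξ⌋ : ℝ) + g) ξ with h | h
  · rw [stair_eq h0 (by linarith) ⌊ξ⌋ h b.le]
    linarith
  · linarith [c.1]

theorem cyla_gap {g : ℝ} (h0 : 0 < g) (h1 : g ≤ 1 / 4) {ξ : ℝ} (h2 : -1 < stair g ξ)
    (h3 : stair g ξ < 0) : 0 < ξ ∧ ξ < g := by
  have a := Int.floor_le ξ
  have b := Int.lt_floor_add_one ξ
  have c := stair_mem h0 (by linarith) ⌊ξ⌋ a b.le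
  have h4 : ⌊ξ⌋ = 0 := by
    have d : (-1 : ℝ) < ⌊ξ⌋ := by linarith [c.2]
    have e : (⌊ξ⌋ : ℝ) < 1 := by linarith [c.1]
    have d' : -1 < ⌊ξ⌋ := by exact_mod_cast d
    have e' : ⌊ξ⌋ < 1 := by exact_mod_cast e
    omega
  rw [h4] at a b
  push_cast at a b
  constructor
  · by_contra hc
    have := stair_eq h0 (by linarith) (-1) (ξ := ξ) (by push_cast; linarith) (by push_cast; linarith)
    push_cast at this
    linarith
  · by_contra hc
    have := stair_eq h0 (by linarith) 0 (ξ := ξ) (by push_cast; linarith) (by push_cast; linarith)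
    push_cast at this
    linarith

/-- the horizontal shear. -/
theorem cyla_hz {β : Type} [Fintype β] [DecidableEq β] {Z : Set (β → ℝ)} (hZ : IsOpen Z)
    {ℓ G : (β → ℝ) → ℝ} (hℓ : ContDiffOn ℝ ∞ ℓ Z) (hG : ContDiffOn ℝ ∞ G Z) :
    ∃ H : Ph (Option β) → Ph (Option β), Symp H {z | bb z.1 ∈ Z} ∧
      (∀ z, bb (H z).1 = bb z.1) ∧ (∀ z, (H z).2 none = z.2 none) ∧
      (∀ z : Ph (Option β), bb z.1 ∈ Z → ∀ j : ℤ, (j : ℝ) + 1 / 8 < z.2 none →
        z.2 none < (j : ℝ) + 1 →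
        (H z).1 none = z.1 none + 2 * ℓ (bb z.1) * (z.2 none - j - 1 / 4) -
          (G (bb z.1) + ℓ (bb z.1))) ∧
      ∀ z z' : Ph (Option β), bb z.1 = bb z'.1 → ∀ j : ℤ, z'.2 none = z.2 none + (j : ℝ) →
        (H z').1 none - z'.1 none = (H z).1 none - z.1 none ∧
          ∀ r, (H z').2 (some r) - z'.2 (some r) = (H z).2 (some r) - z.2 (some r) := by
  have hs : ContDiff ℝ ∞ (stair (1 / 8)) := contDiff_stair (by norm_num) (by norm_num)
  obtain ⟨χ, hχ⟩ : ∃ χ : (Option β → ℝ) → ℝ, χ = fun y =>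
      (G (bb y) + ℓ (bb y)) * (y none - stair (1 / 8) (y none)) -
        ℓ (bb y) * (y none - stair (1 / 8) (y none) - 1 / 4) ^ 2 := ⟨_, rfl⟩
  have hU : IsOpen {y : Option β → ℝ | bb y ∈ Z} := hZ.preimage cyla_bb_smooth.continuous
  have hn : ContDiff ℝ ∞ fun y : Option β → ℝ => y none := contDiff_apply ℝ ℝ none
  have hψ : ContDiff ℝ ∞ fun y : Option β → ℝ => y none - stair (1 / 8) (y none) :=
    hn.sub (hs.comp hn)
  have hℓ' : ContDiffOn ℝ ∞ (fun y : Option β → ℝ => ℓ (bb y)) {y | bb y ∈ Z} :=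
    hℓ.comp cyla_bb_smooth.contDiffOn fun _ h => h
  have hG' : ContDiffOn ℝ ∞ (fun y : Option β → ℝ => G (bb y)) {y | bb y ∈ Z} :=
    hG.comp cyla_bb_smooth.contDiffOn fun _ h => h
  have hχs : ContDiffOn ℝ ∞ χ {y | bb y ∈ Z} := by
    rw [hχ]
    exact ((hG'.add hℓ').mul hψ.contDiffOn).sub
      (hℓ'.mul ((hψ.contDiffOn.sub contDiffOn_const).pow 2))
  have hT : IsOpen {z : Ph (Option β) | bb z.1 ∈ Z} := isOpen_T hU
  have e1 : ∀ z : Ph (Option β), (Jinv none (cylaV χ (Jsw none z))).1 none =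
      z.1 none - fderiv ℝ χ (Function.update z.1 none (z.2 none)) (Pi.single none 1) := by
    intro z
    simp [Jinv, cylaV, Jsw]
    ring
  have e2 : ∀ (z : Ph (Option β)) r, (Jinv none (cylaV χ (Jsw none z))).2 (some r) =
      z.2 (some r) + fderiv ℝ χ (Function.update z.1 none (z.2 none)) (Pi.single (some r) 1) := by
    intro z r
    simp [Jinv, cylaV, Jsw]
  refine ⟨fun z => Jinv none (cylaV χ (Jsw none z)), ?_, fun z => ?_, fun z => ?_, ?_, ?_⟩
  · refine (symp_Jinv none).comp ((cyla_symp hU hχs).comp ((symp_Jsw none).mono hT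
      (subset_univ _)) fun z hz => ?_) (mapsTo_univ _ _)
    change bb (Function.update z.1 none (z.2 none)) ∈ Z
    rw [cyla_bb_update]
    exact hz
  · simp only [Jinv, cylaV, Jsw, cyla_bb_update]
  · simp [Jinv, cylaV, Jsw]
  · intro z hz j h1 h2
    have hm : Function.update z.1 none (z.2 none) ∈ {y : Option β → ℝ | bb y ∈ Z} := by
      change bb (Function.update z.1 none (z.2 none)) ∈ Z
      rw [cyla_bb_update]
      exact hz
    have hd : HasDerivAt (fun s : ℝ => (G (bb z.1) + ℓ (bb z.1)) * (s - j) -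
        ℓ (bb z.1) * (s - j - 1 / 4) ^ 2)
        ((G (bb z.1) + ℓ (bb z.1)) - 2 * ℓ (bb z.1) * (z.2 none - j - 1 / 4)) (z.2 none) := by
      have a := (hasDerivAt_id (z.2 none)).sub_const (j : ℝ)
      refine ((a.const_mul (G (bb z.1) + ℓ (bb z.1))).sub
        (((a.sub_const (1 / 4)).pow 2).const_mul (ℓ (bb z.1)))).congr_deriv ?_
      simp
      ring
    rw [e1, cyla_pd ((hχs.contDiffAt (hU.mem_nhds hm)).differentiableAt (by simp)) none
      (d := (G (bb z.1) + ℓ (bb z.1)) - 2 * ℓ (bb z.1) * (z.2 none - j - 1 / 4))]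
    · ring
    · rw [Function.update_self]
      refine hd.congr_of_eventuallyEq ?_
      filter_upwards [Ioo_mem_nhds h1 h2] with s hs'
      simp only [hχ, cyla_bb_update, Function.update_self]
      rw [stair_eq (by norm_num) (by norm_num) j hs'.1.le hs'.2.le]
  · intro z z' hb j hj
    have e : Function.update z'.1 none (z'.2 none) = Function.update
        (Function.update z.1 none (z.2 none)) none
        (Function.update z.1 none (z.2 none) none + j) := by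
      refine cyla_ext (by simp [hj]) ?_
      simp only [cyla_bb_update, hb]
    have hp : fderiv ℝ χ (Function.update z'.1 none (z'.2 none)) =
        fderiv ℝ χ (Function.update z.1 none (z.2 none)) := by
      rw [e]
      refine cyla_per none (j : ℝ) (fun y => ?_) _
      simp only [hχ, cyla_bb_update, Function.update_self, stair_add_int, add_sub_add_right_eq_sub]
    refine ⟨?_, fun r => ?_⟩
    · rw [e1, e1, hp]
      ring
    · rw [e2, e2, hp]
      ring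

/-- the vertical shear. -/
theorem cyla_vt {β : Type} [Fintype β] [DecidableEq β] {Z : Set (β → ℝ)} (hZ : IsOpen Z)
    {ℓ : (β → ℝ) → ℝ} (hℓ : ContDiffOn ℝ ∞ ℓ Z) (hpos : ∀ b ∈ Z, 0 < ℓ b) {σ : ℝ → ℝ}
    (hσ : ContDiff ℝ ∞ σ) :
    ∃ K : (Option β → ℝ) → ℝ, Symp (cylaV K) {z | bb z.1 ∈ Z} ∧ ∀ y, bb y ∈ Z →
      fderiv ℝ K y (Pi.single none 1) =
        -(1 / 4) - (y none / ℓ (bb y) - σ (y none / ℓ (bb y))) / 2 := by
  obtain ⟨S, hS, hS'⟩ := cyla_prim hσ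
  have hU : IsOpen {y : Option β → ℝ | bb y ∈ Z} := hZ.preimage cyla_bb_smooth.continuous
  have hn : ContDiff ℝ ∞ fun y : Option β → ℝ => y none := contDiff_apply ℝ ℝ none
  have hℓ' : ContDiffOn ℝ ∞ (fun y : Option β → ℝ => ℓ (bb y)) {y | bb y ∈ Z} :=
    hℓ.comp cyla_bb_smooth.contDiffOn fun _ h => h
  have hq : ContDiffOn ℝ ∞ (fun y : Option β → ℝ => y none / ℓ (bb y)) {y | bb y ∈ Z} :=
    hn.contDiffOn.div hℓ' fun y hy => (hpos _ hy).ne'
  obtain ⟨K, hK⟩ : ∃ K : (Option β → ℝ) → ℝ, K = fun y =>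
      ℓ (bb y) * (-(1 / 4) * (y none / ℓ (bb y)) - (1 / 4) * (y none / ℓ (bb y)) ^ 2 +
        (1 / 2) * S (y none / ℓ (bb y))) := ⟨_, rfl⟩
  have hKs : ContDiffOn ℝ ∞ K {y | bb y ∈ Z} := by
    rw [hK]
    exact hℓ'.mul (((contDiffOn_const.mul hq).sub (contDiffOn_const.mul (hq.pow 2))).add
      (contDiffOn_const.mul (hS.comp_contDiffOn hq)))
  refine ⟨K, cyla_symp hU hKs, fun y hy => ?_⟩
  refine cyla_pd ((hKs.contDiffAt (hU.mem_nhds hy)).differentiableAt (by simp)) none ?_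
  simp only [hK, cyla_bb_update, Function.update_self]
  have a := (hasDerivAt_id (y none)).div_const (ℓ (bb y))
  have b := (hS' (y none / ℓ (bb y))).comp (y none) a
  refine (((((a.const_mul (-(1 / 4))).sub ((a.pow 2).const_mul (1 / 4))).add
    (b.const_mul (1 / 2))).const_mul (ℓ (bb y))).congr_deriv ?_)
  have := (hpos _ hy).ne'
  simp
  field_simp
  ring

theorem exists_slit {β : Type} [Fintype β] [DecidableEq β] {Z : Set (β → ℝ)} (hZ : IsOpen Z)
    {ℓ G : (β → ℝ) → ℝ} (hℓ : ContDiffOn ℝ ∞ ℓ Z) (hG : ContDiffOn ℝ ∞ G Z)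
    (hpos : ∀ b ∈ Z, 0 < ℓ b) {Lm g : ℝ} (hLm : ∀ b ∈ Z, ℓ b ≤ Lm) (hg : 0 < g) :
    ∃ F : Ph (Option β) → Ph (Option β), Symp F {z | bb z.1 ∈ Z} ∧
      (∀ z, bb (F z).1 = bb z.1) ∧
      (∀ z, bb z.1 ∈ Z → G (bb z.1) < z.1 none → z.1 none < G (bb z.1) + ℓ (bb z.1) →
        (∀ j : ℤ, (F z).2 none ≠ j) ∨ (F z).1 none ∈ Ioo 0 g) ∧
      (∀ z z', bb z.1 ∈ Z → bb z.1 = bb z'.1 → ∀ k j : ℤ,
        (F z').1 none = (F z).1 none + k * ℓ (bb z.1) → (F z').2 none = (F z).2 none + j →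
        z'.1 none = z.1 none + k * ℓ (bb z.1) ∧ z'.2 none = z.2 none + j) ∧
      ∀ z z', bb z.1 ∈ Z → bb z'.1 ∈ Z → LatEq (F z) (F z') → LatEq z z' := by
  have hM : 0 < max Lm 1 := lt_of_lt_of_le one_pos (le_max_right _ _)
  obtain ⟨g', h0, h1, h2⟩ : ∃ g' : ℝ, 0 < g' ∧ g' ≤ 1 / 4 ∧ g' * max Lm 1 ≤ g :=
    ⟨min (g / max Lm 1) (1 / 4), lt_min (div_pos hg hM) (by norm_num), min_le_right _ _,
      (le_div_iff₀ hM).1 (min_le_left _ _)⟩
  obtain ⟨H, hH, hb, hθ, hx, hp⟩ := cyla_hz hZ hℓ hG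
  obtain ⟨K, hK, hd⟩ := cyla_vt hZ hℓ hpos (contDiff_stair h0 (by linarith))
  have e : ∀ z, bb z.1 ∈ Z → (cylaV K (H z)).2 none = z.2 none + (-(1 / 4) -
      ((H z).1 none / ℓ (bb z.1) - stair g' ((H z).1 none / ℓ (bb z.1))) / 2) := by
    intro z hz
    change (H z).2 none + fderiv ℝ K (H z).1 (Pi.single none 1) = _
    rw [hd _ (by rw [hb]; exact hz), hb, hθ]
  refine ⟨fun z => cylaV K (H z), hK.comp hH fun z hz => ?_, fun z => hb z, ?_, ?_, ?_⟩
  · change bb (H z).1 ∈ Z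
    rw [hb]
    exact hz
  · intro z hz a1 a2
    by_cases hc : ∀ j : ℤ, (cylaV K (H z)).2 none ≠ j
    · exact Or.inl hc
    right
    push Not at hc
    obtain ⟨j, hj⟩ := hc
    rw [e z hz] at hj
    have hl := hpos _ hz
    obtain ⟨ξ, hξ⟩ : ∃ ξ, ξ = (H z).1 none / ℓ (bb z.1) := ⟨_, rfl⟩
    have hξ' : (H z).1 none = ξ * ℓ (bb z.1) := by rw [hξ]; field_simp
    rw [← hξ] at hj
    obtain ⟨p1, p2⟩ := cyla_psi h0 h1 ξ
    have q := hx z hz j (by linarith) (by linarith)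
    have q' : z.1 none = ℓ (bb z.1) * stair g' ξ + G (bb z.1) + ℓ (bb z.1) := by
      have : z.2 none - j - 1 / 4 = (ξ - stair g' ξ) / 2 := by linarith
      rw [this, hξ'] at q
      linarith
    obtain ⟨r1, r2⟩ := cyla_gap h0 h1 (ξ := ξ) (by nlinarith) (by nlinarith)
    change (H z).1 none ∈ Ioo 0 g
    rw [hξ']
    refine ⟨mul_pos r1 hl, lt_of_lt_of_le ?_ h2⟩
    exact mul_lt_mul r2 ((hLm _ hz).trans (le_max_left _ _)) hl h0.le
  · intro z z' hz hbb k j a1 a2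
    change (H z').1 none = (H z).1 none + k * ℓ (bb z.1) at a1
    rw [e z hz, e z' (hbb ▸ hz), ← hbb, a1, add_div, mul_div_assoc, div_self (hpos _ hz).ne',
      mul_one, stair_add_int] at a2
    have b : z'.2 none = z.2 none + j := by linarith
    exact ⟨by linarith [(hp z z' hbb j b).1], b⟩
  · intro z z' _ _ hL
    have a : (H z).1 = (H z').1 := hL.1
    have b : ∀ i, ∃ m : ℤ, (H z').2 i = (H z).2 i + m := by
      intro i
      obtain ⟨m, hm⟩ := hL.2 i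
      refine ⟨m, ?_⟩
      simp only [cylaV, a] at hm
      linarith
    have hbb : bb z.1 = bb z'.1 := by rw [← hb z, ← hb z', a]
    obtain ⟨j, hj⟩ := b none
    rw [hθ, hθ] at hj
    obtain ⟨c1, c2⟩ := hp z z' hbb j hj
    refine ⟨cyla_ext ?_ hbb, fun i => ?_⟩
    · rw [a] at c1
      linarith
    · rcases i with _ | r
      · exact ⟨j, hj⟩
      · obtain ⟨m, hm⟩ := b (some r)
        exact ⟨m, by linarith [c2 r]⟩

end Vale.Agent.P209
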