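import Mathlib

/-! Statement definitions for P209 (symplectic ball packings). -/

open scoped ContDiff

namespace Vale.Agent.P209

/-- The standard symplectic form `ω₀ = ∑ dxⱼ ∧ dyⱼ` on `ℂⁿ`, `zⱼ = xⱼ + i yⱼ`. -/
def omega {n : ℕ} (u v : Fin n → ℂ) : ℝ :=
  ∑ j, ((u j).re * (v j).im - (u j).im * (v j).re)

/-- The closed ball `B²ⁿ(R)` of capacity `R`. -/
def cball (n : ℕ) (R : ℝ) : Set (Fin n → ℂ) := {z | Real.pi * ∑ j, ‖z j‖ ^ 2 ≤ R}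

/-- The open ball `Int B²ⁿ(R)`. -/
def oball (n : ℕ) (R : ℝ) : Set (Fin n → ℂ) := {z | Real.pi * ∑ j, ‖z j‖ ^ 2 < R}

/-- `f` is a symplectic embedding of the closed ball `B²ⁿ(R)` into `ℂⁿ`: on an open
neighbourhood of the ball it is smooth, injective and pulls `ω₀` back to `ω₀`. -/
def IsSympEmb (n : ℕ) (R : ℝ) (f : (Fin n → ℂ) → (Fin n → ℂ)) : Prop :=
  ∃ U : Set (Fin n → ℂ), IsOpen U ∧ cball n R ⊆ U ∧ ContDiffOn ℝ ∞ f U ∧ Set.InjOn f U ∧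
    ∀ x ∈ U, ∀ u v, omega (fderiv ℝ f x u) (fderiv ℝ f x v) = omega u v

/-- There is a symplectic embedding of the disjoint union of the closed balls `B²ⁿ(r i)` into
the open ball `Int B²ⁿ(R)`. -/
def Packs (n : ℕ) {k : ℕ} (r : Fin k → ℝ) (R : ℝ) : Prop :=
  ∃ f : Fin k → (Fin n → ℂ) → (Fin n → ℂ),
    (∀ i, IsSympEmb n (r i) (f i)) ∧ (∀ i, f i '' cball n (r i) ⊆ oball n R) ∧
    ∀ i j, i ≠ j → Disjoint (f i '' cball n (r i)) (f j '' cball n (r j))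

end Vale.Agent.P209
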