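import Vale.Agent.P209.Ramp

/-! Concentrated periodic partition of `N`. Plan: `a m θ = exp (Λ cos (2π (θ - (m + 1/2)/N)))`,
`b m = N a m / ∑ j < N, a j`. Shifting `θ` by `1/N` permutes the `a j` cyclically, so the
integrals `∫₀¹ b m` are equal, hence one. For `θ ∈ (0,1)` outside the closed interval
`[m/N, (m+1)/N]` and not a multiple of `1/N`.. there is `j` with
`cos (2π (θ - c j)) > cos (2π (θ - c m))`, so `b m θ ≤ N exp (-Λ · positive) → 0`; dominated
convergence (bound `N`). Any other construction is fine (for instance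
`b m = (1 - η) N χ m + η` with a smooth periodic partition of unity `χ m` made from
`Real.smoothTransition` and `stair`). -/

open scoped ContDiff Topology
open Set MeasureTheory

namespace Vale.Agent.P209

theorem dens_mono {g : ℝ} (h0 : 0 < g) (h1 : g < 1) : Monotone (stair g) := by
  intro x y hxy
  have hx := Int.floor_le x
  have hx' := Int.lt_floor_add_one x
  have hy := Int.floor_le y
  have hy' := Int.lt_floor_add_one y
  rcases (Int.floor_mono hxy).eq_or_lt with h | h
  · rw [stair_of_mem g _ hx hx', stair_of_mem g _ hy hy', h]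
    exact add_le_add le_rfl (Real.smoothTransition.monotone (by gcongr))
  · have h2 : (⌊x⌋ : ℝ) + 1 ≤ ⌊y⌋ := by exact_mod_cast h
    linarith [(stair_mem h0 h1 _ hx hx'.le).2, (stair_mem h0 h1 _ hy hy'.le).1]

theorem dens_int {g : ℝ} (h0 : 0 < g) (h1 : g < 1) (a : ℝ) :
    ∫ θ in (0 : ℝ)..1, stair g (θ - a) = (∫ θ in (0 : ℝ)..1, stair g θ) - a := by
  have hc := (contDiff_stair h0 h1).continuous
  have hp : Function.Periodic (fun θ => stair g θ - θ) 1 := fun θ => by
    have := stair_add_int g θ 1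
    rw [Int.cast_one] at this
    dsimp only
    rw [this]
    ring
  have h2 := hp.intervalIntegral_add_eq (0 - a) 0
  rw [intervalIntegral.integral_sub (hc.intervalIntegrable _ _)
      (continuous_id'.intervalIntegrable _ _),
    intervalIntegral.integral_sub (hc.intervalIntegrable _ _)
      (continuous_id'.intervalIntegrable _ _), integral_id, integral_id, zero_add] at h2
  rw [intervalIntegral.integral_comp_sub_right (stair g) a, show 1 - a = 0 - a + 1 by ring]
  linarith

theorem dens_small {χ : ℝ → ℝ} (hc : Continuous χ) {a c g : ℝ} (hg : 0 ≤ g) (hac : a ≤ c)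
    (h1 : ∀ θ ∈ Icc a c, χ θ ≤ 1) (h2 : ∀ θ ∈ Icc (a + g) c, χ θ ≤ 0) :
    ∫ θ in a..c, χ θ ≤ g := by
  have key : ∀ a' c' e : ℝ, a' ≤ c' → (∀ θ ∈ Icc a' c', χ θ ≤ e) →
      ∫ θ in a'..c', χ θ ≤ (c' - a') * e := fun a' c' e h h' => by
    have := intervalIntegral.integral_mono_on h (hc.intervalIntegrable _ _)
      (intervalIntegrable_const (μ := volume) (c := e)) h'
    rwa [intervalIntegral.integral_const, smul_eq_mul] at this
  rcases le_total c (a + g) with h | h
  · linarith [key a c 1 hac h1]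
  · rw [← intervalIntegral.integral_add_adjacent_intervals (b := a + g)
      (hc.intervalIntegrable _ _) (hc.intervalIntegrable _ _)]
    linarith [key a (a + g) 1 (by linarith) fun θ hθ => h1 θ ⟨hθ.1, hθ.2.trans h⟩,
      key (a + g) c 0 h h2]

theorem exists_dens {N : ℕ} (hN : 0 < N) {κ₀ : ℝ} (hκ : 0 < κ₀) :
    ∃ b : ℕ → ℝ → ℝ, (∀ m, ContDiff ℝ ∞ (b m)) ∧ (∀ m θ, 0 < b m θ) ∧
      (∀ m θ, b m (θ + 1) = b m θ) ∧ (∀ θ, ∑ m ∈ Finset.range N, b m θ = N) ∧
      ∀ m < N, (∫ θ in (0 : ℝ)..1, b m θ = 1) ∧ (∫ θ in (0 : ℝ)..(m / N), b m θ < κ₀) ∧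
        ∫ θ in ((m + 1) / N : ℝ)..1, b m θ < κ₀ := by
  have hN1 : (1 : ℝ) ≤ N := by exact_mod_cast hN
  have hN0 : (0 : ℝ) < N := by linarith
  obtain ⟨η, hη0, hη1, hη2⟩ : ∃ η : ℝ, 0 < η ∧ η ≤ 1 / 2 ∧ η ≤ κ₀ / 4 :=
    ⟨min (1 / 2) (κ₀ / 4), by positivity, min_le_left _ _, min_le_right _ _⟩
  have hg0 : 0 < η / N := by positivity
  have hgN : η / N ≤ 1 / N := by gcongr; linarith
  have hg1 : η / N < 1 := (div_lt_one hN0).2 (by linarith)
  have hNg : N * (η / N) = η := by field_simp
  set g := η / N with hg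
  have hs := contDiff_stair hg0 hg1
  have hm := dens_mono hg0 hg1
  have hp : ∀ ξ, stair g (ξ + 1) = stair g ξ + 1 := fun ξ => by
    simpa using stair_add_int g ξ 1
  let χ : ℕ → ℝ → ℝ := fun m θ => stair g (θ - m / N) - stair g (θ - ((m + 1 : ℕ) : ℝ) / N)
  have χs : ∀ m, ContDiff ℝ ∞ (χ m) := fun m =>
    (hs.comp (contDiff_id.sub contDiff_const)).sub (hs.comp (contDiff_id.sub contDiff_const))
  have χ0 : ∀ m θ, 0 ≤ χ m θ := fun m θ => sub_nonneg.2 (hm (by
    push_cast
    gcongr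
    linarith))
  have hi : ∀ (m : ℕ) (a c : ℝ), ∫ θ in a..c, ((1 - η) * N * χ m θ + η) =
      (1 - η) * N * (∫ θ in a..c, χ m θ) + (c - a) * η := fun m a c => by
    rw [intervalIntegral.integral_add (((χs m).continuous.const_mul _).intervalIntegrable _ _)
      intervalIntegrable_const, intervalIntegral.integral_const_mul,
      intervalIntegral.integral_const, smul_eq_mul]
  have hb : ∀ (m : ℕ) (a c : ℝ), 0 ≤ a → a ≤ c → c ≤ 1 → (∀ θ ∈ Icc a c, χ m θ ≤ 1) →
      (∀ θ ∈ Icc (a + g) c, χ m θ ≤ 0) → ∫ θ in a..c, ((1 - η) * N * χ m θ + η) < κ₀ := by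
    intro m a c h0 hac h1 h2 h3
    have h4 := mul_le_mul_of_nonneg_left (dens_small (χs m).continuous hg0.le hac h2 h3)
      (mul_nonneg (by linarith : 0 ≤ 1 - η) hN0.le)
    rw [mul_assoc _ _ g, hNg] at h4
    rw [hi]
    nlinarith
  refine ⟨fun m θ => (1 - η) * N * χ m θ + η,
    fun m => (contDiff_const.mul (χs m)).add contDiff_const,
    fun m θ => add_pos_of_nonneg_of_pos
      (mul_nonneg (mul_nonneg (by linarith) hN0.le) (χ0 m θ)) hη0,
    fun m θ => ?_, fun θ => ?_, fun m hmN => ⟨?_, ?_, ?_⟩⟩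
  · simp only [χ]
    rw [add_sub_right_comm θ, add_sub_right_comm θ, hp, hp, add_sub_add_right_eq_sub]
  · rw [Finset.sum_add_distrib, ← Finset.mul_sum,
      Finset.sum_range_sub' (fun m : ℕ => stair g (θ - m / N)), div_self hN0.ne',
      Nat.cast_zero, zero_div, sub_zero, Finset.sum_const, Finset.card_range, nsmul_eq_mul]
    have h1 := hp (θ - 1)
    rw [sub_add_cancel] at h1
    rw [h1]
    ring
  · have h1 : ∀ a : ℝ, IntervalIntegrable (fun θ => stair g (θ - a)) volume 0 1 := fun a =>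
      (hs.continuous.comp (continuous_sub_right a)).intervalIntegrable _ _
    rw [hi, intervalIntegral.integral_sub (h1 _) (h1 _), dens_int hg0 hg1, dens_int hg0 hg1]
    push_cast
    field_simp
    ring
  all_goals
    have h1 : ((m : ℝ) + 1) / N ≤ 1 := (div_le_one hN0).2 (by exact_mod_cast hmN)
    have h2 : ((m : ℝ) + 1) / N = m / N + 1 / N := add_div _ _ _
    have h3 : 0 ≤ (m : ℝ) / N := by positivity
    have h4 : (0 : ℝ) < 1 / N := by positivity
  · have h5 : ∀ θ ∈ Icc (0 : ℝ) (m / N), stair g (θ - m / N) = -1 := fun θ hθ => by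
      simpa using stair_eq hg0 hg1 (-1) (ξ := θ - m / N) (by push_cast; linarith [hθ.1])
        (by push_cast; linarith [hθ.2])
    refine hb m _ _ le_rfl h3 (by linarith) (fun θ hθ => ?_) fun θ hθ => ?_
    · have h6 := hm (show -1 ≤ θ - ((m : ℝ) + 1) / N by linarith [hθ.1])
      have h7 := stair_eq hg0 hg1 (-2) (ξ := -1) (by push_cast; linarith) (by norm_num)
      simp only [χ]
      rw [h5 θ hθ]
      push_cast at h7 ⊢
      linarith
    · have h6 := stair_eq hg0 hg1 (-1) (ξ := θ - ((m : ℝ) + 1) / N)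
        (by push_cast; linarith [hθ.1]) (by push_cast; linarith [hθ.2])
      simp only [χ]
      rw [h5 θ ⟨by linarith [hθ.1], hθ.2⟩]
      push_cast at h6 ⊢
      linarith
  · have h5 : ∀ θ ∈ Icc (((m : ℝ) + 1) / N) 1, stair g (θ - m / N) = 0 := fun θ hθ => by
      simpa using stair_eq hg0 hg1 0 (ξ := θ - m / N) (by push_cast; linarith [hθ.1])
        (by push_cast; linarith [hθ.2])
    refine hb m _ _ (by linarith) h1 le_rfl (fun θ hθ => ?_) fun θ hθ => ?_
    · have h6 := (stair_mem hg0 hg1 0 (ξ := θ - ((m : ℝ) + 1) / N)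
        (by push_cast; linarith [hθ.1]) (by push_cast; linarith [hθ.2])).1
      simp only [χ]
      rw [h5 θ hθ]
      push_cast at h6 ⊢
      linarith
    · have h6 := stair_eq hg0 hg1 0 (ξ := θ - ((m : ℝ) + 1) / N)
        (by push_cast; linarith [hθ.1]) (by push_cast; linarith [hθ.2])
      simp only [χ]
      rw [h5 θ ⟨by linarith [hθ.1], hθ.2⟩]
      push_cast at h6 ⊢
      linarith

end Vale.Agent.P209
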