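import Vale.Agent.P209.Basic

/-! Cotangent lifts. Plan: an injective endomorphism of `ι → ℝ` is a continuous linear
equivalence (`LinearEquiv.ofInjectiveEndo`, `toContinuousLinearEquiv`), so
`ContinuousLinearMap.inverse` is its inverse and is smooth there
(`contDiffAt_map_inverse`). `liftF_pair`: expand `w = DY v = ∑ wᵢ eᵢ` by linearity.
`liftF_symp`, `symp_Tr` from `symp_of_exact`. -/

open scoped ContDiff Topology
open Set MeasureTheory

namespace Vale.Agent.P209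

variable {ι : Type} [Fintype ι] [DecidableEq ι]

omit [DecidableEq ι] in
theorem lift_equiv {A : (ι → ℝ) →L[ℝ] (ι → ℝ)} (hA : Function.Injective A) :
    ∃ e : (ι → ℝ) ≃L[ℝ] (ι → ℝ), (e : (ι → ℝ) →L[ℝ] (ι → ℝ)) = A :=
  ⟨(LinearEquiv.ofInjectiveEndo (A : (ι → ℝ) →ₗ[ℝ] (ι → ℝ)) hA).toContinuousLinearEquiv,
    ContinuousLinearMap.ext fun _ => rfl⟩

theorem lift_lin (φ : (ι → ℝ) →L[ℝ] ℝ) (w : ι → ℝ) : ∑ i, φ (Pi.single i 1) * w i = φ w := by
  conv_rhs => rw [← Finset.univ_sum_single w, map_sum]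
  refine Finset.sum_congr rfl fun i _ => ?_
  rw [mul_comm, ← smul_eq_mul, ← map_smul, ← Pi.single_smul', smul_eq_mul, mul_one]

omit [Fintype ι] in
theorem lift_upd (y : ι → ℝ) (i₀ : ι) (a : ℝ) :
    Function.update y i₀ (y i₀ + a) = y + a • (Pi.single i₀ 1 : ι → ℝ) := by
  funext j
  by_cases h : j = i₀
  · simp [h]
  · simp [h]

omit [DecidableEq ι] in
theorem lift_exact {Y : (ι → ℝ) → (ι → ℝ)} {K : (ι → ℝ) → ℝ} {P : Ph ι → ι → ℝ} {U : Set (ι → ℝ)}
    (hU : IsOpen U) (hY : ContDiffOn ℝ ∞ Y U) (hK : ContDiffOn ℝ ∞ K U)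
    (hP : ContDiffOn ℝ ∞ P (T U)) (h : ∀ z ∈ T U, ∀ v, ∑ i, P z i * fderiv ℝ Y z.1 v i =
      ∑ i, z.2 i * v i + fderiv ℝ K z.1 v) : Symp (fun z => (Y z.1, P z)) (T U) := by
  have m : MapsTo (Prod.fst : Ph ι → ι → ℝ) (T U) U := fun _ hz => hz
  refine symp_of_exact (isOpen_T hU) ((hY.comp contDiffOn_fst m).prodMk hP)
    (K := fun z => K z.1) (hK.comp contDiffOn_fst m) fun z hz v => ?_
  have h1 := ((hY.contDiffAt (hU.mem_nhds hz)).differentiableAt (by simp)).hasFDerivAt.comp z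
    hasFDerivAt_fst
  have h2 := ((hK.contDiffAt (hU.mem_nhds hz)).differentiableAt (by simp)).hasFDerivAt.comp z
    hasFDerivAt_fst
  have h3 := ((hP.contDiffAt ((isOpen_T hU).mem_nhds hz)).differentiableAt (by simp)).hasFDerivAt
  rw [show fderiv ℝ (fun z : Ph ι => (Y z.1, P z)) z = _ from (h1.prodMk h3).fderiv,
    show fderiv ℝ (fun z : Ph ι => K z.1) z = _ from h2.fderiv]
  exact h z hz v.1

theorem lift_shear (i₀ : ι) {f : (ι → ℝ) → ℝ} {y : ι → ℝ} (hf : DifferentiableAt ℝ f y)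
    (P v : ι → ℝ) : ∑ i, P i * fderiv ℝ (fun y => y + f y • (Pi.single i₀ 1 : ι → ℝ)) y v i =
      ∑ i, P i * v i + P i₀ * fderiv ℝ f y v := by
  rw [show fderiv ℝ (fun y => y + f y • (Pi.single i₀ 1 : ι → ℝ)) y = _ from
    ((hasFDerivAt_id y).add (hf.hasFDerivAt.smul_const (Pi.single i₀ 1 : ι → ℝ))).fderiv]
  simp [mul_add, Finset.sum_add_distrib, Pi.single_apply]

theorem liftF_pair {Y : (ι → ℝ) → (ι → ℝ)} {K : (ι → ℝ) → ℝ} (z : Ph ι)
    (hinj : Function.Injective (fderiv ℝ Y z.1)) (v : ι → ℝ) :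
    ∑ i, (liftF Y K z).2 i * fderiv ℝ Y z.1 v i = ∑ i, z.2 i * v i + fderiv ℝ K z.1 v := by
  obtain ⟨e, he⟩ := lift_equiv hinj
  have h := lift_lin (((∑ j, z.2 j • ContinuousLinearMap.proj j) + fderiv ℝ K z.1) ∘L
    (fderiv ℝ Y z.1).inverse) (fderiv ℝ Y z.1 v)
  simp only [liftF, ← he] at h ⊢
  simpa using h

theorem liftF_symp {Y : (ι → ℝ) → (ι → ℝ)} {K : (ι → ℝ) → ℝ} {U : Set (ι → ℝ)} (hU : IsOpen U)
    (hY : ContDiffOn ℝ ∞ Y U) (hK : ContDiffOn ℝ ∞ K U)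
    (hinj : ∀ q ∈ U, Function.Injective (fderiv ℝ Y q)) : Symp (liftF Y K) (T U) := by
  refine lift_exact hU hY hK (fun z hz => ContDiffAt.contDiffWithinAt ?_)
    fun z hz => liftF_pair z (hinj _ hz)
  obtain ⟨e, he⟩ := lift_equiv (hinj _ hz)
  have h1 : ContDiffAt ℝ ∞ (fun z : Ph ι => fderiv ℝ Y z.1) z :=
    ((hY.contDiffAt (hU.mem_nhds hz)).fderiv_right (by simp)).comp z contDiffAt_fst
  have h2 : ContDiffAt ℝ ∞ (fun z : Ph ι => fderiv ℝ K z.1) z :=
    ((hK.contDiffAt (hU.mem_nhds hz)).fderiv_right (by simp)).comp z contDiffAt_fst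
  have h3 : ContDiffAt ℝ ∞ (fun z : Ph ι => (fderiv ℝ Y z.1).inverse) z :=
    ContDiffAt.comp (g := ContinuousLinearMap.inverse) z (he ▸ contDiffAt_map_inverse e) h1
  refine contDiffAt_pi.2 fun i => ?_
  have h4 := h3.clm_apply (contDiffAt_const (c := (Pi.single i 1 : ι → ℝ)))
  exact (ContDiffAt.sum fun j _ => (contDiffAt_pi.1 contDiffAt_snd j).mul
    (contDiffAt_pi.1 h4 j)).add (h2.clm_apply h4)

theorem liftF_congr {Y Y' : (ι → ℝ) → (ι → ℝ)} {K K' : (ι → ℝ) → ℝ} (z : Ph ι)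
    (hY : Y =ᶠ[𝓝 z.1] Y') (hK : K =ᶠ[𝓝 z.1] K') : liftF Y K z = liftF Y' K' z := by
  rw [liftF, liftF, hY.fderiv_eq, hK.fderiv_eq, hY.eq_of_nhds]

/-- a covector is determined by its pairing with the image of an injective endomorphism. -/
theorem eq_of_pair {A : (ι → ℝ) →L[ℝ] (ι → ℝ)} (hA : Function.Injective A) {P P' : ι → ℝ}
    (h : ∀ v, ∑ i, P i * A v i = ∑ i, P' i * A v i) : P = P' := by
  obtain ⟨e, rfl⟩ := lift_equiv hA
  funext j
  simpa [Pi.single_apply] using h (e.symm (Pi.single j 1))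

theorem symp_Tr (i₀ : ι) {f : (ι → ℝ) → ℝ} {U : Set (ι → ℝ)} (hU : IsOpen U)
    (hf : ContDiffOn ℝ ∞ f U) (hi : ∀ y ∈ U, fderiv ℝ f y (Pi.single i₀ 1) = 0) :
    Symp (Tr i₀ f) (T U) := by
  have h := lift_exact (Y := fun y => y + f y • (Pi.single i₀ 1 : ι → ℝ)) (K := fun _ => 0)
    (P := fun z j => z.2 j - z.2 i₀ * fderiv ℝ f z.1 (Pi.single j 1)) hU
    (contDiffOn_id.add (hf.smul contDiffOn_const)) contDiffOn_const
    (fun z hz => ContDiffAt.contDiffWithinAt (contDiffAt_pi.2 fun j =>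
      (contDiffAt_pi.1 contDiffAt_snd j).sub ((contDiffAt_pi.1 contDiffAt_snd i₀).mul
        ((((hf.contDiffAt (hU.mem_nhds hz)).fderiv_right (by simp)).comp z
          contDiffAt_fst).clm_apply contDiffAt_const))))
    fun z hz v => by
      rw [lift_shear i₀ ((hf.contDiffAt (hU.mem_nhds hz)).differentiableAt (by simp)), hi _ hz]
      simp only [sub_mul, mul_assoc, Finset.sum_sub_distrib, ← Finset.mul_sum, lift_lin]
      simp
  exact h.congr fun z _ => by rw [Tr, lift_upd]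

/-- a function that ignores the coordinate `i₀` has no derivative in that direction. -/
theorem fderiv_single_eq_zero (i₀ : ι) {f : (ι → ℝ) → ℝ}
    (hf : ∀ y t, f (Function.update y i₀ t) = f y) (y : ι → ℝ) :
    fderiv ℝ f y (Pi.single i₀ 1) = 0 := by
  by_cases h : DifferentiableAt ℝ f y
  · have h1 : HasDerivAt (fun t : ℝ => y + t • (Pi.single i₀ 1 : ι → ℝ)) (Pi.single i₀ 1) 0 := by
      simpa using ((hasDerivAt_id (0 : ℝ)).smul_const (Pi.single i₀ 1 : ι → ℝ)).const_add y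
    have h2 := h.hasFDerivAt.comp_hasDerivAt_of_eq 0 h1 (by simp)
    have h3 : (f ∘ fun t : ℝ => y + t • (Pi.single i₀ 1 : ι → ℝ)) = fun _ => f y :=
      funext fun t => by rw [Function.comp_apply, ← lift_upd, hf]
    rw [h3] at h2
    exact h2.unique (hasDerivAt_const _ _)
  · rw [fderiv_zero_of_not_differentiableAt h]
    rfl

theorem Tr_Tr (i₀ : ι) {f g : (ι → ℝ) → ℝ} (hf : ContDiff ℝ ∞ f) (hg : ContDiff ℝ ∞ g)
    (hf' : ∀ y t, f (Function.update y i₀ t) = f y)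
    (hg' : ∀ y t, g (Function.update y i₀ t) = g y) (z : Ph ι) :
    Tr i₀ g (Tr i₀ f z) = Tr i₀ (fun y => f y + g y) z := by
  have h1 : fderiv ℝ g (Function.update z.1 i₀ (z.1 i₀ + f z.1)) = fderiv ℝ g z.1 := by
    rw [lift_upd, ← fderiv_comp_add_right]
    congr 1
    funext x
    rw [← lift_upd, hg']
  have h2 := fderiv_fun_add (hf.differentiable (by simp) z.1) (hg.differentiable (by simp) z.1)
  simp only [Tr, h1, h2, hg', fderiv_single_eq_zero i₀ hf', Function.update_idem,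
    Function.update_self, add_assoc, add_apply, mul_zero, sub_zero, mul_add, sub_sub]

/-- `Tr` is injective mod the lattice on points with equal angle `i₀`. -/
theorem Tr_refl (i₀ : ι) {f : (ι → ℝ) → ℝ} (hf : ∀ y t, f (Function.update y i₀ t) = f y)
    {z z' : Ph ι} (h : LatEq (Tr i₀ f z) (Tr i₀ f z')) (h0 : z.2 i₀ = z'.2 i₀) :
    LatEq z z' := by
  have h1 : Function.update z.1 i₀ (z.1 i₀ + f z.1) =
      Function.update z'.1 i₀ (z'.1 i₀ + f z'.1) := h.1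
  have h2 : f z.1 = f z'.1 := by rw [← hf z.1, h1, hf]
  rw [lift_upd, lift_upd, h2] at h1
  have h3 : z.1 = z'.1 := add_right_cancel h1
  refine ⟨h3, fun i => (h.2 i).imp fun m hm => ?_⟩
  simp only [Tr, h3, h0] at hm
  linarith

/-- rescaling one coordinate plane: `(q, p) ↦ (q / c, a + c p)`. -/
theorem symp_scale (i₀ : ι) (a : ℝ) {c : ℝ} (hc : c ≠ 0) :
    Symp (fun z : Ph ι => (Function.update z.1 i₀ (z.1 i₀ / c),
      Function.update z.2 i₀ (a + c * z.2 i₀))) univ := by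
  have h := lift_exact (U := univ)
    (Y := fun y => y + ((c⁻¹ - 1) * y i₀) • (Pi.single i₀ 1 : ι → ℝ)) (K := fun y => a / c * y i₀)
    (P := fun z => z.2 + (a + (c - 1) * z.2 i₀) • (Pi.single i₀ 1 : ι → ℝ)) isOpen_univ
    (by fun_prop) (by fun_prop) (by fun_prop) fun z _ v => by
      have h1 : ∀ b : ℝ, fderiv ℝ (fun y : ι → ℝ => b * y i₀) z.1 v = b * v i₀ := fun b => by
        rw [show fderiv ℝ (fun y : ι → ℝ => b * y i₀) z.1 = _ from
          ((hasFDerivAt_apply i₀ z.1).const_mul b).fderiv]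
        rfl
      rw [lift_shear i₀ (by fun_prop), h1, h1]
      simp [add_mul, Finset.sum_add_distrib, Pi.single_apply]
      field_simp
      ring
  refine (h.mono isOpen_univ fun _ _ => trivial).congr fun z _ => ?_
  rw [← lift_upd, ← lift_upd]
  congr 2 <;> ring

end Vale.Agent.P209
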