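import Vale.Agent.P209.Coord
import Vale.Agent.P209.Lift

/-! Un-shaking. Plan: `exists_select`: by compactness find `ε` and, near every point, a constant
`c` that works; the sets `t w = {c | ∀ y ∈ K₀, (∀ s, update y i₀ s = update w i₀ s) →
[c, c + y i₀ + ε] ⊆ slice}` are convex, so `exists_contMDiff_forall_mem_convex_of_local_const`
(or `exists_contDiff...`) gives a smooth `α₀`; put `α y = α₀ (update y i₀ 0)`.
(For local constancy at `w₀` take the largest `y i₀` over the compact fibre of `K₀`; nearby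
fibres have maximum at most that plus a little; the tube lemma for the open set `B`.)
`unshake`: `F = Tr i₀ α ∘ (coord_rect map with tolerance ε)` on the open set (tube lemma)
`{z | 0 < z.1 i₀ < A, ∀ t ∈ [0, z.1 i₀ + ε], update z.1 i₀ (α z.1 + t) ∈ B}`; use `Tr_refl`
(angle `i₀` lies in `(0,1)`). -/

open scoped ContDiff Topology
open Set MeasureTheory

namespace Vale.Agent.P209

variable {ι : Type} [Fintype ι] [DecidableEq ι]

omit [Fintype ι] in
theorem unshake_upd {i₀ : ι} {y w : ι → ℝ}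
    (h : Function.update y i₀ 0 = Function.update w i₀ 0) (s : ℝ) :
    Function.update y i₀ s = Function.update w i₀ s := by
  rw [← Function.update_idem (a := i₀) 0 s y, h, Function.update_idem]

theorem unshake_far (i₀ : ι) {K : Set (ι → ℝ)} (hK : IsCompact K) {w₀ : ι → ℝ}
    (h : ∀ y ∈ K, Function.update y i₀ 0 ≠ Function.update w₀ i₀ 0) :
    ∀ᶠ w in 𝓝 w₀, ∀ y ∈ K, Function.update y i₀ 0 ≠ Function.update w i₀ 0 := by
  have hc : Continuous fun y : ι → ℝ => Function.update y i₀ 0 :=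
    continuous_id.update i₀ continuous_const
  have h1 : IsOpen ((fun y : ι → ℝ => Function.update y i₀ 0) '' K)ᶜ :=
    (hK.image hc).isClosed.isOpen_compl
  filter_upwards [hc.continuousAt.eventually_mem (h1.mem_nhds fun ⟨y, hy, e⟩ => h y hy e)]
    with w hw y hy e using hw ⟨y, hy, e⟩

theorem unshake_loc (i₀ : ι) {K₀ B : Set (ι → ℝ)} (hK : IsCompact K₀) (hB : IsOpen B)
    (hconv : ∀ y, OrdConnected {t | Function.update y i₀ t ∈ B})
    (hA : ∀ y ∈ K₀, 0 < y i₀ ∧ ∃ c, ∀ t ∈ Icc c (c + y i₀), Function.update y i₀ t ∈ B)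
    (w₀ : ι → ℝ) : ∃ c δ : ℝ, 0 < δ ∧ ∀ᶠ w in 𝓝 w₀, ∀ y ∈ K₀,
      Function.update y i₀ 0 = Function.update w i₀ 0 →
        Function.update y i₀ c ∈ B ∧ Function.update y i₀ (c + y i₀ + δ) ∈ B := by
  have hc : ∀ s : ℝ, Continuous fun y : ι → ℝ => Function.update y i₀ s := fun s =>
    continuous_id.update i₀ continuous_const
  by_cases hne : ∃ y ∈ K₀, Function.update y i₀ 0 = Function.update w₀ i₀ 0
  swap
  · refine ⟨0, 1, one_pos, ?_⟩
    filter_upwards [unshake_far i₀ hK fun y hy e => hne ⟨y, hy, e⟩] with w hw y hy e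
      using absurd e (hw y hy)
  have hF : IsCompact (K₀ ∩ {y | Function.update y i₀ 0 = Function.update w₀ i₀ 0}) :=
    hK.inter_right (isClosed_eq (hc 0) continuous_const)
  obtain ⟨y₀, ⟨hy₀, e₀⟩, hmax⟩ := hF.exists_isMaxOn hne (continuous_apply i₀).continuousOn
  obtain ⟨hpos, c, hcc⟩ := hA y₀ hy₀
  have h1 : Function.update w₀ i₀ c ∈ B := by
    rw [← unshake_upd e₀]
    exact hcc c ⟨le_rfl, by linarith⟩
  have h2 : Function.update w₀ i₀ (c + y₀ i₀) ∈ B := by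
    rw [← unshake_upd e₀]
    exact hcc _ ⟨by linarith, le_rfl⟩
  have h3 : IsOpen {t : ℝ | Function.update w₀ i₀ t ∈ B} :=
    hB.preimage (continuous_const.update i₀ continuous_id)
  obtain ⟨r, hr, hr'⟩ := Metric.isOpen_iff.1 h3 _ h2
  have h4 : Function.update w₀ i₀ (c + y₀ i₀ + r / 2) ∈ B := hr' (by
    rw [Metric.mem_ball, Real.dist_eq, add_sub_cancel_left, abs_of_pos (by linarith)]
    linarith)
  have hK₁ : IsCompact (K₀ ∩ {y | y₀ i₀ + r / 4 ≤ y i₀}) :=
    hK.inter_right (isClosed_le continuous_const (continuous_apply i₀))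
  refine ⟨c, r / 4, by linarith, ?_⟩
  filter_upwards [(hc c).continuousAt.eventually_mem (hB.mem_nhds h1),
    (hc _).continuousAt.eventually_mem (hB.mem_nhds h4),
    unshake_far i₀ hK₁ (w₀ := w₀) fun y hy e => by
      have h5 : y i₀ ≤ y₀ i₀ := hmax ⟨hy.1, e⟩
      have h6 : y₀ i₀ + r / 4 ≤ y i₀ := hy.2
      linarith] with w a1 a2 a3 y hy e
  have h5 : y i₀ < y₀ i₀ + r / 4 := not_le.1 fun h => a3 y ⟨hy, h⟩ e
  have h6 := (hA y hy).1
  rw [unshake_upd e, unshake_upd e]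
  exact ⟨a1, (hconv w).out a1 a2 ⟨by linarith, by linarith⟩⟩

theorem exists_select (i₀ : ι) {K₀ B : Set (ι → ℝ)} (hK : IsCompact K₀) (hB : IsOpen B)
    (hconv : ∀ y, OrdConnected {t | Function.update y i₀ t ∈ B})
    (hA : ∀ y ∈ K₀, 0 < y i₀ ∧ ∃ c, ∀ t ∈ Icc c (c + y i₀), Function.update y i₀ t ∈ B) :
    ∃ (α : (ι → ℝ) → ℝ) (ε : ℝ), ContDiff ℝ ∞ α ∧ (∀ y t, α (Function.update y i₀ t) = α y) ∧
      0 < ε ∧ ∀ y ∈ K₀, ∀ t ∈ Icc 0 (y i₀ + ε), Function.update y i₀ (α y + t) ∈ B := by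
  let S : (ι → ℝ) → Set (ℝ × ℝ) := fun w => {p | 0 < p.2 ∧ ∀ y ∈ K₀,
    Function.update y i₀ 0 = Function.update w i₀ 0 →
      Function.update y i₀ p.1 ∈ B ∧ Function.update y i₀ (p.1 + y i₀ + p.2) ∈ B}
  have hS : ∀ w, Convex ℝ (S w) := by
    rintro w p ⟨hp, hp'⟩ q ⟨hq, hq'⟩ a b ha hb hab
    refine ⟨convex_Ioi (0 : ℝ) hp hq ha hb hab, fun y hy e => ⟨?_, ?_⟩⟩
    · exact (hconv y).convex (𝕜 := ℝ) (hp' y hy e).1 (hq' y hy e).1 ha hb hab
    · have h1 := (hconv y).convex (𝕜 := ℝ) (hp' y hy e).2 (hq' y hy e).2 ha hb hab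
      have h2 : (a • p + b • q).1 + y i₀ + (a • p + b • q).2 =
          a • (p.1 + y i₀ + p.2) + b • (q.1 + y i₀ + q.2) := by
        simp only [Prod.fst_add, Prod.snd_add, Prod.smul_fst, Prod.smul_snd, smul_eq_mul]
        linear_combination (-y i₀) * hab
      rw [h2]
      exact h1
  obtain ⟨g, hg⟩ := exists_contMDiffMap_forall_mem_convex_of_local_const (n := ⊤)
    (modelWithCornersSelf ℝ (ι → ℝ)) hS fun w => by
      obtain ⟨c, δ, hδ, h⟩ := unshake_loc i₀ hK hB hconv hA w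
      exact ⟨(c, δ), h.mono fun w' hw' => ⟨hδ, hw'⟩⟩
  have hgs : ContDiff ℝ ∞ fun y : ι → ℝ => g (Function.update y i₀ 0) := by
    refine g.contMDiff.contDiff.comp (contDiff_pi.2 fun j => ?_)
    by_cases hj : j = i₀
    · simpa [hj] using contDiff_const
    · simpa [Function.update_of_ne hj] using contDiff_apply ℝ ℝ j
  obtain ⟨ε, hε, hε'⟩ := hK.exists_forall_le' (f := fun y => (g (Function.update y i₀ 0)).2)
    hgs.continuous.snd.continuousOn fun y _ => (hg _).1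
  refine ⟨fun y => (g (Function.update y i₀ 0)).1, ε, hgs.fst, fun y t => by
    simp only [Function.update_idem], hε, fun y hy t ht => ?_⟩
  obtain ⟨h1, h2⟩ := (hg (Function.update y i₀ 0)).2 y hy (Function.update_idem ..).symm
  have h3 := hε' y hy
  exact (hconv y).out h1 h2 ⟨by linarith [ht.1], by linarith [ht.2]⟩

theorem unshake (i₀ : ι) {A B : Set (ι → ℝ)} (hB : IsOpen B)
    (hconv : ∀ y, OrdConnected {t | Function.update y i₀ t ∈ B})
    (hA : ∀ y ∈ A, 0 < y i₀ ∧ ∃ c, ∀ t ∈ Icc c (c + y i₀), Function.update y i₀ t ∈ B) :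
    TEmb A B := by
  intro K hK hKA
  have hK₀ : IsCompact (Prod.fst '' K) := hK.image continuous_fst
  have hA₀ : ∀ y ∈ Prod.fst '' K, y ∈ A := by
    rintro _ ⟨z, hz, rfl⟩
    exact hKA hz
  obtain ⟨α, ε, hα, hα', hε, hsel⟩ :=
    exists_select i₀ hK₀ hB hconv fun y hy => hA y (hA₀ y hy)
  obtain ⟨M, hM⟩ := (hK₀.image (continuous_apply i₀)).bddAbove
  obtain ⟨F, hF, hFj, hF0, hFi⟩ := coord_rect i₀ (A := |M| + 1) (by positivity) hε
  have c1 : Continuous fun z : Ph ι => z.1 i₀ := (continuous_apply i₀).comp continuous_fst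
  have c2 : Continuous fun z : Ph ι => α z.1 := hα.continuous.comp continuous_fst
  let U : Set (Ph ι) := {z | 0 < z.1 i₀ ∧ z.1 i₀ < |M| + 1} ∩
    ({z | Function.update z.1 i₀ (α z.1) ∈ B} ∩
      {z | Function.update z.1 i₀ (α z.1 + (z.1 i₀ + ε)) ∈ B})
  have hU : IsOpen U := hF.isOpen.inter
    ((hB.preimage (continuous_fst.update i₀ c2)).inter
      (hB.preimage (continuous_fst.update i₀ (c2.add (c1.add continuous_const)))))
  have h0 := fderiv_single_eq_zero i₀ hα'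
  have hF1 : ∀ z, (F z).1 = Function.update z.1 i₀ ((F z).1 i₀) := fun z => funext fun j => by
    by_cases hj : j = i₀
    · rw [hj, Function.update_self]
    · rw [Function.update_of_ne hj, (hFj z j hj).1]
  refine ⟨fun z => Tr i₀ α (F z), U, (symp_Tr i₀ isOpen_univ hα.contDiffOn fun y _ => h0 y).comp
    (hF.mono hU inter_subset_left) fun _ _ => mem_univ _, fun z hz => ?_, fun z hz => ?_,
    fun x hx y hy h => ?_⟩
  · have h1 := (hA _ (hKA hz)).1
    have h2 : z.1 i₀ ≤ M := hM ⟨z.1, ⟨z, hz, rfl⟩, rfl⟩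
    refine ⟨⟨h1, by linarith [le_abs_self M]⟩, ?_,
      hsel _ ⟨z, hz, rfl⟩ _ ⟨by linarith, le_rfl⟩⟩
    have := hsel _ ⟨z, hz, rfl⟩ 0 ⟨le_rfl, by linarith⟩
    rwa [add_zero] at this
  · obtain ⟨⟨h1, h2⟩, h3, h4⟩ := hz
    obtain ⟨h5, h6, -, -⟩ := hF0 z h1 h2
    have h7 : α (F z).1 = α z.1 := by rw [hF1, hα']
    show Function.update (F z).1 i₀ ((F z).1 i₀ + α (F z).1) ∈ B
    rw [h7, unshake_upd (w := z.1) (by rw [hF1, Function.update_idem])]
    exact (hconv z.1).out h3 h4 ⟨by linarith, by linarith⟩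
  · obtain ⟨-, -, a1, a2⟩ := hF0 x hx.1.1 hx.1.2
    obtain ⟨-, -, b1, b2⟩ := hF0 y hy.1.1 hy.1.2
    have h1 : (F x).2 i₀ = (F y).2 i₀ := by
      obtain ⟨m, hm⟩ := h.2 i₀
      simp only [Tr, h0, mul_zero, sub_zero] at hm
      have m1 : (m : ℝ) < 1 := by linarith
      have m2 : (-1 : ℝ) < m := by linarith
      have m3 : m < 1 := by exact_mod_cast m1
      have m4 : -1 < m := by exact_mod_cast m2
      have m5 : m = 0 := by omega
      rw [hm, m5, Int.cast_zero, add_zero]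
    obtain ⟨h2, h3⟩ := Tr_refl i₀ hα' h h1
    obtain ⟨h4, h5⟩ := hFi x y hx.1.1 hx.1.2 hy.1.1 hy.1.2 (congrFun h2 i₀) h1
    refine ⟨funext fun j => ?_, fun j => ?_⟩
    · by_cases hj : j = i₀
      · rw [hj, h4]
      · rw [← (hFj x j hj).1, ← (hFj y j hj).1, h2]
    · by_cases hj : j = i₀
      · rw [hj]
        exact h5
      · rw [← (hFj x j hj).2, ← (hFj y j hj).2]
        exact h3 j

end Vale.Agent.P209
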