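import Vale.Agent.P209.Game
import Vale.Agent.P209.Unshake

/-! A ball embeds in the region swept by an insertion. Plan: for `m ≤ d + 1` let `Om m` be the
open set of `z` (`y = bb z > 0`, `x = z none`) with `a y < x` and some `i ≥ 0`, `i r = y r` for
`r ≥ m`, `∑ i < ρ`, `x < a i + ρ - ∑ i`, `x < a (Tm r y i)` for all `r < m`.
`unshake none : spx → Om 0`; `unshake (some m) : Om m → Om (m+1)`: slices of `Om (m+1)` in the
coordinate `m` are intervals (`a y < x` is down-closed, the rest up-closed since `y m` enters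
only `Tm m`). Given `z ∈ Om m`, it stays in `Om m` when `y m` is raised by a small `ε`;
`A = sup {t ≥ 0 | a (update y m t) < x}` is finite (slope `μ`), `A ≥ y m + ε`, and every
`t ∈ (A - y m - ε, A)` lies in the slice of `Om (m+1)` with `i m = y m + ε`
(`Tm m (update y m t) i = update y m (t + y m + ε)`, beyond `A`, so `a > x` strictly). -/

open scoped ContDiff Topology
open Set MeasureTheory

namespace Vale.Agent.P209

theorem gch_bb {κ : Type} [DecidableEq κ] (z : Option κ → ℝ) (k : κ) (t : ℝ) :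
    bb (Function.update z (some k) t) = Function.update (bb z) k t :=
  Function.update_comp_eq_of_injective z (Option.some_injective κ) k t

theorem gch_cont {κ : Type} : Continuous (bb : (Option κ → ℝ) → κ → ℝ) :=
  continuous_pi fun r => continuous_apply (some r)

/-- a grounded ball. -/
theorem grounded {κ : Type} [Fintype κ] [DecidableEq κ] {ρ : ℝ} {c : (κ → ℝ) → ℝ}
    (hc : Continuous c) :
    TEmb (spx (Option κ) ρ)
      {z | (∀ r, 0 < bb z r) ∧ c (bb z) < z none ∧ z none < c (bb z) + (ρ - ∑ r, bb z r)} := by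
  have hb : ∀ (z : Option κ → ℝ) t, bb (Function.update z none t) = bb z := fun z t =>
    funext fun r => Function.update_of_ne (Option.some_ne_none r) _ _
  have := @gch_cont κ
  refine unshake none ?_ (fun z => ⟨fun t₁ h₁ t₂ h₂ t ht => ?_⟩) fun z hz => ⟨hz.1 _,
    c (bb z) + (ρ - ∑ r, z r) / 2, fun t ht => ?_⟩
  · refine IsOpen.and ?_ (IsOpen.and (isOpen_lt (by fun_prop) (by fun_prop))
      (isOpen_lt (by fun_prop) (by fun_prop)))
    rw [ofPred_forall]
    exact isOpen_iInter_of_finite fun r => isOpen_lt (by fun_prop) (by fun_prop)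
  · simp only [mem_ofPred_eq, hb, Function.update_self] at h₁ h₂ ⊢
    exact ⟨h₁.1, h₁.2.1.trans_le ht.1, ht.2.trans_lt h₂.2.2⟩
  · have h1 := hz.2
    have h2 : ∑ r, z r = z none + ∑ r, bb z r := Fintype.sum_option z
    simp only [mem_ofPred_eq, hb, Function.update_self]
    exact ⟨fun r => hz.1 _, by linarith [ht.1], by linarith [ht.2]⟩

/-- the intermediate regions. -/
def gchOm {d : ℕ} (ρ : ℝ) (a : (Fin d → ℝ) → ℝ) (m : ℕ) : Set (Option (Fin d) → ℝ) :=
  {z | (∀ r, 0 < bb z r) ∧ a (bb z) < z none ∧ ∃ i : Fin d → ℝ, 0 ≤ i ∧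
    (∀ r : Fin d, m ≤ r → i r = bb z r) ∧ ∑ r, i r < ρ ∧ z none < a i + ρ - ∑ r, i r ∧
    ∀ r : Fin d, (r : ℕ) < m → z none < a (Tm r (bb z) i)}

theorem gch_open {d : ℕ} (ρ : ℝ) {a : (Fin d → ℝ) → ℝ} (ha : Continuous a) (m : ℕ) :
    IsOpen (gchOm ρ a m) := by
  refine isOpen_iff_mem_nhds.2 fun z ⟨h1, h2, i, h3, h4, h5, h6, h7⟩ => ?_
  have hb := @gch_cont (Fin d)
  obtain ⟨f, hf⟩ : ∃ f : (Option (Fin d) → ℝ) → Fin d → ℝ,
      f = fun w (r : Fin d) => if m ≤ r then bb w r else i r := ⟨_, rfl⟩
  have hc : Continuous f := hf ▸ continuous_pi fun r => by split_ifs <;> fun_prop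
  have hz : i = f z := funext fun r => by
    simp only [hf]
    split_ifs with h
    exacts [h4 r h, rfl]
  have hT : ∀ r, Continuous fun w => Tm r (bb w) (f w) := fun r => continuous_pi fun k => by
    unfold Tm
    split_ifs <;> fun_prop
  have key : ∀ {p q : (Option (Fin d) → ℝ) → ℝ}, Continuous p → Continuous q → p z < q z →
      ∀ᶠ w in 𝓝 z, p w < q w := fun hp hq h => (isOpen_lt hp hq).mem_nhds h
  rw [hz] at h5 h6 h7
  filter_upwards [Filter.eventually_all.2 fun r => key (p := fun _ => 0) (q := fun w => bb w r)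
      (by fun_prop) (by fun_prop) (h1 r),
    key (p := fun w => a (bb w)) (q := fun w => w none) (by fun_prop) (by fun_prop) h2,
    key (p := fun w => ∑ r, f w r) (q := fun _ => ρ) (by fun_prop) (by fun_prop) h5,
    key (p := fun w => w none) (q := fun w => a (f w) + ρ - ∑ r, f w r) (by fun_prop)
      (by fun_prop) h6,
    Filter.eventually_all.2 fun r : Fin d => Filter.eventually_all.2 fun hr =>
      key (continuous_apply none) (ha.comp (hT r)) (h7 r hr)] with w e1 e2 e3 e4 e5
  refine ⟨e1, e2, f w, fun r => ?_, fun r hr => by simp only [hf, if_pos hr], e3, e4, e5⟩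
  simp only [hf]
  split_ifs
  exacts [(e1 r).le, h3 r]

theorem gch_step {d : ℕ} {ρ μ : ℝ} (hμ : 0 < μ) {a : (Fin d → ℝ) → ℝ} (ha : Continuous a)
    (hs : ∀ y y', 0 ≤ y → y ≤ y' → a y + μ * ∑ r, (y' r - y r) ≤ a y') (k : Fin d) :
    TEmb (gchOm ρ a k) (gchOm ρ a (k + 1)) := by
  have hm : ∀ y y', 0 ≤ y → y ≤ y' → a y ≤ a y' := fun y y' h h' =>
    (le_add_of_nonneg_right (mul_nonneg hμ.le
      (Finset.sum_nonneg fun r _ => sub_nonneg.2 (h' r)))).trans (hs y y' h h')
  have hn : ∀ (z : Option (Fin d) → ℝ) t, Function.update z (some k) t none = z none :=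
    fun z t => Function.update_of_ne (Option.some_ne_none k).symm _ _
  have hne : ∀ r : Fin d, (k : ℕ) + 1 ≤ r → r ≠ k := fun r h e => by
    rw [e] at h
    omega
  refine unshake (some k) (gch_open ρ ha _) (fun z => ⟨fun t₁ h₁ t₂ h₂ t ht => ?_⟩)
    fun z hz => ⟨hz.1 k, ?_⟩
  · simp only [gchOm, mem_ofPred_eq, gch_bb, hn] at h₁ h₂ ⊢
    obtain ⟨e1, -, i, e3, e4, e5, e6, e7⟩ := h₁
    have l1 : Function.update (bb z) k t₁ ≤ Function.update (bb z) k t := update_le_update_iff'.2 ht.1
    have p1 := fun r => (e1 r).trans_le (l1 r)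
    refine ⟨p1, (hm _ _ (fun r => (p1 r).le) (update_le_update_iff'.2 ht.2)).trans_lt h₂.2.1, i,
      e3, fun r hr => ?_, e5, e6, fun r hr => (e7 r hr).trans_le (hm _ _ (fun q => ?_) fun q => ?_)⟩
    · rw [e4 r hr, Function.update_of_ne (hne r hr), Function.update_of_ne (hne r hr)]
    · unfold Tm
      split_ifs
      exacts [(e1 q).le, add_nonneg (e1 q).le (e3 q), e3 q]
    · unfold Tm
      split_ifs
      exacts [l1 q, add_le_add_left (l1 q) _, le_rfl]
  · have h0 : ∀ᶠ s in 𝓝 (z (some k)), Function.update z (some k) s ∈ gchOm ρ a k :=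
      (continuous_const.update (some k) continuous_id).continuousAt.eventually
        ((gch_open ρ ha k).mem_nhds (by simpa using hz))
    obtain ⟨s, h1, hs1⟩ := ((h0.filter_mono nhdsWithin_le_nhds).and
      (self_mem_nhdsWithin (s := Ioi (z (some k))))).exists
    simp only [gchOm, mem_ofPred_eq, gch_bb, hn] at h1
    obtain ⟨e1, e2, i, e3, e4, e5, e6, e7⟩ := h1
    have hs0 : 0 < s := (hz.1 k).trans hs1
    have hp : ∀ t, 0 < t → ∀ r, 0 < Function.update (bb z) k t r := fun t ht =>
      (Function.forall_update_iff _ fun _ x => 0 < x).2 ⟨ht, fun r _ => hz.1 r⟩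
    have hg : ∀ t t', 0 < t → t ≤ t' → a (Function.update (bb z) k t) + μ * (t' - t) ≤
        a (Function.update (bb z) k t') := fun t t' ht htt => by
      have := hs _ _ (fun r => (hp t ht r).le) (update_le_update_iff'.2 htt)
      rwa [Finset.sum_eq_single k (fun r _ hr => by simp [Function.update_of_ne hr]) (by simp),
        Function.update_self, Function.update_self] at this
    have hq : s ≤ s + (z none - a (Function.update (bb z) k s)) / μ :=
      le_add_of_nonneg_right (div_nonneg (sub_nonneg.2 e2.le) hμ.le)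
    obtain ⟨A, hA, hA'⟩ := intermediate_value_Icc hq
      (f := fun t => a (Function.update (bb z) k t))
      (ha.comp (continuous_const.update k continuous_id)).continuousOn
      (show z none ∈ _ from ⟨e2.le, by
        have := hg _ _ hs0 hq
        rw [add_sub_cancel_left, mul_div_cancel₀ _ hμ.ne'] at this
        exact (add_sub_cancel _ _).ge.trans this⟩)
    simp only at hA'
    have hs2 : z (some k) < s := hs1
    refine ⟨A - (s + z (some k)) / 2, fun t ht => ?_⟩
    have ht0 : 0 < t := by linarith [ht.1, hA.1]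
    have htA : t < A := by linarith [ht.2]
    have hAt : A < t + s := by linarith [ht.1]
    simp only [gchOm, mem_ofPred_eq, gch_bb, hn]
    refine ⟨hp t ht0, by linarith [hg t A ht0 htA.le, mul_pos hμ (sub_pos.2 htA)], i, e3,
      fun r hr => ?_, e5, e6, fun r hr => ?_⟩
    · rw [e4 r (by omega), Function.update_of_ne (hne r hr), Function.update_of_ne (hne r hr)]
    · rcases (Fin.le_def.2 (Nat.lt_succ_iff.1 hr)).lt_or_eq with h | rfl
      · refine (e7 r h).trans_eq (congrArg a (funext fun q => ?_))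
        unfold Tm
        split_ifs with h1 h2
        · rw [Function.update_of_ne (h1.trans h).ne, Function.update_of_ne (h1.trans h).ne]
        · rw [Function.update_of_ne (h2.trans_lt h).ne, Function.update_of_ne (h2.trans_lt h).ne]
        · rfl
      · have e : Tm r (Function.update (bb z) r t) i = Function.update (bb z) r (t + s) := by
          funext q
          unfold Tm
          split_ifs with h1 h2
          · rw [Function.update_of_ne h1.ne, Function.update_of_ne h1.ne]
          · rw [h2, e4 r le_rfl, Function.update_self, Function.update_self, Function.update_self]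
          · rw [e4 q (not_lt.1 h1), Function.update_of_ne h2, Function.update_of_ne h2]
        rw [e]
        linarith [hg A _ (hs0.trans_le hA.1) hAt.le, mul_pos hμ (sub_pos.2 hAt)]

theorem chain {d : ℕ} {ρ μ : ℝ} (hμ : 0 < μ) {a : (Fin (d + 1) → ℝ) → ℝ} (ha : Continuous a)
    (hs : ∀ y y', 0 ≤ y → y ≤ y' → a y + μ * ∑ r, (y' r - y r) ≤ a y') :
    TEmb (spx (Option (Fin (d + 1))) ρ)
      {z | (∀ r, 0 < bb z r) ∧ a (bb z) < z none ∧ ∃ i ∈ dl (d + 1) ρ,
        z none < a i + ρ - ∑ r, i r ∧ ∀ m, z none < a (Tm m (bb z) i)} := by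
  have key : ∀ m ≤ d + 1, TEmb (spx (Option (Fin (d + 1))) ρ) (gchOm ρ a m) := by
    intro m hm
    induction m with
    | zero =>
      exact (grounded ha).mono Subset.rfl fun z ⟨h1, h2, h3⟩ => ⟨h1, h2, bb z, fun r => (h1 r).le,
        fun _ _ => rfl, by linarith, by linarith, fun r hr => absurd hr (Nat.not_lt_zero _)⟩
    | succ m ih => exact (ih (by omega)).trans (gch_step hμ ha hs ⟨m, hm⟩)
  exact (key _ le_rfl).mono Subset.rfl fun z ⟨h1, h2, i, h3, _, h5, h6, h7⟩ =>
    ⟨h1, h2, i, ⟨h3, h5.le⟩, h6, fun m => h7 m m.2⟩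

end Vale.Agent.P209
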