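import Vale.Agent.P209.GPerAux
import Vale.Agent.P209.Spx

/-! The period function left after grounding the `D` largest balls.
`perG y = ∑ i ∈ Gd, max (R i - ∑ y) 0`,
`perL t = max 0 (min (ell - perG - 1 / t) (min (t gp - 1) (t (δ - y 0) - 1)))` for large `t`. -/

open scoped ContDiff Topology
open Set MeasureTheory Filter

namespace Vale.Agent.P209

variable {d k : ℕ}

/-- height taken by the grounded balls. -/
noncomputable def perG (R : Fin k → ℝ) (Gd : Finset (Fin k)) (y : Fin (d + 1) → ℝ) : ℝ :=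
  ∑ i ∈ Gd, max (R i - ∑ r, y r) 0

/-- the period function with parameter `t`. -/
noncomputable def perL (δ : ℝ) (ell gp : (Fin (d + 1) → ℝ) → ℝ) (R : Fin k → ℝ)
    (Gd : Finset (Fin k)) (t : ℝ) (y : Fin (d + 1) → ℝ) : ℝ :=
  max 0 (min (ell y - perG R Gd y - t⁻¹) (min (t * gp y - 1) (t * (δ - y 0) - 1)))

theorem perG_cont (R : Fin k → ℝ) (Gd : Finset (Fin k)) :
    Continuous (perG R Gd : (Fin (d + 1) → ℝ) → ℝ) := by
  unfold perG
  fun_prop

theorem perG_nonneg (R : Fin k → ℝ) (Gd : Finset (Fin k)) (y : Fin (d + 1) → ℝ) :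
    0 ≤ perG R Gd y :=
  Finset.sum_nonneg fun _ _ => le_max_right _ _

variable {δ δg c : ℝ} {D : ℕ} {ell gp : (Fin (d + 1) → ℝ) → ℝ} {R : Fin k → ℝ}
  {Gd : Finset (Fin k)}

theorem perL_cont (hW : WinFn δ δg c D ell gp) (t : ℝ) : Continuous (perL δ ell gp R Gd t) := by
  have h1 := hW.cont
  have h2 := hW.cont'
  have h3 : Continuous (perG R Gd : (Fin (d + 1) → ℝ) → ℝ) := perG_cont R Gd
  unfold perL
  fun_prop

theorem perL_pos {t : ℝ} (ht : 0 < t) {y : Fin (d + 1) → ℝ} (h : 0 < perL δ ell gp R Gd t y) :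
    y 0 < δ ∧ 0 < gp y ∧ perL δ ell gp R Gd t y ≤ ell y - perG R Gd y - t⁻¹ ∧
      perL δ ell gp R Gd t y ≤ t * gp y - 1 := by
  unfold perL at h ⊢
  have h0 := (lt_max_iff.1 h).resolve_left (lt_irrefl _)
  rw [max_eq_right h0.le]
  have h1 := (lt_min_iff.1 (lt_min_iff.1 h0).2).1
  have h2 := (lt_min_iff.1 (lt_min_iff.1 h0).2).2
  refine ⟨?_, ?_, min_le_left _ _, (min_le_right _ _).trans (min_le_left _ _)⟩
  · have : 0 < t * (δ - y 0) := by linarith
    have := (mul_pos_iff_of_pos_left ht).1 this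
    linarith
  · have : 0 < t * gp y := by linarith
    exact (mul_pos_iff_of_pos_left ht).1 this

theorem per_flat (hW : WinFn δ δg c D ell gp) (hcard : Gd.card = D) {y : Fin (d + 1) → ℝ}
    (hy : 0 ≤ y) (hs : ∑ r, y r ≤ δg) :
    ell y - perG R Gd y = c + ∑ i ∈ Gd, (δg - max (R i) (∑ r, y r)) := by
  rw [(hW.flat y hy hs).1, ← hcard, perG, add_sub_assoc, ← nsmul_eq_mul, ← Finset.sum_const,
    ← Finset.sum_sub_distrib]
  congr 1
  refine Finset.sum_congr rfl fun i _ => ?_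
  rcases le_total (R i) (∑ r, y r) with h | h
  · rw [max_eq_right h, max_eq_right (sub_nonpos.2 h), sub_zero]
  · rw [max_eq_left h, max_eq_left (sub_nonneg.2 h)]
    ring

theorem perG_zero (hR : ∀ i ∈ Gd, R i < δg) {y : Fin (d + 1) → ℝ} (hs : δg ≤ ∑ r, y r) :
    perG R Gd y = 0 :=
  Finset.sum_eq_zero fun i hi => max_eq_right (by linarith [hR i hi])

theorem per_far (hW : WinFn δ δg c D ell gp) {y : Fin (d + 1) → ℝ} (hy : 0 ≤ y) (h0 : y 0 ≤ δ)
    (hg : 0 ≤ gp y) (hs : δg ≤ ∑ r, y r) : ell y ≤ c := by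
  have hp := hW.pos
  have hs0 : 0 < ∑ r, y r := hp.trans_le hs
  have ht0 : 0 ≤ δg / ∑ r, y r := by positivity
  have ht1 : δg / ∑ r, y r ≤ 1 := (div_le_one hs0).2 hs
  have hsum : ∑ r, ((δg / ∑ r, y r) • y) r = δg := by
    simp only [Pi.smul_apply, smul_eq_mul]
    rw [← Finset.mul_sum, div_mul_cancel₀ _ hs0.ne']
  have hy' : 0 ≤ (δg / ∑ r, y r) • y := smul_nonneg ht0 hy
  have hle : (δg / ∑ r, y r) • y ≤ y := fun r => by
    simp only [Pi.smul_apply, smul_eq_mul]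
    exact mul_le_of_le_one_left (hy r) ht1
  have h1 := (hW.mono _ y hy' hy (gper_psum_mono hle) h0 hg).1
  rw [(hW.flat _ hy' hsum.le).1, hsum] at h1
  simpa using h1

theorem per_diff_mono (hW : WinFn δ δg c D ell gp) (hcard : Gd.card = D)
    (hR : ∀ i ∈ Gd, R i < δg) {y y' : Fin (d + 1) → ℝ} (hy : 0 ≤ y) (hy' : 0 ≤ y')
    (h : ∀ l, psum y l ≤ psum y' l) (h0 : y' 0 ≤ δ) (hg : 0 ≤ gp y') :
    ell y' - perG R Gd y' ≤ ell y - perG R Gd y := by
  have hs : ∑ r, y r ≤ ∑ r, y' r := by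
    have := h (d + 1)
    rwa [gper_psum_top, gper_psum_top] at this
  rcases le_total (∑ r, y' r) δg with h1 | h1
  · rw [per_flat hW hcard hy' h1, per_flat hW hcard hy (hs.trans h1)]
    gcongr
  · rw [perG_zero hR h1, sub_zero]
    rcases le_total (∑ r, y r) δg with h2 | h2
    · rw [per_flat hW hcard hy h2]
      refine (per_far hW hy' h0 hg h1).trans (le_add_of_nonneg_right ?_)
      exact Finset.sum_nonneg fun i hi => sub_nonneg.2 (max_le (hR i hi).le h2)
    · rw [perG_zero hR h2, sub_zero]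
      exact (hW.mono y y' hy hy' h h0 hg).1

theorem perL_mono (hW : WinFn δ δg c D ell gp) (hcard : Gd.card = D)
    (hR : ∀ i ∈ Gd, R i < δg) {t : ℝ} (ht : 0 < t) {y y' : Fin (d + 1) → ℝ} (hy : 0 ≤ y)
    (hy' : 0 ≤ y') (h : ∀ l, psum y l ≤ psum y' l) :
    perL δ ell gp R Gd t y' ≤ perL δ ell gp R Gd t y := by
  rcases le_or_gt (perL δ ell gp R Gd t y') 0 with h0 | h0
  · exact h0.trans (le_max_left _ _)
  obtain ⟨h1, h2, -, -⟩ := perL_pos ht h0
  have h3 := per_diff_mono hW hcard hR hy hy' h h1.le h2.le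
  have h4 := (hW.mono y y' hy hy' h h1.le h2.le).2
  have h5 : y 0 ≤ y' 0 := by
    have := h 1
    rwa [gper_psum_one, gper_psum_one] at this
  unfold perL
  gcongr

theorem perL_le (hW : WinFn δ δg c D ell gp) {t : ℝ} (ht : 0 < t) {y : Fin (d + 1) → ℝ}
    (hy : 0 ≤ y) (h : 0 < perL δ ell gp R Gd t y) : perL δ ell gp R Gd t y ≤ c + D * δg := by
  obtain ⟨h1, h2, h3, -⟩ := perL_pos ht h
  have h4 := (hW.mono 0 y le_rfl hy (gper_psum_mono hy) h1.le h2.le).1
  have h5 := (hW.flat 0 le_rfl (by simpa using hW.pos.le)).1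
  have h6 := perG_nonneg R Gd y
  have h7 : 0 < t⁻¹ := inv_pos.2 ht
  simp only [Pi.zero_apply, Finset.sum_const_zero, sub_zero] at h5
  linarith

theorem per_inv (hW : WinFn δ δg c D ell gp) {y : Fin (d + 1) → ℝ} (hy : 0 ≤ y) {τ : ℝ}
    (hτ : 0 ≤ τ) {a l : ℕ} (hal : a < l) (hl : l < d + 1) (hp : psum (y + ev a τ) l ≤ δg) :
    ell (y + ev l τ) = ell (y + ev a τ) ∧ gp (y + ev l τ) = gp (y + ev a τ) ∧
      perG R Gd (y + ev l τ) = perG R Gd (y + ev a τ) := by
  have hya : 0 ≤ y + ev a τ := add_nonneg hy (gper_ev_nonneg a hτ)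
  have hyl : 0 ≤ y + ev l τ := add_nonneg hy (gper_ev_nonneg l hτ)
  have ha : a < d + 1 := hal.trans hl
  have hs : ∑ r, (y + ev l τ : Fin (d + 1) → ℝ) r = ∑ r, (y + ev a τ : Fin (d + 1) → ℝ) r := by
    rw [← gper_psum_top, ← gper_psum_top, gper_psum_add, gper_psum_add, gper_psum_ev ha,
      gper_psum_ev hl, if_pos ha, if_pos hl]
  have key := hW.inv _ _ hyl hya hs fun j => by
    by_cases h1 : l < j
    · left
      rw [gper_psum_add, gper_psum_add, gper_psum_ev ha, gper_psum_ev hl, if_pos h1,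
        if_pos (hal.trans h1)]
    · right
      have h2 : psum (y + ev a τ) j ≤ δg := (gper_psum_le hya (not_lt.1 h1)).trans hp
      refine ⟨le_trans ?_ h2, h2⟩
      rw [gper_psum_add, gper_psum_ev hl, if_neg h1, add_zero]
      exact gper_psum_mono (le_add_of_nonneg_right (gper_ev_nonneg a hτ)) j
  refine ⟨key.1, key.2, ?_⟩
  unfold perG
  rw [hs]

theorem per_small (hW : WinFn δ δg c D ell gp) (hcard : Gd.card = D) {h : ℝ}
    (hR : ∀ i ∈ Gd, h ≤ R i) (hh : h ≤ δg) {y : Fin (d + 1) → ℝ} (hy : 0 ≤ y)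
    (hs : ∑ r, y r ≤ h) : ell y - perG R Gd y = c + ∑ i ∈ Gd, (δg - R i) := by
  rw [per_flat hW hcard hy (hs.trans hh)]
  congr 1
  exact Finset.sum_congr rfl fun i hi => by rw [max_eq_left (hs.trans (hR i hi))]

theorem perL_hB (hW : WinFn δ δg c D ell gp) (hcard : Gd.card = D) {h η t : ℝ} (ht : 0 < t)
    (hη : 0 < η) (hR : ∀ i ∈ Gd, h ≤ R i) (hh : h + η ≤ δg) (hK : c + D * δg + 1 ≤ t * η)
    {y : Fin (d + 1) → ℝ} (hy : 0 ≤ y) {τ : ℝ} (hτ : 0 ≤ τ) {a l : ℕ} (hal : a < l)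
    (hl : l ≤ d + 1) (hp : psum (y + ev a τ) l ≤ h) :
    perL δ ell gp R Gd t (y + ev l τ) ≤ perL δ ell gp R Gd t (y + ev a τ) := by
  rcases le_or_gt (perL δ ell gp R Gd t (y + ev l τ)) 0 with h0 | h0
  · exact h0.trans (le_max_left _ _)
  have hya : 0 ≤ y + ev a τ := add_nonneg hy (gper_ev_nonneg a hτ)
  have hyl : 0 ≤ y + ev l τ := add_nonneg hy (gper_ev_nonneg l hτ)
  have hK1 := perL_le hW ht hyl h0
  obtain ⟨-, -, h3, h4⟩ := perL_pos ht h0
  have hle := hW.le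
  have h5 : (y + ev a τ : Fin (d + 1) → ℝ) 0 ≤ h := by
    rw [← gper_psum_one (y + ev a τ)]
    exact (gper_psum_le hya (by omega)).trans hp
  have h6 : perL δ ell gp R Gd t (y + ev l τ) ≤
      t * (δ - (y + ev a τ : Fin (d + 1) → ℝ) 0) - 1 := by
    have : t * η ≤ t * (δ - (y + ev a τ : Fin (d + 1) → ℝ) 0) :=
      mul_le_mul_of_nonneg_left (by linarith) ht.le
    linarith
  rcases hl.lt_or_eq with hl' | rfl
  · obtain ⟨e1, e2, e3⟩ := per_inv (R := R) (Gd := Gd) hW hy hτ hal hl' (by linarith)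
    rw [e1, e3] at h3
    rw [e2] at h4
    exact le_max_of_le_right (le_min h3 (le_min h4 h6))
  · rw [gper_psum_top] at hp
    have hs : ∑ r, (y + ev (d + 1) τ : Fin (d + 1) → ℝ) r ≤ h := by
      rw [gper_ev_top, add_zero]
      exact (Finset.sum_le_sum fun r _ =>
        le_add_of_nonneg_right (gper_ev_nonneg a hτ r)).trans hp
    rw [per_small hW hcard hR (by linarith) hyl hs,
      ← per_small hW hcard hR (by linarith) hya hp] at h3
    refine le_max_of_le_right (le_min h3 (le_min ?_ h6))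
    have h7 := (hW.flat _ hya (by linarith)).2
    have : t * η ≤ t * gp (y + ev a τ) := mul_le_mul_of_nonneg_left (by linarith) ht.le
    linarith

theorem per_gap (hW : WinFn δ δg c D ell gp) (hD : 0 < D) (hcard : Gd.card = D) {η : ℝ}
    (hη : 0 < η) (hR : ∀ i ∈ Gd, R i + η ≤ δg) {y : Fin (d + 1) → ℝ} (hy : 0 ≤ y)
    (hs : ∑ r, y r + η ≤ δg) : η ≤ ell y - perG R Gd y := by
  rw [per_flat hW hcard hy (by linarith)]
  have h1 : Gd.card • η ≤ ∑ i ∈ Gd, (δg - max (R i) (∑ r, y r)) :=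
    Finset.card_nsmul_le_sum _ _ _ fun i hi => by
      have := hR i hi
      have : max (R i) (∑ r, y r) ≤ δg - η := max_le (by linarith) (by linarith)
      linarith
  rw [hcard, nsmul_eq_mul] at h1
  have h2 : (1 : ℝ) ≤ D := by exact_mod_cast hD
  have h3 := hW.c_nonneg
  nlinarith

theorem perL_per (hW : WinFn δ δg c D ell gp) (hD : 0 < D) (hcard : Gd.card = D) {h η t : ℝ}
    (ht : 0 < t) (hη : 0 < η) (hh : 0 < h) (hR : ∀ i ∈ Gd, h ≤ R i ∧ R i + η ≤ δg)
    (hhη : h + η ≤ δg) (hK : c + D * δg + 1 < t * η) : Per h (perL δ ell gp R Gd t) := by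
  have hR' : ∀ i ∈ Gd, R i < δg := fun i hi => by linarith [(hR i hi).2]
  have hK0 : 0 ≤ c + D * δg := add_nonneg hW.c_nonneg (mul_nonneg D.cast_nonneg hW.pos.le)
  refine ⟨perL_cont hW t, fun y => le_max_left _ _,
    fun y y' hy hyy => perL_mono hW hcard hR' ht hy (hy.trans hyy) (gper_psum_mono hyy),
    fun y hy τ hτ a l hal hl => ?_,
    fun y hy τ hτ a l hal hl hp =>
      perL_hB hW hcard ht hη (fun i hi => (hR i hi).1) hhη hK.le hy hτ hal hl hp,
    fun y hy hs => ?_, ?_⟩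
  · refine perL_mono hW hcard hR' ht (add_nonneg hy (gper_ev_nonneg l hτ))
      (add_nonneg hy (gper_ev_nonneg a hτ)) fun j => ?_
    rw [gper_psum_add, gper_psum_add, gper_psum_ev hl, gper_psum_ev (hal.trans hl)]
    by_cases h1 : l < j
    · rw [if_pos h1, if_pos (hal.trans h1)]
    · rw [if_neg h1]
      split_ifs <;> linarith
  · refine le_antisymm (not_lt.1 fun h0 => ?_) (le_max_left _ _)
    obtain ⟨h1, h2, -, -⟩ := perL_pos ht h0
    linarith [hW.bdd y hy h1.le h2.le]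
  · have h1 := per_gap hW hD hcard hη (fun i hi => (hR i hi).2) (y := 0) le_rfl
      (by simp; linarith)
    have h2 := (hW.flat 0 le_rfl (by simpa using hW.pos.le)).2
    simp only [Pi.zero_apply, Finset.sum_const_zero, sub_zero] at h2
    have h3 : t⁻¹ < η := by
      rw [inv_lt_iff_one_lt_mul₀' ht]
      linarith
    have hle := hW.le
    have h4 : t * η ≤ t * gp 0 := mul_le_mul_of_nonneg_left (by linarith) ht.le
    have h5 : t * η ≤ t * (δ - (0 : Fin (d + 1) → ℝ) 0) :=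
      mul_le_mul_of_nonneg_left (by simp; linarith) ht.le
    exact lt_max_of_lt_right (lt_min (by linarith) (lt_min (by linarith) (by linarith)))

theorem perL_tendsto {y : Fin (d + 1) → ℝ} (hy : y ∈ WBase δ gp) :
    Tendsto (fun t : ℝ => ENNReal.ofReal (perL δ ell gp R Gd t y)) atTop
      (𝓝 (ENNReal.ofReal (ell y - perG R Gd y))) := by
  have h1 : Tendsto (fun t : ℝ => ell y - perG R Gd y - t⁻¹) atTop (𝓝 (ell y - perG R Gd y)) := by
    simpa using (tendsto_const_nhds (x := ell y - perG R Gd y)).sub tendsto_inv_atTop_zero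
  refine (ENNReal.tendsto_ofReal h1).congr' ?_
  have h2 : Tendsto (fun t : ℝ => t * gp y) atTop atTop := tendsto_id.atTop_mul_const hy.2.2
  have h3 : Tendsto (fun t : ℝ => t * (δ - y 0)) atTop atTop :=
    tendsto_id.atTop_mul_const (sub_pos.2 hy.2.1)
  filter_upwards [h2.eventually_ge_atTop (ell y - perG R Gd y + 1),
    h3.eventually_ge_atTop (ell y - perG R Gd y + 1), eventually_gt_atTop 0] with t a1 a2 a3
  have a4 : 0 < t⁻¹ := inv_pos.2 a3
  unfold perL
  rw [min_eq_left (le_min (by linarith) (by linarith)), max_comm, ENNReal.ofReal_max,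
    ENNReal.ofReal_zero, max_eq_left zero_le]

theorem wbase_meas (hW : WinFn δ δg c D ell gp) : MeasurableSet (WBase δ gp) := by
  have h1 := hW.cont'.measurable
  unfold WBase
  measurability

theorem per_vol (hW : WinFn δ δg c D ell gp) (hR : ∀ i ∈ Gd, 0 ≤ R i) {V : ℝ} (hV : 0 ≤ V)
    (hvol : ENNReal.ofReal (V + ∑ i ∈ Gd, R i ^ (d + 2) / (d + 2).factorial) <
      volume {z : Option (Fin (d + 1)) → ℝ | bb z ∈ WBase δ gp ∧ 0 < z none ∧
        z none < ell (bb z)}) :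
    ENNReal.ofReal V < ∫⁻ y in WBase δ gp, ENNReal.ofReal (ell y - perG R Gd y) := by
  have hm := wbase_meas hW
  have h1 := volume_option hm (f := fun _ => 0) measurable_const hW.cont.measurable
  rw [h1] at hvol
  have hsub : WBase δ gp ⊆ {y : Fin (d + 1) → ℝ | 0 ≤ y} := fun y hy r => (hy.1 r).le
  have hS : 0 ≤ ∑ i ∈ Gd, R i ^ (d + 2) / ((d + 2).factorial : ℝ) :=
    Finset.sum_nonneg fun i hi => by
      have := hR i hi
      positivity
  have h2 : ∫⁻ y in WBase δ gp, ENNReal.ofReal (perG R Gd y) ≤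
      ENNReal.ofReal (∑ i ∈ Gd, R i ^ (d + 2) / ((d + 2).factorial : ℝ)) := by
    refine (lintegral_mono_set hsub).trans (le_of_eq ?_)
    have e1 : ∀ y : Fin (d + 1) → ℝ, ENNReal.ofReal (perG R Gd y) =
        ∑ i ∈ Gd, ENNReal.ofReal (R i - ∑ r, y r) := fun y => by
      unfold perG
      rw [ENNReal.ofReal_sum_of_nonneg fun _ _ => le_max_right _ _]
      refine Finset.sum_congr rfl fun i _ => ?_
      rw [ENNReal.ofReal_max, ENNReal.ofReal_zero, max_eq_left zero_le]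
    simp only [e1]
    rw [lintegral_finsetSum _ fun i _ => by fun_prop,
      ENNReal.ofReal_sum_of_nonneg fun i hi => by
        have := hR i hi
        positivity]
    refine Finset.sum_congr rfl fun i hi => ?_
    rw [lintegral_cone (hR i hi), Fintype.card_fin]
  have h3 : ∫⁻ y in WBase δ gp, ENNReal.ofReal (ell y - 0) ≤
      (∫⁻ y in WBase δ gp, ENNReal.ofReal (ell y - perG R Gd y)) +
        ∫⁻ y in WBase δ gp, ENNReal.ofReal (perG R Gd y) := by
    rw [← lintegral_add_right _ (perG_cont R Gd).measurable.ennreal_ofReal]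
    refine lintegral_mono fun y => le_trans (le_of_eq ?_) ENNReal.ofReal_add_le
    rw [sub_zero, sub_add_cancel]
  rw [ENNReal.ofReal_add hV hS] at hvol
  have h4 := hvol.trans_le (h3.trans (add_le_add_right h2 _))
  exact lt_of_add_lt_add_right h4

theorem exists_per {d : ℕ} {δ δg c : ℝ} {D : ℕ} {ell gp : (Fin (d + 1) → ℝ) → ℝ}
    (hW : WinFn δ δg c D ell gp) (hD : 0 < D) {k : ℕ} (R : Fin k → ℝ) (Gd : Finset (Fin k))
    (hcard : Gd.card = D) {h : ℝ} (hh : 0 < h) (hR : ∀ i ∈ Gd, h ≤ R i ∧ R i < δg) {V : ℝ}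
    (hV : 0 ≤ V)
    (hvol : ENNReal.ofReal (V + ∑ i ∈ Gd, R i ^ (d + 2) / (d + 2).factorial) <
      volume {z : Option (Fin (d + 1)) → ℝ | bb z ∈ WBase δ gp ∧ 0 < z none ∧
        z none < ell (bb z)}) :
    ∃ (L : (Fin (d + 1) → ℝ) → ℝ) (ε : ℝ), 0 < ε ∧ Per h L ∧
      ENNReal.ofReal V < ∫⁻ y in {y : Fin (d + 1) → ℝ | 0 ≤ y}, ENNReal.ofReal (L y) ∧
      ∀ y, 0 ≤ y → (0 < L y ∨ 0 < ∑ i ∈ Gd, max (R i - ∑ r, y r) 0) →
        y 0 < δ ∧ 0 < gp y ∧ L y + ∑ i ∈ Gd, max (R i - ∑ r, y r) 0 + ε ≤ ell y := by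
  have hne : Gd.Nonempty := Finset.card_pos.1 (hcard ▸ hD)
  obtain ⟨i₀, hi₀, hmax⟩ := Gd.exists_max_image R hne
  obtain ⟨η, hη⟩ : ∃ η, η = δg - R i₀ := ⟨_, rfl⟩
  have hη0 : 0 < η := by linarith [(hR i₀ hi₀).2]
  have hR' : ∀ i ∈ Gd, h ≤ R i ∧ R i + η ≤ δg := fun i hi =>
    ⟨(hR i hi).1, by linarith [hmax i hi]⟩
  have hhη : h + η ≤ δg := by linarith [(hR i₀ hi₀).1]
  have hm := wbase_meas hW
  have h1 := per_vol hW (fun i hi => hh.le.trans (hR i hi).1) hV hvol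
  have h2 : ∫⁻ y in WBase δ gp, ENNReal.ofReal (ell y - perG R Gd y) ≤
      liminf (fun t : ℝ => ∫⁻ y in WBase δ gp, ENNReal.ofReal (perL δ ell gp R Gd t y))
        atTop := by
    refine le_trans (le_of_eq ?_)
      (lintegral_liminf_le fun t => (perL_cont hW t).measurable.ennreal_ofReal)
    exact setLIntegral_congr_fun hm fun y hy => (perL_tendsto hy).liminf_eq.symm
  have h3 := eventually_lt_of_lt_liminf (h1.trans_le h2)
  have h4 : Tendsto (fun t : ℝ => t * η) atTop atTop := tendsto_id.atTop_mul_const hη0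
  obtain ⟨t, a1, a2, ht⟩ := (h3.and ((h4.eventually_gt_atTop (c + D * δg + 1)).and
    (eventually_gt_atTop 0))).exists
  have hsub : WBase δ gp ⊆ {y : Fin (d + 1) → ℝ | 0 ≤ y} := fun y hy r => (hy.1 r).le
  refine ⟨perL δ ell gp R Gd t, t⁻¹, inv_pos.2 ht, perL_per hW hD hcard ht hη0 hh hR' hhη a2,
    a1.trans_le (lintegral_mono_set hsub), fun y hy hpos => ?_⟩
  change y 0 < δ ∧ 0 < gp y ∧ perL δ ell gp R Gd t y + perG R Gd y + t⁻¹ ≤ ell y
  rcases lt_or_ge 0 (perL δ ell gp R Gd t y) with h0 | h0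
  · obtain ⟨b1, b2, b3, -⟩ := perL_pos ht h0
    exact ⟨b1, b2, by linarith⟩
  · have hg := hpos.resolve_left (not_lt.2 h0)
    obtain ⟨i, hi, hlt⟩ : ∃ i ∈ Gd, ∑ r, y r < R i := by
      by_contra hcon
      refine hg.ne' (Finset.sum_eq_zero fun i hi => max_eq_right ?_)
      exact sub_nonpos.2 (not_lt.1 fun hlt => hcon ⟨i, hi, hlt⟩)
    have b0 : ∑ r, y r + η ≤ δg := by linarith [(hR' i hi).2]
    have b1 := per_gap hW hD hcard hη0 (fun i hi => (hR' i hi).2) hy b0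
    have b2 := (hW.flat y hy (by linarith)).2
    have b3 := gper_zero_le_sum hy
    have hK0 : 0 ≤ c + D * δg := add_nonneg hW.c_nonneg (mul_nonneg D.cast_nonneg hW.pos.le)
    have b4 : t⁻¹ < η := by
      rw [inv_lt_iff_one_lt_mul₀' ht]
      linarith
    exact ⟨by linarith [hW.le], by linarith, by linarith⟩

end Vale.Agent.P209
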