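import Vale.Agent.P209.GFix
import Vale.Agent.P209.GChain
import Vale.Agent.P209.GPer

/-! The game packs the window. Plan: if `k ≤ D` ground all balls (`grounded`, stacked:
`c i = ∑ j < i, max (R j - ∑ y) 0`, `lc = 0`; on `∑ y < R i < δg` use `hW.flat`). Otherwise let
`Gd` be a set of `D` largest radii, `h` the largest remaining radius, enumerate the remaining
indices by `Fin K`, take `L, ε` from `exists_per` and fronts `a k` from `exists_fronts` with
`Λ₀ = h + μ h + 1`, `ν = ε / (K + 1)`, `μ = ν / (h + 1)`. Tilt: `b k y = a k y + μ ∑ y + k ν`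
(slope `μ`). The set of `chain` for `b k` lies in `{b k < x < b (k+1)}` (`lt_Psi_iff`;
`∑ Tm m y i ≤ ∑ y + ρ`) and in `{L > 0}` (else `a k y ≥ a 0 y ≥ a k i + Λ₀`). Put
`lc = b 0 - g`, `g = ∑ i ∈ Gd, max (R i - ∑ y) 0`, grounded balls stacked in `(lc, b 0)`;
`b K ≤ lc + g + L + ε ≤ lc + ell`. -/

open scoped ContDiff Topology
open Set MeasureTheory

namespace Vale.Agent.P209

theorem gm_top {k : ℕ} (R : Fin k → ℝ) (D : ℕ) (hD : D ≤ k) :
    ∃ Gd : Finset (Fin k), Gd.card = D ∧ ∀ i ∈ Gd, ∀ j, j ∉ Gd → R j ≤ R i := by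
  induction D with
  | zero => exact ⟨∅, rfl, fun i hi => absurd hi (Finset.notMem_empty i)⟩
  | succ D ih =>
    obtain ⟨Gd, h1, h2⟩ := ih (by omega)
    have hne : (Gdᶜ).Nonempty := by
      rw [← Finset.card_pos, Finset.card_compl, Fintype.card_fin]
      omega
    obtain ⟨i₀, hi₀, hm⟩ := Finset.exists_max_image Gdᶜ R hne
    have hi₀' : i₀ ∉ Gd := Finset.mem_compl.1 hi₀
    refine ⟨insert i₀ Gd, by rw [Finset.card_insert_of_notMem hi₀', h1], fun i hi j hj => ?_⟩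
    have hj' : j ∉ Gd := fun h => hj (Finset.mem_insert_of_mem h)
    rcases Finset.mem_insert.1 hi with rfl | hi
    · exact hm j (Finset.mem_compl.2 hj')
    · exact h2 i hi j hj'

theorem gm_enum {k : ℕ} (s : Finset (Fin k)) (R : Fin k → ℝ) :
    ∃ (K : ℕ) (ρ : ℕ → ℝ) (idx : Fin k → ℕ), (∀ j ∈ s, idx j < K ∧ ρ (idx j) = R j) ∧
      (∀ i ∈ s, ∀ j ∈ s, idx i = idx j → i = j) ∧ (∀ n < K, ∃ j ∈ s, ρ n = R j) ∧
      ∀ f : ℝ → ℝ, ∑ n ∈ Finset.range K, f (ρ n) = ∑ j ∈ s, f (R j) := by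
  let e := s.equivFin
  refine ⟨s.card, fun n => if hn : n < s.card then R (e.symm ⟨n, hn⟩) else 0,
    fun j => if hj : j ∈ s then (e ⟨j, hj⟩ : ℕ) else 0, fun j hj => ?_, fun i hi j hj hij => ?_,
    fun n hn => ⟨e.symm ⟨n, hn⟩, (e.symm ⟨n, hn⟩).2, by simp only [dif_pos hn]⟩, fun f => ?_⟩
  · simp only [dif_pos hj]
    refine ⟨(e ⟨j, hj⟩).2, ?_⟩
    rw [dif_pos (e ⟨j, hj⟩).2]
    simp
  · simp only [dif_pos hi, dif_pos hj] at hij
    exact congrArg Subtype.val (e.injective (Fin.ext hij))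
  · rw [Finset.sum_range, ← Finset.sum_coe_sort s, ← e.symm.sum_comp]
    refine Finset.sum_congr rfl fun n _ => ?_
    simp only [dif_pos n.2]

theorem gm_sum_Tm {d : ℕ} (m : Fin d) {y i : Fin d → ℝ} (hy : 0 ≤ y) (hi : 0 ≤ i) :
    ∑ r, Tm m y i r ≤ ∑ r, y r + ∑ r, i r := by
  rw [← Finset.sum_add_distrib]
  refine Finset.sum_le_sum fun r _ => ?_
  have h1 : 0 ≤ y r := hy r
  have h2 : 0 ≤ i r := hi r
  unfold Tm
  split_ifs <;> linarith

/-- grounded balls stacked on top of `lc`. -/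
theorem gm_stack {κ : Type} [Fintype κ] [DecidableEq κ] {k : ℕ} (R : Fin k → ℝ) (Gd : Finset (Fin k))
    {lc : (κ → ℝ) → ℝ} (hl : Continuous lc) :
    ∃ Ω : Fin k → Set (Option κ → ℝ), (∀ i, TEmb (spx (Option κ) (R i)) (Ω i)) ∧
      (∀ i ∈ Gd, ∀ j ∈ Gd, i ≠ j → Disjoint (Ω i) (Ω j)) ∧
      ∀ i ∈ Gd, ∀ z ∈ Ω i, (∀ r, 0 < bb z r) ∧ ∑ r, bb z r < R i ∧ lc (bb z) < z none ∧
        z none < lc (bb z) + ∑ j ∈ Gd, max (R j - ∑ r, bb z r) 0 := by
  let c : Fin k → (κ → ℝ) → ℝ := fun i y =>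
    lc y + ∑ j ∈ Gd.filter (· < i), max (R j - ∑ r, y r) 0
  have hc : ∀ i, Continuous (c i) := fun i => by
    refine hl.add (continuous_finsetSum _ fun j _ => ?_)
    fun_prop
  have key : ∀ i ∈ Gd, ∀ (t : Finset (Fin k)), insert i (Gd.filter (· < i)) ⊆ t → ∀ y : κ → ℝ,
      c i y + (R i - ∑ r, y r) ≤ lc y + ∑ j ∈ t, max (R j - ∑ r, y r) 0 := by
    intro i hi t ht y
    have h1 := Finset.sum_le_sum_of_subset_of_nonneg (f := fun j => max (R j - ∑ r, y r) 0) ht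
      fun j _ _ => le_max_right _ _
    rw [Finset.sum_insert (by simp)] at h1
    have h2 := le_max_left (R i - ∑ r, y r) 0
    simp only [c]
    linarith
  have dj : ∀ i ∈ Gd, ∀ j, i < j → ∀ y : κ → ℝ, c i y + (R i - ∑ r, y r) ≤ c j y := by
    intro i hi j hij y
    refine key i hi _ (fun l hl => ?_) y
    rcases Finset.mem_insert.1 hl with rfl | hl
    · exact Finset.mem_filter.2 ⟨hi, hij⟩
    · exact Finset.mem_filter.2 ⟨(Finset.mem_filter.1 hl).1, (Finset.mem_filter.1 hl).2.trans hij⟩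
  refine ⟨fun i => {z | (∀ r, 0 < bb z r) ∧ c i (bb z) < z none ∧
    z none < c i (bb z) + (R i - ∑ r, bb z r)}, fun i => grounded (hc i), fun i hi j hj hij => ?_,
    fun i hi z hz => ?_⟩
  · refine Set.disjoint_left.2 fun z h1 h2 => ?_
    rcases lt_or_gt_of_ne hij with h | h
    · have := dj i hi j h (bb z)
      linarith [h1.2.2, h2.2.1]
    · have := dj j hj i h (bb z)
      linarith [h1.2.1, h2.2.2]
  · obtain ⟨h1, h2, h3⟩ := hz
    have h4 := key i hi Gd (Finset.insert_subset hi (Finset.filter_subset _ _)) (bb z)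
    have h5 : 0 ≤ ∑ j ∈ Gd.filter (· < i), max (R j - ∑ r, bb z r) 0 :=
      Finset.sum_nonneg fun j _ => le_max_right _ _
    refine ⟨h1, by linarith, ?_, by linarith⟩
    simp only [c] at h2
    linarith

/-- the swept set of a tilted front. -/
theorem gm_tilt {d : ℕ} {a : (Fin (d + 1) → ℝ) → ℝ} (ha : Continuous a) {ρ μ ν t x : ℝ}
    (hρ : 0 ≤ ρ) (hμ : 0 ≤ μ) (hν : μ * ρ ≤ ν) {y i : Fin (d + 1) → ℝ} (hy : 0 ≤ y)
    (hi : i ∈ dl (d + 1) ρ) (h1 : x < a i + μ * ∑ r, i r + t + ρ - ∑ r, i r)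
    (h2 : ∀ m, x < a (Tm m y i) + μ * ∑ r, Tm m y i r + t) :
    x < Psi ρ a y + μ * ∑ r, y r + (t + ν) := by
  have h3 : μ * ∑ r, i r ≤ μ * ρ := mul_le_mul_of_nonneg_left hi.2 hμ
  have h4 : 0 ≤ μ * ∑ r, y r := mul_nonneg hμ (Finset.sum_nonneg fun r _ => hy r)
  have h5 : x - μ * ∑ r, y r - (t + ν) < Psi ρ a y := by
    refine (lt_Psi_iff ha hρ y _).2 (Or.inr ⟨i, hi, by linarith, fun m => ?_⟩)
    have h6 := mul_le_mul_of_nonneg_left (gm_sum_Tm m hy hi.1) hμ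
    have h7 := h2 m
    rw [mul_add] at h6
    linarith
  linarith

theorem game {d : ℕ} {δ δg c : ℝ} {D : ℕ} {ell gp : (Fin (d + 1) → ℝ) → ℝ}
    (hW : WinFn δ δg c D ell gp) (hD : 0 < D) {k : ℕ} (R : Fin k → ℝ)
    (hR : ∀ i, 0 < R i ∧ R i < δg)
    (hvol : ENNReal.ofReal (∑ i, R i ^ (d + 2) / (d + 2).factorial) <
      volume {z : Option (Fin (d + 1)) → ℝ | bb z ∈ WBase δ gp ∧ 0 < z none ∧
        z none < ell (bb z)}) :
    ∃ (lc : (Fin (d + 1) → ℝ) → ℝ) (Ω : Fin k → Set (Option (Fin (d + 1)) → ℝ)),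
      Continuous lc ∧ (∀ i, TEmb (spx (Option (Fin (d + 1))) (R i)) (Ω i)) ∧
      (∀ i j, i ≠ j → Disjoint (Ω i) (Ω j)) ∧
      ∀ i, Ω i ⊆ {z | bb z ∈ WBase δ gp ∧ lc (bb z) < z none ∧
        z none < lc (bb z) + ell (bb z)} := by
  classical
  by_cases hk : k ≤ D
  · obtain ⟨Ω, h1, h2, h3⟩ := gm_stack (κ := Fin (d + 1)) R Finset.univ
      (lc := fun _ => 0) continuous_const
    refine ⟨fun _ => 0, Ω, continuous_const, h1,
      fun i j hij => h2 i (Finset.mem_univ _) j (Finset.mem_univ _) hij, fun i z hz => ?_⟩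
    obtain ⟨e1, e2, e3, e4⟩ := h3 i (Finset.mem_univ _) z hz
    have e5 : ∑ r, bb z r < δg := e2.trans (hR i).2
    obtain ⟨e6, e7⟩ := hW.flat (bb z) (fun r => (e1 r).le) e5.le
    have e8 : bb z 0 ≤ ∑ r, bb z r :=
      Finset.single_le_sum (f := bb z) (fun r _ => (e1 r).le) (Finset.mem_univ 0)
    have e9 : ∑ j : Fin k, max (R j - ∑ r, bb z r) 0 ≤ k * (δg - ∑ r, bb z r) := by
      have := Finset.sum_le_card_nsmul Finset.univ (fun j : Fin k => max (R j - ∑ r, bb z r) 0)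
        (δg - ∑ r, bb z r) fun j _ => max_le (by linarith [(hR j).2]) (by linarith)
      simpa using this
    have e10 : (k : ℝ) * (δg - ∑ r, bb z r) ≤ D * (δg - ∑ r, bb z r) :=
      mul_le_mul_of_nonneg_right (by exact_mod_cast hk) (by linarith)
    refine ⟨⟨e1, by linarith [hW.le], by linarith⟩, e3, ?_⟩
    linarith [hW.c_nonneg]
  obtain ⟨Gd, hcard, htop⟩ := gm_top R D (by omega)
  have hne : (Gdᶜ).Nonempty := by
    rw [← Finset.card_pos, Finset.card_compl, Fintype.card_fin]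
    omega
  obtain ⟨j₀, hj₀, hm⟩ := Finset.exists_max_image Gdᶜ R hne
  obtain ⟨h, hh⟩ : ∃ h, h = R j₀ := ⟨_, rfl⟩
  rw [← hh] at hm
  have hh0 : 0 < h := hh ▸ (hR j₀).1
  obtain ⟨K, ρ, idx, hi1, hi2, hi3, hi4⟩ := gm_enum Gdᶜ R
  obtain ⟨L, ε, hε, hL, hLV, hLe⟩ := exists_per hW hD R Gd hcard hh0
    (fun i hi => ⟨hh ▸ htop i hi j₀ (Finset.mem_compl.1 hj₀), (hR i).2⟩)
    (V := ∑ j ∈ Gdᶜ, R j ^ (d + 2) / (d + 2).factorial)
    (Finset.sum_nonneg fun j _ => by have := (hR j).1; positivity)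
    (by rw [Finset.sum_compl_add_sum]; exact hvol)
  obtain ⟨ν, hν⟩ : ∃ ν : ℝ, ν = ε / (K + 1) := ⟨_, rfl⟩
  obtain ⟨μ, hμ⟩ : ∃ μ : ℝ, μ = ν / (h + 1) := ⟨_, rfl⟩
  have hν0 : 0 < ν := by rw [hν]; positivity
  have hμ0 : 0 < μ := by rw [hμ]; positivity
  have hνK : (K : ℝ) * ν ≤ ε := by
    have : ν * (K + 1) = ε := by rw [hν]; field_simp
    linarith
  have hμh : μ * h ≤ ν := by
    have : μ * (h + 1) = ν := by rw [hμ]; field_simp
    linarith
  have hρ : ∀ n < K, 0 ≤ ρ n ∧ ρ n ≤ h := by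
    intro n hn
    obtain ⟨j, hj, e⟩ := hi3 n hn
    rw [e]
    exact ⟨(hR j).1.le, hm j hj⟩
  obtain ⟨a, ha1, ha2, ha3, ha4⟩ := exists_fronts hh0 hL K ρ hρ
    (by rw [hi4 fun t => t ^ (d + 2) / (d + 2).factorial]; exact hLV) (h + μ * h + 1)
  have hmono : ∀ y n n', n ≤ n' → n' ≤ K → a n y ≤ a n' y := by
    intro y n n' hn
    induction n', hn using Nat.le_induction with
    | base => exact fun _ => le_rfl
    | succ n' hn ih =>
      intro hK
      rw [ha2 n' (by omega)]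
      exact (ih (by omega)).trans (le_Psi _ _ _)
  let b : ℕ → (Fin (d + 1) → ℝ) → ℝ := fun n y => a n y + μ * ∑ r, y r + n * ν
  have hb : ∀ n y, b n y = a n y + μ * ∑ r, y r + n * ν := fun _ _ => rfl
  have hbc : ∀ n ≤ K, Continuous (b n) := fun n hn => by
    have := (ha1 n hn).cont
    simp only [b]
    fun_prop
  have hbm : ∀ y n n', n ≤ n' → n' ≤ K → b n y ≤ b n' y := by
    intro y n n' hn hK
    have e1 := hmono y n n' hn hK
    have e2 : (n : ℝ) * ν ≤ n' * ν := mul_le_mul_of_nonneg_right (by exact_mod_cast hn) hν0.le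
    rw [hb, hb]
    linarith
  let lc : (Fin (d + 1) → ℝ) → ℝ := fun y => b 0 y - ∑ i ∈ Gd, max (R i - ∑ r, y r) 0
  have hlc : ∀ y, lc y = b 0 y - ∑ i ∈ Gd, max (R i - ∑ r, y r) 0 := fun _ => rfl
  have hlcc : Continuous lc := by
    refine (hbc 0 (Nat.zero_le _)).sub (continuous_finsetSum _ fun j _ => ?_)
    fun_prop
  obtain ⟨Ω, h1, h2, h3⟩ := gm_stack (κ := Fin (d + 1)) R Gd hlcc
  let Θ : Fin k → Set (Option (Fin (d + 1)) → ℝ) := fun j =>
    {z | (∀ r, 0 < bb z r) ∧ b (idx j) (bb z) < z none ∧ ∃ i ∈ dl (d + 1) (R j),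
      z none < b (idx j) i + R j - ∑ r, i r ∧ ∀ m, z none < b (idx j) (Tm m (bb z) i)}
  have hΘ : ∀ j, j ∉ Gd → TEmb (spx (Option (Fin (d + 1))) (R j)) (Θ j) := by
    intro j hj
    have hn := (hi1 j (Finset.mem_compl.2 hj)).1
    refine chain hμ0 (hbc _ hn.le) fun y y' hy hyy => ?_
    have := (ha1 _ hn.le).mono y y' hy hyy
    rw [hb, hb, Finset.sum_sub_distrib]
    linarith
  have hΘ' : ∀ j, j ∉ Gd → ∀ z ∈ Θ j, (∀ r, 0 < bb z r) ∧ b (idx j) (bb z) < z none ∧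
      z none < b (idx j + 1) (bb z) ∧ 0 < L (bb z) := by
    intro j hj z hz
    obtain ⟨hn, hρj⟩ := hi1 j (Finset.mem_compl.2 hj)
    obtain ⟨e1, e2, i, hi, e3, e4⟩ := hz
    have hy : 0 ≤ bb z := fun r => (e1 r).le
    have hjh : R j ≤ h := hm j (Finset.mem_compl.2 hj)
    have e5 : μ * R j ≤ μ * h := mul_le_mul_of_nonneg_left hjh hμ0.le
    refine ⟨e1, e2, ?_, ?_⟩
    · have e6 := gm_tilt (ha1 _ hn.le).cont (hR j).1.le hμ0.le (e5.trans hμh) hy hi e3 e4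
      rw [hb, ha2 _ hn, hρj]
      push_cast
      linarith
    · refine lt_of_le_of_ne (hL.nonneg _) fun e => ?_
      have e6 := ha4 (bb z) hy e.symm _ hn.le i ⟨hi.1, hi.2.trans hjh⟩
      have e7 := hmono (bb z) 0 _ (Nat.zero_le _) hn.le
      have e8 : 0 ≤ μ * ∑ r, bb z r := mul_nonneg hμ0.le (Finset.sum_nonneg fun r _ => hy r)
      have e9 : μ * ∑ r, i r ≤ μ * R j := mul_le_mul_of_nonneg_left hi.2 hμ0.le
      have e10 : 0 ≤ ∑ r, i r := Finset.sum_nonneg fun r _ => hi.1 r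
      rw [hb] at e2 e3
      linarith
  have hmix : ∀ i ∈ Gd, ∀ j, j ∉ Gd → Disjoint (Ω i) (Θ j) := by
    intro i hi j hj
    refine Set.disjoint_left.2 fun z z1 z2 => ?_
    have e1 := (h3 i hi z z1).2.2.2
    have e2 := (hΘ' j hj z z2).2.1
    have e3 := hbm (bb z) 0 _ (Nat.zero_le _) (hi1 j (Finset.mem_compl.2 hj)).1.le
    rw [hlc] at e1
    linarith
  have hcc : ∀ i, i ∉ Gd → ∀ j, j ∉ Gd → idx i < idx j → Disjoint (Θ i) (Θ j) := by
    intro i hi j hj hij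
    refine Set.disjoint_left.2 fun z z1 z2 => ?_
    have e1 := (hΘ' i hi z z1).2.2.1
    have e2 := (hΘ' j hj z z2).2.1
    have e3 := hbm (bb z) (idx i + 1) _ hij (hi1 j (Finset.mem_compl.2 hj)).1.le
    linarith
  refine ⟨lc, fun i => if i ∈ Gd then Ω i else Θ i, hlcc, fun i => ?_, fun i j hij => ?_,
    fun i z hz => ?_⟩
  · by_cases hi : i ∈ Gd
    · simp only [if_pos hi]
      exact h1 i
    · simp only [if_neg hi]
      exact hΘ i hi
  · by_cases hi : i ∈ Gd <;> by_cases hj : j ∈ Gd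
    · simp only [if_pos hi, if_pos hj]
      exact h2 i hi j hj hij
    · simp only [if_pos hi, if_neg hj]
      exact hmix i hi j hj
    · simp only [if_neg hi, if_pos hj]
      exact (hmix j hj i hi).symm
    · simp only [if_neg hi, if_neg hj]
      have hne' : idx i ≠ idx j := fun e =>
        hij (hi2 i (Finset.mem_compl.2 hi) j (Finset.mem_compl.2 hj) e)
      rcases lt_or_gt_of_ne hne' with e | e
      · exact hcc i hi j hj e
      · exact (hcc j hj i hi e).symm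
  · by_cases hi : i ∈ Gd
    · simp only [if_pos hi] at hz
      obtain ⟨e1, e2, e3, e4⟩ := h3 i hi z hz
      have e5 : 0 < ∑ j ∈ Gd, max (R j - ∑ r, bb z r) 0 :=
        Finset.sum_pos' (fun j _ => le_max_right _ _) ⟨i, hi, lt_max_of_lt_left (by linarith)⟩
      obtain ⟨e6, e7, e8⟩ := hLe (bb z) (fun r => (e1 r).le) (Or.inr e5)
      exact ⟨⟨e1, e6, e7⟩, e3, by linarith [hL.nonneg (bb z)]⟩
    · simp only [if_neg hi] at hz
      obtain ⟨e1, e2, e3, e4⟩ := hΘ' i hi z hz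
      have hn := (hi1 i (Finset.mem_compl.2 hi)).1
      have hy : 0 ≤ bb z := fun r => (e1 r).le
      obtain ⟨e6, e7, e8⟩ := hLe (bb z) hy (Or.inl e4)
      have e5 : 0 ≤ ∑ j ∈ Gd, max (R j - ∑ r, bb z r) 0 :=
        Finset.sum_nonneg fun j _ => le_max_right _ _
      have e9 := hbm (bb z) 0 _ (Nat.zero_le _) hn.le
      have e10 := hbm (bb z) (idx i + 1) K hn le_rfl
      have e11 := ha3 (bb z) hy
      have e12 := hb K (bb z)
      have e13 := hb 0 (bb z)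
      refine ⟨⟨e1, e6, e7⟩, ?_, ?_⟩
      · rw [hlc]
        linarith
      · rw [hlc]
        push_cast at e13
        linarith

end Vale.Agent.P209
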