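import Vale.Agent.P209.TBasic

/-! The length function is admissible. Plan: for `t ≥ 0` put `x k = exc k + extd t k` and
`Dk = x k - psum t (k+1) + δ`; `D0 = 0`, `D(k+1) = Dk + (2^k/(2^k-1)) (x k)₊`, so `Dk ≥ 0` is
monotone in the partial sums, vanishes if the partial sums up to `k` are `≤ δ`, and `Dk > 0`
forces `psum t k > δ`. Write `λ = 2 ^ m`, `s' = ∑ t`, `s = ∑ y`, `xx = s' - δ + D`.
Regime `xx ≤ 0` (then `D = 0`): `η₀ = (1 - 2δ)₊ / (2λ+1)`,
`ell = G s := 4λ - 8λ s - (1-δ-s)₊ - (s-δ)₊ - (s-δ-(λ-1)η₀)₊`, `gp = (1 - η₀)/2 - s`.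
Regime `xx > 0`, `hh ≥ 0` (then `m > 0` if `y 0 ≤ δ`, and `δ ≤ 1/2`): `kk = 0`,
`hh = 1 - 2s' - (s' - δ + D)/(λ-1)`, `u = s - s'`,
`ell = (4λ-1) hh - 8λ u - (u - (λ-1) hh/(2λ+1))₊`, `gp = λ hh/(2λ+1) - u`; both are antitone in
each of `s', D, s` and at `s' = δ, D = 0` they equal the first formulas. -/

open scoped ContDiff Topology
open Set MeasureTheory

namespace Vale.Agent.P209

section aux

variable {m : ℕ}

/-- accumulated excess -/
noncomputable def tEll_D (δ : ℝ) (t : Fin (m + 1) → ℝ) (k : ℕ) : ℝ := exc δ t k - psum t k + δ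

theorem tEll_D_zero (δ : ℝ) (t : Fin (m + 1) → ℝ) : tEll_D δ t 0 = 0 := by
  rw [tEll_D, psum_zero, exc]
  ring

theorem tEll_D_succ (δ : ℝ) (t : Fin (m + 1) → ℝ) (k : ℕ) : tEll_D δ t (k + 1) =
    tEll_D δ t k + max (tEll_D δ t k + psum t (k + 1) - δ) 0 * (2 ^ k / (2 ^ k - 1)) := by
  have e : tEll_D δ t k + psum t (k + 1) - δ = exc δ t k + extd t k := by
    rw [tEll_D, psum_succ]
    ring
  rw [e, tEll_D, tEll_D, psum_succ, exc]
  ring

theorem tEll_c (k : ℕ) : (0 : ℝ) ≤ 2 ^ k / (2 ^ k - 1) :=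
  div_nonneg (by positivity) (sub_nonneg.2 (one_le_pow₀ one_le_two))

theorem tEll_D_nonneg (δ : ℝ) (t : Fin (m + 1) → ℝ) (k : ℕ) : 0 ≤ tEll_D δ t k := by
  induction k with
  | zero => exact (tEll_D_zero δ t).ge
  | succ k ih =>
    rw [tEll_D_succ]
    exact add_nonneg ih (mul_nonneg (le_max_right _ _) (tEll_c k))

theorem tEll_step {t : Fin (m + 1) → ℝ} (ht : 0 ≤ t) (k : ℕ) : psum t k ≤ psum t (k + 1) := by
  rw [psum_succ, extd]
  split_ifs
  · exact le_add_of_nonneg_right (ht _)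
  · exact (add_zero _).ge

theorem tEll_D_eq_zero {δ : ℝ} {t : Fin (m + 1) → ℝ} (ht : 0 ≤ t) (k : ℕ)
    (h : psum t (k + 1) ≤ δ) : tEll_D δ t k = 0 := by
  induction k with
  | zero => exact tEll_D_zero δ t
  | succ k ih =>
    have h1 := (tEll_step ht (k + 1)).trans h
    rw [tEll_D_succ, ih h1, max_eq_right (by linarith), zero_mul, add_zero]

theorem tEll_D_mono (δ : ℝ) {t t' : Fin (m + 1) → ℝ} (k : ℕ)
    (h : ∀ l ≤ k, psum t l ≤ psum t' l) : tEll_D δ t k ≤ tEll_D δ t' k := by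
  induction k with
  | zero => rw [tEll_D_zero, tEll_D_zero]
  | succ k ih =>
    have h1 := ih fun l hl => h l (hl.trans k.le_succ)
    have h2 := h (k + 1) le_rfl
    rw [tEll_D_succ, tEll_D_succ]
    exact add_le_add h1 (mul_le_mul_of_nonneg_right (max_le_max (by linarith) le_rfl) (tEll_c k))

theorem tEll_D_inv {δ : ℝ} {t t' : Fin (m + 1) → ℝ} (ht : 0 ≤ t) (ht' : 0 ≤ t') (k : ℕ)
    (h : ∀ l ≤ k, psum t l = psum t' l ∨ (psum t l ≤ δ ∧ psum t' l ≤ δ)) :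
    tEll_D δ t k = tEll_D δ t' k := by
  induction k with
  | zero => rw [tEll_D_zero, tEll_D_zero]
  | succ k ih =>
    rw [tEll_D_succ, tEll_D_succ]
    rcases h (k + 1) le_rfl with h2 | ⟨h2, h3⟩
    · rw [ih fun l hl => h l (hl.trans k.le_succ), h2]
    · rw [tEll_D_eq_zero ht k h2, tEll_D_eq_zero ht' k h3, max_eq_right (by linarith),
        max_eq_right (by linarith)]

theorem tEll_xx (δ : ℝ) (t : Fin (m + 1) → ℝ) : xx δ t = tEll_D δ t m + ∑ r, t r - δ := by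
  have e : extd t m = t (Fin.last m) := dif_pos m.lt_succ_self
  rw [xx, tEll_D, ← psum_of_le t le_rfl, psum_succ, e]
  ring

theorem tEll_init (y : Fin (m + 2) → ℝ) {l : ℕ} (hl : l ≤ m + 1) :
    psum (Fin.init y) l = psum y l := by
  unfold psum
  rw [Fin.sum_univ_castSucc (n := m + 1), if_neg (by simpa using hl), add_zero]
  rfl

theorem tEll_sum (y : Fin (m + 2) → ℝ) :
    ∑ r, y r = ∑ r, Fin.init y r + y (Fin.last (m + 1)) := Fin.sum_univ_castSucc y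

/-- the height as a function of real parameters -/
noncomputable def tEll_h (L a x : ℝ) : ℝ := 1 - 2 * a - max x 0 / (L - 1)

/-- the overlap as a function of real parameters -/
noncomputable def tEll_e (L a x : ℝ) : ℝ := max (tEll_h L a x - 2 * max (-x) 0) 0 / (2 * L + 1)

/-- the gap as a function of real parameters -/
noncomputable def tEll_g (L a x u : ℝ) : ℝ := (tEll_h L a x - tEll_e L a x) / 2 - u

/-- the length as a function of real parameters -/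
noncomputable def tEll_E (L a x u : ℝ) : ℝ :=
  (L - 1) * (2 * tEll_h L a x + 4 * ((tEll_h L a x - tEll_e L a x) / 2) - 8 * u) +
    min (tEll_h L a x - u) (tEll_h L a x + (L - 1) * tEll_e L a x + max (-x) 0 - 2 * u) +
    min (tEll_h L a x + (L - 1) * tEll_e L a x - u)
      (tEll_h L a x + (L - 1) * tEll_e L a x + max (-x) 0 - 2 * u) +
    min (tEll_h L a x + (L - 1) * tEll_e L a x + max (-x) 0 - u)
      (tEll_h L a x + (tEll_h L a x + (L - 1) * tEll_e L a x) - 2 * u) - 4 * u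

theorem tEll_ell (δ : ℝ) (y : Fin (m + 2) → ℝ) : ellT δ y =
    tEll_E (2 ^ m) (∑ r, Fin.init y r) (xx δ (Fin.init y)) (y (Fin.last (m + 1))) := by
  unfold ellT ellW
  rw [Nat.cast_pow, Nat.cast_ofNat]
  rfl

theorem tEll_gp (δ : ℝ) (y : Fin (m + 2) → ℝ) : gpT δ y =
    tEll_g (2 ^ m) (∑ r, Fin.init y r) (xx δ (Fin.init y)) (y (Fin.last (m + 1))) := rfl

/-- the length in the first regime -/
noncomputable def tEll_G (L δ s : ℝ) : ℝ := 4 * L - 8 * L * s - max (1 - δ - s) 0 - max (s - δ) 0 -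
  max (s - δ - (L - 1) * (max (1 - 2 * δ) 0 / (2 * L + 1))) 0

theorem tEll_min (p q : ℝ) : min p q = p - max (p - q) 0 := by
  rcases le_total p q with h | h
  · rw [min_eq_left h, max_eq_right (sub_nonpos.2 h), sub_zero]
  · rw [min_eq_right h, max_eq_left (sub_nonneg.2 h), sub_sub_cancel]

theorem tEll_A (L : ℝ) {δ a : ℝ} (h : a ≤ δ) (u : ℝ) :
    tEll_E L a (a - δ) u = tEll_G L δ (a + u) ∧
      tEll_g L a (a - δ) u = (1 - max (1 - 2 * δ) 0 / (2 * L + 1)) / 2 - (a + u) := by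
  have e1 : tEll_h L a (a - δ) = 1 - 2 * a := by
    rw [tEll_h, max_eq_right (sub_nonpos.2 h), zero_div, sub_zero]
  have e2 : max (-(a - δ)) 0 = δ - a := by rw [neg_sub, max_eq_left (sub_nonneg.2 h)]
  have e3 : tEll_e L a (a - δ) = max (1 - 2 * δ) 0 / (2 * L + 1) := by
    rw [tEll_e, e1, e2, show 1 - 2 * a - 2 * (δ - a) = 1 - 2 * δ by ring]
  rw [tEll_E, tEll_g, tEll_G, e1, e2, e3]
  generalize max (1 - 2 * δ) 0 / (2 * L + 1) = η
  refine ⟨?_, by ring⟩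
  rw [min_comm (1 - 2 * a + (L - 1) * η + (δ - a) - u), tEll_min, tEll_min, tEll_min,
    show 1 - 2 * a - u - (1 - 2 * a + (L - 1) * η + (δ - a) - 2 * u) = a + u - δ - (L - 1) * η by
      ring,
    show 1 - 2 * a + (L - 1) * η - u - (1 - 2 * a + (L - 1) * η + (δ - a) - 2 * u) = a + u - δ by
      ring,
    show 1 - 2 * a + (1 - 2 * a + (L - 1) * η) - 2 * u - (1 - 2 * a + (L - 1) * η + (δ - a) - u) =
      1 - δ - (a + u) by ring]
  ring

theorem tEll_G_anti {L : ℝ} (hL : 1 ≤ L) (δ : ℝ) {s s' : ℝ} (h : s ≤ s') :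
    tEll_G L δ s' ≤ tEll_G L δ s := by
  unfold tEll_G
  generalize (L - 1) * (max (1 - 2 * δ) 0 / (2 * L + 1)) = c
  have h1 : max (s - δ) 0 ≤ max (s' - δ) 0 := max_le_max (by linarith) le_rfl
  have h2 : max (s - δ - c) 0 ≤ max (s' - δ - c) 0 := max_le_max (by linarith) le_rfl
  have h3 : max (1 - δ - s) 0 ≤ max (1 - δ - s') 0 + (s' - s) :=
    max_le (by linarith [le_max_left (1 - δ - s') 0]) (by linarith [le_max_right (1 - δ - s') 0])
  have h4 := mul_nonneg (sub_nonneg.2 hL) (sub_nonneg.2 h)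
  linarith

theorem tEll_Bg {L a x : ℝ} (hL : 1 < L) (hx : 0 ≤ x) (hh : 0 ≤ tEll_h L a x) :
    tEll_h L a x = (2 * L + 1) * tEll_e L a x := by
  rw [tEll_e, max_eq_right (neg_nonpos.2 hx), mul_zero, sub_zero, max_eq_left hh,
    mul_div_cancel₀ _ (by linarith)]

theorem tEll_BE {L a x u : ℝ} (hx : 0 ≤ x) (hu : 0 ≤ u) (hh : u ≤ tEll_h L a x) :
    tEll_E L a x u = (4 * L - 1) * tEll_h L a x - 8 * L * u -
      max (u - (L - 1) * tEll_e L a x) 0 := by
  rw [tEll_E, max_eq_right (neg_nonpos.2 hx)]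
  generalize tEll_h L a x = h at hh
  generalize tEll_e L a x = η
  rw [tEll_min (h - u), min_eq_right (by linarith), min_eq_left (by linarith),
    show h - u - (h + (L - 1) * η + 0 - 2 * u) = u - (L - 1) * η by ring]
  ring

theorem tEll_e_nonneg {L : ℝ} (hL : 1 ≤ L) (a x : ℝ) : 0 ≤ tEll_e L a x :=
  div_nonneg (le_max_right _ _) (by linarith)

theorem tEll_B {L a a' x x' u u' : ℝ} (hL : 1 < L) (hx : 0 ≤ x) (ha : a ≤ a')
    (hax : a' - a ≤ x' - x) (huu : u - u' ≤ a' - a) (hu : 0 ≤ u) (hu' : 0 ≤ u')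
    (hg : 0 ≤ tEll_g L a' x' u') :
    tEll_E L a' x' u' ≤ tEll_E L a x u ∧ tEll_g L a' x' u' ≤ tEll_g L a x u := by
  have hx' : 0 ≤ x' := by linarith
  have hL1 : 0 < L - 1 := sub_pos.2 hL
  have e0 := tEll_e_nonneg hL.le a x
  have e0' := tEll_e_nonneg hL.le a' x'
  obtain ⟨Z, hZ, hZ0, hZ1⟩ : ∃ Z, tEll_h L a x = tEll_h L a' x' + 2 * (a' - a) + Z ∧ 0 ≤ Z ∧
      a' - a ≤ (L - 1) * Z := by
    refine ⟨(x' - x) / (L - 1), ?_, div_nonneg (by linarith) hL1.le, ?_⟩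
    · rw [tEll_h, tEll_h, max_eq_left hx, max_eq_left hx']
      ring
    · rwa [mul_div_cancel₀ _ hL1.ne']
  have h0' : 0 ≤ tEll_h L a' x' := by
    unfold tEll_g at hg
    linarith
  have b' := tEll_Bg hL hx' h0'
  have b := tEll_Bg (a := a) hL hx (by linarith)
  have h1 : a' - a ≤ L * (tEll_e L a x - tEll_e L a' x') := by
    refine le_of_mul_le_mul_left (a := 2 * L + 1) ?_ (by linarith)
    have : (2 * L + 1) * (L * (tEll_e L a x - tEll_e L a' x')) = L * (2 * (a' - a) + Z) := by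
      rw [show 2 * (a' - a) + Z = tEll_h L a x - tEll_h L a' x' by linarith, b, b', ← b, ← b']
      linear_combination (-L) * b + L * b'
    rw [this]
    linarith
  have h2 : 0 ≤ tEll_e L a x - tEll_e L a' x' :=
    nonneg_of_mul_nonneg_right (a := L) (by linarith) (by linarith)
  have hg2 : tEll_g L a' x' u' ≤ tEll_g L a x u := by
    unfold tEll_g
    linarith
  refine ⟨?_, hg2⟩
  have hg3 := hg.trans hg2
  unfold tEll_g at hg hg3
  rw [tEll_BE hx hu (by linarith), tEll_BE hx' hu' (by linarith), hZ]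
  have h3 := mul_nonneg hL1.le h2
  have h4 : max (u - (L - 1) * tEll_e L a x) 0 ≤
      max (u' - (L - 1) * tEll_e L a' x') 0 + (a' - a) :=
    max_le (by linarith [le_max_left (u' - (L - 1) * tEll_e L a' x') 0])
      (by linarith [le_max_right (u' - (L - 1) * tEll_e L a' x') 0])
  have h5 := mul_nonneg (zero_le_one.trans hL.le) (sub_nonneg.2 huu)
  have h6 := mul_nonneg (zero_le_one.trans hL.le) hZ0
  linarith

theorem tEll_init_nonneg {y : Fin (m + 2) → ℝ} (hy : 0 ≤ y) : 0 ≤ Fin.init y := fun _ => hy _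

theorem tEll_regA {δ : ℝ} {y : Fin (m + 2) → ℝ} (hy : 0 ≤ y) (h : ∑ r, Fin.init y r ≤ δ) :
    ellT δ y = tEll_G (2 ^ m) δ (∑ r, y r) ∧
      gpT δ y = (1 - max (1 - 2 * δ) 0 / (2 * 2 ^ m + 1)) / 2 - ∑ r, y r := by
  rw [tEll_ell, tEll_gp, tEll_xx, tEll_D_eq_zero (tEll_init_nonneg hy) m
    ((psum_of_le _ le_rfl).trans_le h), zero_add, tEll_sum]
  exact tEll_A _ h _

theorem tEll_mono (δ : ℝ) (y y' : Fin (m + 2) → ℝ) (hy : 0 ≤ y) (hy' : 0 ≤ y')
    (h : ∀ l, psum y l ≤ psum y' l) (h0 : y' 0 ≤ δ) (hg : 0 ≤ gpT δ y') :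
    ellT δ y' ≤ ellT δ y ∧ gpT δ y' ≤ gpT δ y := by
  have hi : ∀ l ≤ m + 1, psum (Fin.init y) l ≤ psum (Fin.init y') l := fun l hl => by
    rw [tEll_init y hl, tEll_init y' hl]
    exact h l
  have ha := hi (m + 1) le_rfl
  have hs := h (m + 2)
  rw [psum_of_le _ le_rfl, psum_of_le _ le_rfl] at ha hs
  have hL : (1 : ℝ) ≤ 2 ^ m := one_le_pow₀ one_le_two
  rcases le_or_gt (∑ r, Fin.init y' r) δ with h1 | h1
  · obtain ⟨a1, a2⟩ := tEll_regA hy (ha.trans h1)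
    obtain ⟨b1, b2⟩ := tEll_regA hy' h1
    rw [a1, a2, b1, b2]
    exact ⟨tEll_G_anti hL δ hs, by linarith⟩
  have hm : m ≠ 0 := by
    rintro rfl
    rw [Fin.sum_univ_one] at h1
    exact not_lt.2 h0 h1
  have hL' : (1 : ℝ) < 2 ^ m := one_lt_pow₀ one_lt_two hm
  have hD := tEll_D_mono δ m fun l hl => hi l (hl.trans m.le_succ)
  have hD0 := tEll_D_nonneg δ (Fin.init y) m
  have hu : 0 ≤ y (Fin.last (m + 1)) := hy _
  have hu' : 0 ≤ y' (Fin.last (m + 1)) := hy' _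
  rcases le_or_gt (∑ r, Fin.init y r) δ with h2 | h2
  · obtain ⟨a1, a2⟩ := tEll_regA hy h2
    obtain ⟨c1, c2⟩ := tEll_A (2 ^ m) (le_refl δ) (∑ r, y' r - δ)
    rw [add_sub_cancel] at c1 c2
    rw [tEll_gp, tEll_xx] at hg
    have s2 := tEll_sum y'
    obtain ⟨d1, d2⟩ := tEll_B (a := δ) (x := δ - δ) (u := ∑ r, y' r - δ) hL' (sub_self δ).ge h1.le
      (by linarith) (by linarith) (by linarith) hu' hg
    rw [a1, a2, tEll_ell, tEll_gp, tEll_xx]
    exact ⟨(d1.trans_eq c1).trans (tEll_G_anti hL δ hs), (d2.trans_eq c2).trans (by linarith)⟩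
  · rw [tEll_gp, tEll_xx] at hg
    rw [tEll_sum, tEll_sum] at hs
    rw [tEll_ell, tEll_ell, tEll_gp, tEll_gp, tEll_xx, tEll_xx]
    exact tEll_B hL' (by linarith) ha (by linarith) (by linarith) hu hu' hg

theorem tEll_inv {δ δg : ℝ} (hδ : δg ≤ δ) (y y' : Fin (m + 2) → ℝ) (hy : 0 ≤ y) (hy' : 0 ≤ y')
    (hs : ∑ r, y r = ∑ r, y' r)
    (h : ∀ l, psum y l = psum y' l ∨ (psum y l ≤ δg ∧ psum y' l ≤ δg)) :
    ellT δ y = ellT δ y' ∧ gpT δ y = gpT δ y' := by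
  have hi : ∀ l ≤ m + 1, psum (Fin.init y) l = psum (Fin.init y') l ∨
      (psum (Fin.init y) l ≤ δ ∧ psum (Fin.init y') l ≤ δ) := fun l hl => by
    rw [tEll_init y hl, tEll_init y' hl]
    exact (h l).imp id fun e => ⟨e.1.trans hδ, e.2.trans hδ⟩
  have ha := hi (m + 1) le_rfl
  rw [psum_of_le _ le_rfl, psum_of_le _ le_rfl] at ha
  rcases ha with ha | ⟨h1, h2⟩
  · have hu : y (Fin.last (m + 1)) = y' (Fin.last (m + 1)) := by
      rw [tEll_sum, tEll_sum] at hs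
      linarith
    rw [tEll_ell, tEll_ell, tEll_gp, tEll_gp, tEll_xx, tEll_xx, ha, hu,
      tEll_D_inv (tEll_init_nonneg hy) (tEll_init_nonneg hy') m
        fun l hl => hi l (hl.trans m.le_succ)]
    exact ⟨rfl, rfl⟩
  · obtain ⟨a1, a2⟩ := tEll_regA hy h1
    obtain ⟨b1, b2⟩ := tEll_regA hy' h2
    rw [a1, a2, b1, b2, hs]
    exact ⟨rfl, rfl⟩

theorem tEll_bdd (δ : ℝ) (y : Fin (m + 2) → ℝ) (hg : 0 ≤ gpT δ y) : ∑ r, y r ≤ 1 := by
  have hL : (1 : ℝ) ≤ 2 ^ m := one_le_pow₀ one_le_two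
  rw [tEll_gp, tEll_g] at hg
  have h1 := tEll_e_nonneg hL (∑ r, Fin.init y r) (xx δ (Fin.init y))
  have h2 := div_nonneg (le_max_right (xx δ (Fin.init y)) 0) (sub_nonneg.2 hL)
  rw [tEll_h] at hg
  rw [tEll_sum]
  linarith

theorem tEll_le_sum {y : Fin (m + 2) → ℝ} (hy : 0 ≤ y) : ∑ r, Fin.init y r ≤ ∑ r, y r := by
  rw [tEll_sum]
  exact le_add_of_nonneg_right (hy _)

end aux

theorem winFn_small (m : ℕ) {δ : ℝ} (h0 : 0 < δ) (h1 : δ ≤ 1 / 2) :
    WinFn δ δ ((4 * 2 ^ m - 1) * (1 - 2 * δ)) (8 * 2 ^ m - 1) (ellT (m := m) δ) (gpT δ) := by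
  have hL : (1 : ℝ) ≤ 2 ^ m := one_le_pow₀ one_le_two
  refine ⟨continuous_ellT δ, continuous_gpT δ, h0, le_rfl,
    mul_nonneg (by linarith) (by linarith), tEll_mono δ, tEll_inv le_rfl, fun y hy hs => ?_,
    fun y _ _ => tEll_bdd δ y⟩
  obtain ⟨a1, a2⟩ := tEll_regA hy ((tEll_le_sum hy).trans hs)
  have h2 : max (1 - 2 * δ) 0 = 1 - 2 * δ := max_eq_left (by linarith)
  have h3 : 0 ≤ (1 - 2 * δ) / (2 * 2 ^ m + 1) := div_nonneg (by linarith) (by linarith)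
  have h4 : (1 - 2 * δ) / (2 * 2 ^ m + 1) ≤ 1 - 2 * δ := div_le_self (by linarith) (by linarith)
  have h5 := mul_nonneg (sub_nonneg.2 hL) h3
  rw [a1, a2, tEll_G, h2, max_eq_left (by linarith), max_eq_right (by linarith),
    max_eq_right (by linarith), Nat.cast_sub (Nat.one_le_iff_ne_zero.2 (by positivity))]
  refine ⟨?_, by linarith⟩
  push_cast
  ring

theorem winFn_one (m : ℕ) : WinFn 1 (1 / 2) 0 (8 * 2 ^ m) (ellT (m := m) 1) (gpT 1) := by
  refine ⟨continuous_ellT 1, continuous_gpT 1, one_half_pos, one_half_lt_one.le, le_rfl,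
    tEll_mono 1, tEll_inv one_half_lt_one.le, fun y hy hs => ?_, fun y _ _ => tEll_bdd 1 y⟩
  obtain ⟨a1, a2⟩ := tEll_regA (δ := 1) hy ((tEll_le_sum hy).trans (by linarith))
  have h2 : max (1 - 2 * 1 : ℝ) 0 = 0 := max_eq_right (by norm_num)
  have h3 : 0 ≤ ∑ r, y r := Finset.sum_nonneg fun r _ => hy r
  rw [a1, a2, tEll_G, h2, zero_div, mul_zero, max_eq_right (by linarith),
    max_eq_right (by linarith), max_eq_right (by linarith)]
  refine ⟨?_, by linarith⟩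
  push_cast
  ring

end Vale.Agent.P209
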