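import Vale.Agent.P209.TMain
import Vale.Agent.P209.TEll
import Vale.Agent.P209.GMain

/-! Sufficiency. Plan: `packs_scale`: conjugate by the dilation `√R`. `shell_family`: enlarge the
radii slightly (`r i + e`, keeping the strict inequalities), `game` with `winFn`, `ball_emb` and
`temb_reindex` give `BallEmb (r i) (T (Ω i))`; the union `K` of the images of the closed balls
is compact, apply `target` to `K`, then `polN` (`polN_pres`, `polN_inj`, `polN_norm`).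
`sufficiency_one`: if all `r i < 1/2` use `δ = 1` (`winFn_one`). Otherwise pick `i₀` with
`r i₀ ≥ 1/2`, `δ = 1 - r i₀ > 0` (from the volume inequality), embed that ball by the identity,
and the others (`Fin.succAbove i₀`, all `< δ ≤ 1/2`) in the shell (`winFn_small`). -/

open scoped ContDiff Topology
open Set MeasureTheory

namespace Vale.Agent.P209

theorem fin_omega_smul {n : ℕ} (c : ℝ) (u v : Fin n → ℂ) :
    omega (c • u) (c • v) = c ^ 2 * omega u v := by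
  simp only [omega, Finset.mul_sum, Pi.smul_apply, Complex.smul_re, Complex.smul_im, smul_eq_mul]
  exact Finset.sum_congr rfl fun j _ => by ring

theorem fin_norm_smul {n : ℕ} (c : ℝ) (z : Fin n → ℂ) :
    Real.pi * ∑ j, ‖(c • z) j‖ ^ 2 = c ^ 2 * (Real.pi * ∑ j, ‖z j‖ ^ 2) := by
  simp only [Finset.mul_sum, Pi.smul_apply, norm_smul, mul_pow, Real.norm_eq_abs, sq_abs]
  exact Finset.sum_congr rfl fun j _ => by ring

theorem packs_scale {n k : ℕ} {r : Fin k → ℝ} {R : ℝ} (hR : 0 < R)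
    (h : Packs n (fun i => r i / R) 1) : Packs n r R := by
  obtain ⟨f, h1, h2, h3⟩ := h
  obtain ⟨c, hc0, hc⟩ : ∃ c : ℝ, 0 < c ∧ c ^ 2 = R := ⟨√R, Real.sqrt_pos.2 hR, Real.sq_sqrt hR.le⟩
  have hm : ∀ i, ∀ z ∈ cball n (r i), c⁻¹ • z ∈ cball n (r i / R) := fun i z hz => by
    have hz' : Real.pi * ∑ j, ‖z j‖ ^ 2 ≤ r i := hz
    change Real.pi * ∑ j, ‖(c⁻¹ • z) j‖ ^ 2 ≤ r i / R
    rw [fin_norm_smul, inv_pow, hc, inv_mul_eq_div]
    exact div_le_div_of_nonneg_right hz' hR.le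
  refine ⟨fun i z => c • f i (c⁻¹ • z), fun i => ?_, fun i => ?_, fun i j hij => ?_⟩
  · obtain ⟨U, u1, u2, u3, u4, u5⟩ := h1 i
    have hs : ContDiff ℝ ∞ fun z : Fin n → ℂ => c⁻¹ • z := contDiff_id.const_smul _
    refine ⟨(fun z => c⁻¹ • z) ⁻¹' U, u1.preimage hs.continuous, fun z hz => u2 (hm i z hz),
      (u3.comp hs.contDiffOn fun z hz => hz).const_smul c, fun x hx y hy e => ?_,
      fun x hx u v => ?_⟩
    · exact smul_right_injective _ (inv_ne_zero hc0.ne')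
        (u4 hx hy (smul_right_injective _ hc0.ne' e))
    · have d1 : HasFDerivAt (f i) (fderiv ℝ (f i) (c⁻¹ • x)) (c⁻¹ • x) :=
        ((u3.contDiffAt (u1.mem_nhds hx)).differentiableAt (by simp)).hasFDerivAt
      have d2 := ((d1.comp x ((hasFDerivAt_id x).const_smul c⁻¹)).const_smul c).fderiv
      have d3 : fderiv ℝ (fun z => c • f i (c⁻¹ • z)) x = _ := d2
      rw [d3]
      simp only [ContinuousLinearMap.smul_apply, ContinuousLinearMap.comp_apply,
        ContinuousLinearMap.id_apply]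
      rw [fin_omega_smul, u5 _ hx, fin_omega_smul, ← mul_assoc, ← mul_pow, mul_inv_cancel₀ hc0.ne',
        one_pow, one_mul]
  · rintro _ ⟨z, hz, rfl⟩
    have t : Real.pi * ∑ j, ‖f i (c⁻¹ • z) j‖ ^ 2 < 1 := h2 i ⟨_, hm i z hz, rfl⟩
    change Real.pi * ∑ j, ‖(c • f i (c⁻¹ • z)) j‖ ^ 2 < R
    rw [fin_norm_smul, hc]
    exact mul_lt_of_lt_one_right hR t
  · refine Set.disjoint_left.2 ?_
    rintro _ ⟨z, hz, rfl⟩ ⟨w, hw, e⟩
    exact Set.disjoint_left.1 (h3 i j hij) ⟨_, hm i z hz, rfl⟩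
      ⟨_, hm j w hw, smul_right_injective _ hc0.ne' e⟩

theorem fin_enlarge {k : ℕ} (r : Fin k → ℝ) (n : ℕ) {a b : ℝ} (hr : ∀ i, r i < a)
    (hv : ∑ i, r i ^ n < b) : ∃ e, 0 < e ∧ (∀ i, r i + e < a) ∧ ∑ i, (r i + e) ^ n < b := by
  have h1 : ∀ᶠ e in 𝓝 (0 : ℝ), ∀ i, r i + e < a := Filter.eventually_all.2 fun i =>
    ContinuousAt.eventually_lt (by fun_prop) continuousAt_const (by simpa using hr i)
  have h2 : ∀ᶠ e in 𝓝 (0 : ℝ), ∑ i, (r i + e) ^ n < b :=
    ContinuousAt.eventually_lt (by fun_prop) continuousAt_const (by simpa using hv)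
  obtain ⟨e, h3, h4⟩ := (((h1.and h2).filter_mono nhdsWithin_le_nhds).and
    (self_mem_nhdsWithin (a := (0 : ℝ)) (s := Ioi 0))).exists
  exact ⟨e, h4, h3.1, h3.2⟩

theorem shell_family (m : ℕ) {δ δg c : ℝ} {D : ℕ} (h0 : 0 ≤ δ) (h1 : δ ≤ 1)
    (hW : WinFn δ δg c D (ellT (m := m) δ) (gpT δ)) (hD : 0 < D) {k : ℕ} (r : Fin k → ℝ)
    (hr : ∀ i, 0 < r i ∧ r i < δg) (hv : ∑ i, r i ^ (m + 3) < 1 - (1 - δ) ^ (m + 3)) :
    ∃ f : Fin k → (Fin (m + 3) → ℂ) → (Fin (m + 3) → ℂ),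
      (∀ i, IsSympEmb (m + 3) (r i) (f i)) ∧
      (∀ i, ∀ z ∈ cball (m + 3) (r i), 1 - δ < Real.pi * ∑ j, ‖f i z j‖ ^ 2 ∧
        Real.pi * ∑ j, ‖f i z j‖ ^ 2 < 1) ∧
      ∀ i j, i ≠ j → Disjoint (f i '' cball (m + 3) (r i)) (f j '' cball (m + 3) (r j)) := by
  obtain ⟨e, e0, e1, e2⟩ := fin_enlarge r (m + 3) (fun i => (hr i).2) hv
  have hp : ∀ i, 0 < r i + e := fun i => add_pos (hr i).1 e0
  have hf : (0 : ℝ) < (m + 3).factorial := by exact_mod_cast (m + 3).factorial_pos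
  obtain ⟨lc, Ω, g1, g2, g3, g4⟩ := game (d := m + 1) hW hD (fun i => r i + e)
    (fun i => ⟨hp i, e1 i⟩) (by
      refine lt_of_lt_of_le ?_ (target_vol m h0 h1)
      have t : 0 ≤ ∑ i, (r i + e) ^ (m + 3) := Finset.sum_nonneg fun i _ => (pow_pos (hp i) _).le
      rw [ENNReal.ofReal_lt_ofReal_iff (div_pos (t.trans_lt e2) hf), ← Finset.sum_div]
      exact div_lt_div_of_pos_right e2 hf)
  have hb : ∀ i, BallEmb (m + 3) (r i) (T (Ω i)) := fun i => by
    refine (ball_emb (m + 3) (hr i).1 (lt_add_of_pos_right _ e0)).trans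
      (TEmb.trans (temb_reindex (finSuccEquiv (m + 2)) (isOpen_spx _) fun y hy => ?_) (g2 i))
    exact ⟨fun k => hy.1 _, by rw [Equiv.sum_comp (finSuccEquiv (m + 2)).symm y]; exact hy.2⟩
  choose f U u1 u2 u3 u4 u5 u6 using hb
  obtain ⟨F, V, v1, v2, v3, v4⟩ := target m δ g1 (⋃ i, f i '' cball (m + 3) (r i))
    (isCompact_iUnion fun i => (isCompact_cball _ _).image_of_continuousOn
      ((u3 i).continuousOn.mono (u2 i)))
    (iUnion_subset fun i => image_subset_iff.2 fun x hx => g4 i (u5 i (u2 i hx)))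
  have hV : ∀ i, ∀ z ∈ cball (m + 3) (r i), f i z ∈ V := fun i z hz =>
    v2 (mem_iUnion.2 ⟨i, z, hz, rfl⟩)
  refine ⟨fun i z => polN (F (f i z)), fun i => ?_, fun i z hz => ?_, fun i j hij => ?_⟩
  · have ho := (u3 i).continuousOn.isOpen_inter_preimage (u1 i) v1.isOpen
    refine ⟨U i ∩ f i ⁻¹' V, ho, fun z hz => ⟨u2 i hz, hV i z hz⟩,
      (contDiffOn_polN _).comp (v1.smooth.comp ((u3 i).mono inter_subset_left) fun z hz => hz.2)
        fun z hz => (v3 hz.2).1,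
      fun x hx y hy e => u6 i x hx.1 y hy.1 (v4 _ hx.2 _ hy.2 (polN_inj (v3 hx.2).1 (v3 hy.2).1 e)),
      fun x hx u v => ?_⟩
    have d1 : DifferentiableAt ℝ (f i) x :=
      ((u3 i).contDiffAt ((u1 i).mem_nhds hx.1)).differentiableAt (by simp)
    have d2 : DifferentiableAt ℝ F (f i x) := v1.diffAt hx.2
    have hT : IsOpen (T {y : Fin (m + 3) → ℝ | ∀ i, 0 < y i}) := by
      refine isOpen_T ?_
      rw [show {y : Fin (m + 3) → ℝ | ∀ i, 0 < y i} = ⋂ i, {y | 0 < y i} by ext; simp]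
      exact isOpen_iInter_of_finite fun i => isOpen_lt continuous_const (continuous_apply i)
    have d3 : DifferentiableAt ℝ polN (F (f i x)) :=
      ((contDiffOn_polN _).contDiffAt (hT.mem_nhds (v3 hx.2).1)).differentiableAt (by simp)
    have d5 := (HasFDerivAt.comp (f := F ∘ f i) x d3.hasFDerivAt
      (d2.hasFDerivAt.comp x d1.hasFDerivAt)).fderiv
    have d4 : fderiv ℝ (fun z => polN (F (f i z))) x = _ := d5
    rw [d4]
    simp only [ContinuousLinearMap.comp_apply]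
    rw [polN_pres _ (v3 hx.2).1, v1.pres _ hx.2, u4 i x hx.1]
  · have t := v3 (hV i z hz)
    rw [polN_norm t.1]
    exact t.2
  · refine Set.disjoint_left.2 ?_
    rintro _ ⟨z, hz, rfl⟩ ⟨w, hw, e⟩
    have t := (v4 _ (hV j w hw) _ (hV i z hz)
      (polN_inj (v3 (hV j w hw)).1 (v3 (hV i z hz)).1 e)).1
    have t1 : (f i z).1 ∈ Ω i := u5 i (u2 i hz)
    have t2 : (f j w).1 ∈ Ω j := u5 j (u2 j hw)
    exact Set.disjoint_left.1 (g3 i j hij) t1 (t ▸ t2)

theorem sufficiency_one (m : ℕ) {k : ℕ} (r : Fin k → ℝ) (hr : ∀ i, 0 < r i)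
    (hv : ∑ i, r i ^ (m + 3) < 1) (hp : ∀ i j, i ≠ j → r i + r j < 1) : Packs (m + 3) r 1 := by
  by_cases hs : ∀ i, r i < 1 / 2
  · obtain ⟨f, f1, f2, f3⟩ := shell_family m zero_le_one le_rfl (winFn_one m) (by positivity) r
      (fun i => ⟨hr i, hs i⟩) (by simpa using hv)
    refine ⟨f, f1, fun i => ?_, f3⟩
    rintro _ ⟨z, hz, rfl⟩
    exact (f2 i z hz).2
  obtain ⟨i₀, hi⟩ := not_forall.1 hs
  rw [not_lt] at hi
  obtain ⟨k, rfl⟩ : ∃ k', k = k' + 1 := ⟨k - 1, by have := i₀.pos; omega⟩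
  rw [Fin.sum_univ_succAbove _ i₀] at hv
  have t0 : 0 ≤ ∑ j : Fin k, r (i₀.succAbove j) ^ (m + 3) :=
    Finset.sum_nonneg fun j _ => (pow_pos (hr _) _).le
  have t1 : r i₀ < 1 := by
    by_contra hh
    have := one_le_pow₀ (n := m + 3) (not_lt.1 hh)
    linarith
  have t2 : 0 < 8 * 2 ^ m - 1 := by
    have : 0 < 2 ^ m := by positivity
    omega
  obtain ⟨f, f1, f2, f3⟩ := shell_family m (δ := 1 - r i₀) (by linarith) (by linarith [hr i₀])
    (winFn_small m (by linarith) (by linarith)) t2 (fun j => r (i₀.succAbove j))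
    (fun j => ⟨hr _, by linarith [hp _ _ (Fin.succAbove_ne i₀ j)]⟩)
    (by rw [sub_sub_cancel]; linarith)
  have hd : ∀ j, Disjoint ((fun z => z) '' cball (m + 3) (r i₀))
      (f j '' cball (m + 3) (r (i₀.succAbove j))) := fun j => by
    refine Set.disjoint_left.2 ?_
    rintro _ ⟨z, hz, rfl⟩ ⟨w, hw, e⟩
    have a1 := (f2 j w hw).1
    have a2 : Real.pi * ∑ j, ‖z j‖ ^ 2 ≤ r i₀ := hz
    rw [e] at a1
    linarith
  refine ⟨Fin.insertNth (α := fun _ => (Fin (m + 3) → ℂ) → (Fin (m + 3) → ℂ)) i₀ (fun z => z) f,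
    fun i => ?_, fun i => ?_, fun i j hij => ?_⟩
  · rcases Fin.eq_self_or_eq_succAbove i₀ i with rfl | ⟨i, rfl⟩
    · rw [Fin.insertNth_apply_same]
      exact ⟨univ, isOpen_univ, subset_univ _, contDiffOn_id, injOn_id _, fun x _ u v => by simp⟩
    · rw [Fin.insertNth_apply_succAbove]
      exact f1 i
  · rcases Fin.eq_self_or_eq_succAbove i₀ i with rfl | ⟨i, rfl⟩
    · rw [Fin.insertNth_apply_same]
      rintro _ ⟨z, hz, rfl⟩
      exact lt_of_le_of_lt hz t1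
    · rw [Fin.insertNth_apply_succAbove]
      rintro _ ⟨z, hz, rfl⟩
      exact (f2 i z hz).2
  · rcases Fin.eq_self_or_eq_succAbove i₀ i with rfl | ⟨i, rfl⟩
    · rcases Fin.eq_self_or_eq_succAbove i j with rfl | ⟨j, rfl⟩
      · exact absurd rfl hij
      · rw [Fin.insertNth_apply_same, Fin.insertNth_apply_succAbove]
        exact hd j
    · rcases Fin.eq_self_or_eq_succAbove i₀ j with rfl | ⟨j, rfl⟩
      · rw [Fin.insertNth_apply_same, Fin.insertNth_apply_succAbove]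
        exact (hd i).symm
      · rw [Fin.insertNth_apply_succAbove, Fin.insertNth_apply_succAbove]
        exact f3 i j fun e => hij (by rw [e])

theorem sufficiency {n k : ℕ} (hn : 3 ≤ n) (r : Fin k → ℝ) (R : ℝ) (hr : ∀ i, 0 < r i)
    (hR : 0 < R) (hv : ∑ i, r i ^ n < R ^ n) (hp : ∀ i j, i ≠ j → r i + r j < R) :
    Packs n r R := by
  obtain ⟨m, rfl⟩ : ∃ m, n = m + 3 := ⟨n - 3, by omega⟩
  refine packs_scale hR (sufficiency_one m _ (fun i => div_pos (hr i) hR) ?_ fun i j hij => ?_)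
  · simp only [div_pow]
    rw [← Finset.sum_div, div_lt_one (pow_pos hR _)]
    exact hv
  · rw [← add_div, div_lt_one hR]
    exact hp i j hij

end Vale.Agent.P209
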