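import Vale.Agent.P209.GPsi
import Vale.Agent.P209.Spx

/-! No waste. Plan: for a level `x` and `m ≤ d + 1` let `Wm m x` be the set of `y ≥ 0` with
`a y < x` such that some `i ≥ 0` with `i r = y r` for `r ≥ m`, `∑ i < ρ`,
`x < a i + ρ - ∑ i` and `x < a (Tm r y i)` for all `r < m` exists (orthant ∩ open set).
`{a y < x < Psi ρ a y} ⊆ Wm (d+1) x` (`lt_Psi_iff`, shrink `i` a little; `ρ = 0` is trivial).
`volume (Wm (m+1) x) ≤ volume (Wm m x)` by `volume_le_of_slices` in the coordinate `m`: with
`A = sup {t ≥ 0 | a (update y m t) < x}` and `I = sup` of the admissible values `i m` (a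
down-closed set: lower `i m` by `τ` and raise `i (m-1)` by `τ`, `hA`; for `m = 0` use `hB` with
`l = d + 1`), the slice of `Wm (m+1)` lies in `[0, A] ∩ [A - I, A]` (empty if `A = ∞`) and the
slice of `Wm m` contains `[0, min A I)`. Finally `Wm 0 x ⊆ {a i < x < a i + ρ - ∑ i}`; integrate
over `x` (Tonelli, e.g. `volume_option`, `volume_option_slices`) and use `lintegral_cone`. -/

open scoped ContDiff Topology
open Set MeasureTheory

namespace Vale.Agent.P209

section

variable {n : ℕ} {h ρ x : ℝ} {a : (Fin n → ℝ) → ℝ}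

theorem gwaste_layer {D : Set (Fin n → ℝ)} (hD : MeasurableSet D) {f g : (Fin n → ℝ) → ℝ}
    (hf : Measurable f) (hg : Measurable g) : ∫⁻ y in D, ENNReal.ofReal (g y - f y) =
      ∫⁻ x : ℝ, volume {y | y ∈ D ∧ f y < x ∧ x < g y} := by
  have hb : Measurable (bb : (Option (Fin n) → ℝ) → Fin n → ℝ) :=
    measurable_pi_lambda _ fun r => measurable_pi_apply _
  rw [← volume_option hD hf hg, volume_option_slices]
  · rfl
  · exact (hb hD).inter ((measurableSet_lt (hf.comp hb) (measurable_pi_apply _)).inter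
      (measurableSet_lt (measurable_pi_apply _) (hg.comp hb)))

/-- the interpolating sets. -/
def gwasteW (a : (Fin n → ℝ) → ℝ) (ρ x : ℝ) (m : ℕ) : Set (Fin n → ℝ) :=
  {y | 0 ≤ y ∧ a y < x ∧ ∃ i, 0 ≤ i ∧ (∀ r : Fin n, m ≤ r → i r = y r) ∧ ∑ r, i r < ρ ∧
    x < a i + ρ - ∑ r, i r ∧ ∀ r : Fin n, (r : ℕ) < m → x < a (Tm r y i)}

theorem gwaste_cont {X : Type} [TopologicalSpace X] {y i : X → Fin n → ℝ} (hy : Continuous y)
    (hi : Continuous i) (r : Fin n) : Continuous fun s => Tm r (y s) (i s) := by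
  refine continuous_pi fun k => ?_
  simp only [Tm]
  split_ifs <;> fun_prop

theorem gwaste_meas (ha : Continuous a) (m : ℕ) : MeasurableSet (gwasteW a ρ x m) := by
  let M : (Fin n → ℝ) → (Fin n → ℝ) → Fin n → ℝ := fun j y r => if (r : ℕ) < m then j r else y r
  have hM : ∀ j, Continuous (M j) := fun j => continuous_pi fun r => by
    simp only [M]
    split_ifs <;> fun_prop
  have e : gwasteW a ρ x m = {y | 0 ≤ y} ∩ ({y | a y < x} ∩ ⋃ j ∈ {j : Fin n → ℝ | 0 ≤ j},
      ({y | ∑ r, M j y r < ρ} ∩ ({y | x < a (M j y) + ρ - ∑ r, M j y r} ∩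
        ⋂ r ∈ {r : Fin n | (r : ℕ) < m}, {y | x < a (Tm r y (M j y))}))) := by
    ext y
    simp only [gwasteW, mem_inter_iff, mem_setOf_eq, mem_iUnion, mem_iInter, exists_prop]
    refine and_congr_right fun hy => and_congr_right fun _ => ⟨?_, ?_⟩
    · rintro ⟨i, h0, h1, h2⟩
      have : M i y = i := funext fun r => by
        simp only [M]
        split_ifs with hr
        · rfl
        · exact (h1 r (not_lt.1 hr)).symm
      exact ⟨i, h0, by rwa [this]⟩
    · rintro ⟨j, h0, h2⟩
      refine ⟨M j y, fun r => ?_, fun r hr => if_neg (not_lt.2 hr), h2⟩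
      simp only [M]
      split_ifs
      · exact h0 r
      · exact hy r
  rw [e]
  refine measurableSet_Ici.inter (IsOpen.measurableSet ((isOpen_lt ha continuous_const).inter
    (isOpen_biUnion fun j _ => ?_)))
  have := hM j
  exact (isOpen_lt (by fun_prop) continuous_const).inter
    ((isOpen_lt continuous_const (by fun_prop)).inter ((Set.toFinite _).isOpen_biInter fun r _ =>
      isOpen_lt continuous_const (ha.comp (gwaste_cont continuous_id this r))))

theorem gwaste_sum (z : Fin n → ℝ) {k : ℕ} (hk : k < n) (τ : ℝ) :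
    ∑ r, (z + ev k τ : Fin n → ℝ) r = ∑ r, z r + τ := by
  have : ∀ r : Fin n, ((r : ℕ) = k) = (r = ⟨k, hk⟩) := fun r => by rw [Fin.ext_iff]
  simp [ev, Finset.sum_add_distrib, this]

theorem gwaste_Tm (r : Fin n) (y z : Fin n → ℝ) {k : ℕ} (hk : (r : ℕ) ≤ k) (τ : ℝ) :
    Tm r y (z + ev k τ) = Tm r y z + ev k τ := by
  funext l
  simp only [Tm, Pi.add_apply]
  split_ifs with h1 h2
  · rw [ev, if_neg (by have : (l : ℕ) < r := h1; omega), add_zero]
  · rw [add_assoc]
  · rfl

theorem gwaste_upd {r m : Fin n} (hr : (r : ℕ) < m) (y i : Fin n → ℝ) (t : ℝ) :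
    Tm r (Function.update y m t) i = Tm r y i := by
  funext l
  simp only [Tm]
  split_ifs with h1 h2
  · exact Function.update_of_ne (fun e => by have : (l : ℕ) < r := h1; omega) _ _
  · rw [Function.update_of_ne fun e => by omega]
  · rfl

theorem gwaste_slice (ha : Cls h a) (hh : ρ ≤ h) (m : Fin n) (y : Fin n → ℝ) {t t' u : ℝ}
    (ht : Function.update y m t ∈ gwasteW a ρ x (m + 1))
    (ht' : Function.update y m t' ∈ gwasteW a ρ x (m + 1)) (h0 : 0 ≤ u) (h1 : u ≤ t' - t) :
    Function.update y m u ∈ gwasteW a ρ x m := by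
  obtain ⟨y0, -, i, i0, i1, i2, i3, i4⟩ := ht
  have t0 : 0 ≤ t := by simpa using y0 m
  have nn : ∀ (w : Fin n → ℝ) (s s' : ℝ), 0 ≤ Function.update w m s → 0 ≤ s' →
      0 ≤ Function.update w m s' := fun w s s' hw hs r => by
    by_cases hr : r = m
    · subst hr
      simpa using hs
    · simpa [hr] using hw r
  have mo : ∀ s s', 0 ≤ s → s ≤ s' → a (Function.update y m s) ≤ a (Function.update y m s') :=
    fun s s' hs hs' => ha.mono _ _ (nn y t s y0 hs) (Function.update_mono hs')
  have e1 : Tm m (Function.update y m t) i = Function.update y m (t + i m) := by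
    funext l
    simp only [Tm]
    split_ifs with h2 h3
    · rw [Function.update_of_ne h2.ne, Function.update_of_ne h2.ne]
    · rw [h3, Function.update_self, Function.update_self]
    · have h4 : (m : ℕ) + 1 ≤ l := lt_of_le_of_ne (not_lt.1 h2) fun e => h3 e.symm
      rw [i1 l h4, Function.update_of_ne h3, Function.update_of_ne h3]
  have h2 : t' < t + i m := by
    by_contra h3
    have h4 := i4 m (Nat.lt_succ_self _)
    rw [e1] at h4
    exact lt_asymm ht'.2.1 (h4.trans_le (mo _ _ (add_nonneg t0 (i0 m)) (not_lt.1 h3)))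
  have τ0 : 0 ≤ i m - u := by linarith
  have z0 : 0 ≤ Function.update i m u := nn i (i m) u (by simpa using i0) h0
  have z1 : ∀ r : Fin n, (m : ℕ) ≤ r → Function.update i m u r = Function.update y m u r := by
    intro r hr
    by_cases e : r = m
    · rw [e, Function.update_self, Function.update_self]
    · rw [Function.update_of_ne e, Function.update_of_ne e,
        i1 r (lt_of_le_of_ne hr fun e' => e (Fin.ext e'.symm)), Function.update_of_ne e]
  have e2 : i = Function.update i m u + ev m (i m - u) := by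
    funext r
    by_cases e : r = m
    · simp [e, ev]
    · simp [e, ev, Fin.val_ne_of_ne e]
  generalize Function.update i m u = z at z0 z1 e2
  generalize i m - u = τ at τ0 e2
  subst e2
  rw [gwaste_sum z m.2] at i2 i3
  refine ⟨nn y t u y0 h0, (mo u t' h0 (by linarith)).trans_lt ht'.2.1, ?_⟩
  rcases Nat.eq_zero_or_pos m with hm | hm
  · refine ⟨z, z0, z1, by linarith, ?_, fun r hr => absurd hr (by omega)⟩
    have e3 : z + ev n τ = z := by
      funext r
      simp [ev, r.2.ne]
    have h3 := ha.hB z z0 τ τ0 m n m.2 le_rfl (by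
      simp only [psum, Fin.is_lt, if_true]
      rw [gwaste_sum z m.2]
      linarith)
    rw [e3] at h3
    linarith
  · have hk : (m : ℕ) - 1 < m := by omega
    refine ⟨z + ev (m - 1) τ, add_nonneg z0 fun r => ?_, fun r hr => ?_, ?_, ?_, fun r hr => ?_⟩
    · simp only [ev, Pi.zero_apply]
      split_ifs
      · exact τ0
      · exact le_rfl
    · rw [Pi.add_apply, z1 r hr, ev, if_neg (by omega), add_zero]
    · rwa [gwaste_sum z (hk.trans m.2)]
    · rw [gwaste_sum z (hk.trans m.2)]
      linarith [ha.hA z z0 τ τ0 _ _ hk m.2]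
    · have h3 := i4 r (by omega)
      rw [gwaste_Tm r _ z hr.le] at h3
      rw [gwaste_upd hr, ← gwaste_upd hr y _ t, gwaste_Tm r _ z (by omega)]
      exact h3.trans_le (ha.hA _ (Tm_nonneg y0 z0) τ τ0 _ _ hk m.2)

theorem gwaste_step (ha : Cls h a) (hh : ρ ≤ h) (m : Fin n) :
    volume (gwasteW a ρ x (m + 1)) ≤ volume (gwasteW a ρ x m) := by
  refine volume_le_of_slices m (gwaste_meas ha.cont _) (gwaste_meas ha.cont _) fun y => ?_
  have key : ∀ t t', Function.update y m t ∈ gwasteW a ρ x (m + 1) →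
      Function.update y m t' ∈ gwasteW a ρ x (m + 1) → ENNReal.ofReal (t' - t) ≤
        volume {t : ℝ | Function.update y m t ∈ gwasteW a ρ x m} := by
    intro t t' ht ht'
    rw [← sub_zero (t' - t), ← Real.volume_Icc]
    exact measure_mono fun u hu => gwaste_slice ha hh m y ht ht' hu.1 hu.2
  refine (Real.volume_le_diam _).trans (Metric.ediam_le fun t ht t' ht' => ?_)
  rw [edist_dist, Real.dist_eq]
  rcases abs_choice (t - t') with e | e <;> rw [e]
  · exact key t' t ht' ht
  · rw [neg_sub]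
    exact key t t' ht ht'

theorem gwaste_all (ha : Cls h a) (hh : ρ ≤ h) {m : ℕ} (hm : m ≤ n) :
    volume (gwasteW a ρ x m) ≤ volume (gwasteW a ρ x 0) := by
  induction m with
  | zero => exact le_rfl
  | succ m ih => exact (gwaste_step ha hh ⟨m, hm⟩).trans (ih (by omega))

end

theorem waste {d : ℕ} {h ρ : ℝ} {a : (Fin (d + 1) → ℝ) → ℝ} (ha : Cls h a) (hρ : 0 ≤ ρ)
    (hh : ρ ≤ h) :
    ∫⁻ y in {y : Fin (d + 1) → ℝ | 0 ≤ y}, ENNReal.ofReal (Psi ρ a y - a y) ≤
      ENNReal.ofReal (ρ ^ (d + 2) / (d + 2).factorial) := by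
  have hD : MeasurableSet {y : Fin (d + 1) → ℝ | 0 ≤ y} := measurableSet_Ici
  have hc := ha.cont
  have e := lintegral_cone (ι := Fin (d + 1)) hρ
  have e' := gwaste_layer hD hc.measurable (g := fun y => a y + (ρ - ∑ r, y r))
    (by fun_prop)
  simp only [Fintype.card_fin, Nat.add_assoc, Nat.reduceAdd] at e
  simp only [add_sub_cancel_left] at e'
  rw [← e, e', gwaste_layer hD hc.measurable (continuous_Psi hc ρ).measurable]
  refine lintegral_mono fun x => (measure_mono ?_).trans
    ((gwaste_all (x := x) ha hh le_rfl).trans (measure_mono ?_))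
  · rintro y ⟨y0, h1, h2⟩
    obtain ⟨i, ⟨i0, i1⟩, i2, i3⟩ := ((lt_Psi_iff hc hρ y x).1 h2).resolve_left h1.not_gt
    refine ⟨y0, h1, ?_⟩
    rcases hρ.eq_or_lt with rfl | h0
    · refine absurd ((i3 0).trans_le (ha.mono _ y (Tm_nonneg y0 i0) fun r => ?_)) h1.not_gt
      have i4 : i r = 0 := le_antisymm
        ((Finset.single_le_sum (fun k _ => i0 k) (Finset.mem_univ r)).trans i1) (i0 r)
      simp only [Tm, i4, add_zero, ite_self]
      split_ifs
      · exact le_rfl
      · exact le_rfl
      · exact y0 r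
    · have h3 : IsOpen ({s : ℝ | x < a (s • i) + ρ - ∑ r, (s • i) r} ∩
          ⋂ r, {s : ℝ | x < a (Tm r y (s • i))}) :=
        (isOpen_lt continuous_const (by fun_prop)).inter (isOpen_iInter_of_finite fun r =>
          isOpen_lt continuous_const (hc.comp (gwaste_cont continuous_const (by fun_prop) r)))
      have h4 := nhdsWithin_le_nhds (s := Iio 1) (h3.mem_nhds (x := 1)
        ⟨by simpa using i2, mem_iInter.2 fun r => by simpa using i3 r⟩)
      obtain ⟨s, ⟨s1, s2⟩, s3, s4⟩ :=
        Filter.nonempty_of_mem (Filter.inter_mem h4 (Ioo_mem_nhdsLT zero_lt_one))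
      refine ⟨s • i, smul_nonneg s3.le i0, fun r hr => absurd r.2 (not_lt.2 hr), ?_, s1,
        fun r _ => mem_iInter.1 s2 r⟩
      simp only [Pi.smul_apply, smul_eq_mul, ← Finset.mul_sum]
      nlinarith
  · rintro y ⟨y0, h1, i, -, i1, -, i2, -⟩
    obtain rfl : i = y := funext fun r => i1 r (Nat.zero_le _)
    exact ⟨y0, h1, by linarith⟩

end Vale.Agent.P209
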