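import Vale.Agent.P209.GInv
import Vale.Agent.P209.GWaste

/-! The periodic front. Plan: `Φ f = Psi (ρ (K-1)) (… (Psi (ρ 0) (f - L)))`; it preserves `Cls h`,
is monotone, `f - L ≤ Φ f ≤ max (f - L) (f 0 - L 0 + ∑ ρ)` on the orthant, and with
`I f = ∫ y in Icc 0 1, f y` (volume one) `I (Φ f) ≤ I f - η`, `η = ∫ L - ∑ ρⁿ / n! > 0`
(`waste`; `L` vanishes on the orthant outside the box); `f 0 ≤ I f`. `L = L 0` on `dl h`.
Start with `f = Λ * clamp (2 - L / ε) 0 1`, `ε = L 0 / 2`; it is in `Cls h`, vanishes on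
`dl h`, `I f ≤ Λ (1 - v)`, `v = volume (dl (min h 1)) > 0`; choose `Λ ≥ Λ₀` with `Λ v ≥ ∑ ρ`.
Then `Φⁿ f ≤ Λ = f` where `L ≤ ε`, and where `L > ε`,
`Φⁿ f ≤ Λ + ∑ ρ - (n - 1) min ε η ≤ 0 ≤ f` for large `n`. So `Φⁿ f ≤ f`; `lam = min_{m<n} Φᵐ f`
satisfies `Φ lam ≤ lam`; `a 0 = lam - L`, `a (k+1) = Psi (ρ k) (a k)`. Where `L = 0`,
`Φᵐ f ≥ f = Λ`; on `dl h`, `a k ≤ a K ≤ lam ≤ f = 0`. -/

open scoped ContDiff Topology
open Set MeasureTheory

namespace Vale.Agent.P209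

/-- successive fronts. -/
noncomputable def gfixA {d : ℕ} (ρ : ℕ → ℝ) (L f : (Fin (d + 1) → ℝ) → ℝ) :
    ℕ → (Fin (d + 1) → ℝ) → ℝ
  | 0 => fun y => f y - L y
  | k + 1 => Psi (ρ k) (gfixA ρ L f k)

/-- integral over the unit box. -/
noncomputable def gfixI {d : ℕ} (f : (Fin d → ℝ) → ℝ) : ℝ := ∫ y in Icc (0 : Fin d → ℝ) 1, f y

theorem gfix_int {d : ℕ} {f : (Fin d → ℝ) → ℝ} (hf : Continuous f) :
    IntegrableOn f (Icc (0 : Fin d → ℝ) 1) := hf.continuousOn.integrableOn_compact isCompact_Icc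

theorem gfix_sub {d : ℕ} {f g : (Fin d → ℝ) → ℝ} (hf : Continuous f) (hg : Continuous g) :
    gfixI (fun y => f y - g y) = gfixI f - gfixI g := integral_sub (gfix_int hf) (gfix_int hg)

theorem gfix_const {d : ℕ} (c : ℝ) : gfixI (fun _ : Fin d → ℝ => c) = c := by
  simp [gfixI, Measure.real, Real.volume_Icc_pi]

theorem gfix_ofReal {d : ℕ} {f : (Fin d → ℝ) → ℝ} (hf : Continuous f) (h0 : ∀ y, 0 ≤ f y) :
    ENNReal.ofReal (gfixI f) = ∫⁻ y in Icc (0 : Fin d → ℝ) 1, ENNReal.ofReal (f y) :=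
  ofReal_integral_eq_lintegral_ofReal (gfix_int hf) (ae_of_all _ h0)

theorem gfix_zero_le {d : ℕ} {h : ℝ} {f : (Fin d → ℝ) → ℝ} (hf : Cls h f) : f 0 ≤ gfixI f := by
  rw [← gfix_const (d := d) (f 0)]
  exact setIntegral_mono_on (gfix_int continuous_const) (gfix_int hf.cont) measurableSet_Icc
    fun y hy => hf.mono 0 y le_rfl hy.1

theorem gfix_comp {d : ℕ} {h : ℝ} {L : (Fin d → ℝ) → ℝ} (hL : Per h L) {φ : ℝ → ℝ}
    (hc : Continuous φ) (ha : Antitone φ) : Cls h (fun y => φ (L y)) :=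
  ⟨hc.comp hL.cont, fun y y' hy hyy => ha (hL.anti y y' hy hyy),
    fun y hy τ hτ k l hk hl => ha (hL.hA y hy τ hτ k l hk hl),
    fun y hy τ hτ k l hk hl hs => (ha (hL.hB y hy τ hτ k l hk hl hs)).trans (by linarith)⟩

theorem gfix_dl {d : ℕ} {h : ℝ} {L : (Fin d → ℝ) → ℝ} (hL : Per h L) {i : Fin d → ℝ}
    (hi : i ∈ dl d h) : L 0 ≤ L i := by
  by_contra h0
  have hp : 0 < L 0 - L i := sub_pos.2 (not_le.1 h0)
  have h1 : 0 ≤ ∑ r, i r := Finset.sum_nonneg fun r _ => hi.1 r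
  have hc : 0 ≤ (∑ r, i r + 1) / (L 0 - L i) := by positivity
  have h2 := (gfix_comp hL (φ := fun t => -((∑ r, i r + 1) / (L 0 - L i) * t)) (by fun_prop)
    fun s t hst => neg_le_neg (mul_le_mul_of_nonneg_left hst hc)).le_of_dl hi
  have h3 : (∑ r, i r + 1) / (L 0 - L i) * (L 0 - L i) = ∑ r, i r + 1 := div_mul_cancel₀ _ hp.ne'
  linarith

section
variable {d : ℕ} {h : ℝ} {L : (Fin (d + 1) → ℝ) → ℝ} {K : ℕ} {ρ : ℕ → ℝ}

theorem gfixA_cls (hL : Per h L) (hρ : ∀ k < K, 0 ≤ ρ k ∧ ρ k ≤ h) {f : (Fin (d + 1) → ℝ) → ℝ}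
    (hf : Cls h f) : ∀ k ≤ K, Cls h (gfixA ρ L f k) := by
  intro k hk
  induction k with
  | zero => exact hf.sub hL
  | succ k ih => exact (ih (by omega)).psi (hρ k hk).1 (hρ k hk).2

theorem gfixA_mono (hL : Per h L) (hρ : ∀ k < K, 0 ≤ ρ k ∧ ρ k ≤ h)
    {f g : (Fin (d + 1) → ℝ) → ℝ} (hf : Cls h f) (hg : Cls h g) (hfg : ∀ y, 0 ≤ y → f y ≤ g y) :
    ∀ k ≤ K, ∀ y, 0 ≤ y → gfixA ρ L f k y ≤ gfixA ρ L g k y := by
  intro k hk
  induction k with
  | zero => exact fun y hy => sub_le_sub_right (hfg y hy) _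
  | succ k ih =>
    exact Psi_mono (gfixA_cls hL hρ hf k (by omega)).cont (gfixA_cls hL hρ hg k (by omega)).cont
      (hρ k hk).1 (ih (by omega))

theorem gfixA_le (ρ : ℕ → ℝ) (L f : (Fin (d + 1) → ℝ) → ℝ) (y : Fin (d + 1) → ℝ) :
    Monotone fun k => gfixA ρ L f k y :=
  monotone_nat_of_le_succ fun k => le_Psi (ρ k) (gfixA ρ L f k) y

theorem gfixA_max (hL : Per h L) (hρ : ∀ k < K, 0 ≤ ρ k ∧ ρ k ≤ h) {f : (Fin (d + 1) → ℝ) → ℝ}
    (hf : Cls h f) : ∀ k ≤ K, ∀ y,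
      gfixA ρ L f k y ≤ max (f y - L y) (f 0 - L 0 + ∑ j ∈ Finset.range k, ρ j) := by
  intro k hk
  induction k with
  | zero => exact fun y => le_max_left _ _
  | succ k ih =>
    intro y
    have h0 : 0 ≤ ∑ j ∈ Finset.range k, ρ j :=
      Finset.sum_nonneg fun j hj => (hρ j (by have := Finset.mem_range.1 hj; omega)).1
    have h1 := (hρ k hk).1
    have h2 := ih (by omega) 0
    rw [max_eq_right (by linarith)] at h2
    rw [Finset.sum_range_succ]
    refine (Psi_le (gfixA_cls hL hρ hf k (by omega)) h1 (hρ k hk).2 y).trans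
      (max_le ((ih (by omega) y).trans (max_le_max le_rfl (by linarith)))
        (le_max_of_le_right (by linarith)))

theorem gfixA_int (hL : Per h L) (hρ : ∀ k < K, 0 ≤ ρ k ∧ ρ k ≤ h) {f : (Fin (d + 1) → ℝ) → ℝ}
    (hf : Cls h f) : ∀ k ≤ K, gfixI (gfixA ρ L f k) ≤
      gfixI f - gfixI L + ∑ j ∈ Finset.range k, ρ j ^ (d + 2) / (d + 2).factorial := by
  intro k hk
  induction k with
  | zero => exact (gfix_sub hf.cont hL.cont).le.trans (by simp)
  | succ k ih =>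
    have h1 := gfixA_cls hL hρ hf k (by omega)
    have h0 := (hρ k hk).1
    have h2 := waste h1 h0 (hρ k hk).2
    have h3 := continuous_Psi h1.cont (ρ k)
    have h4 := (gfix_ofReal (f := fun y => Psi (ρ k) (gfixA ρ L f k) y - gfixA ρ L f k y)
      (h3.sub h1.cont) fun y => sub_nonneg.2 (le_Psi _ _ y)).le.trans
      ((lintegral_mono_set fun y hy => hy.1).trans h2)
    rw [ENNReal.ofReal_le_ofReal_iff (by positivity), gfix_sub h3 h1.cont] at h4
    rw [Finset.sum_range_succ]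
    have h5 := ih (by omega)
    change gfixI (Psi (ρ k) (gfixA ρ L f k)) ≤ _
    linarith

theorem gfix_eta (hL : Per h L) {s : ℝ}
    (hvol : ENNReal.ofReal s < ∫⁻ y in {y : Fin (d + 1) → ℝ | 0 ≤ y}, ENNReal.ofReal (L y))
    (hs : 0 ≤ s) : s < gfixI L := by
  rw [← ENNReal.ofReal_lt_ofReal_iff_of_nonneg hs, gfix_ofReal hL.cont hL.nonneg]
  refine hvol.trans_le ?_
  have hm : MeasurableSet {y : Fin (d + 1) → ℝ | 0 ≤ y} := measurableSet_Ici
  rw [← lintegral_indicator hm, ← lintegral_indicator measurableSet_Icc]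
  refine lintegral_mono fun y => ?_
  by_cases hy : y ∈ {y : Fin (d + 1) → ℝ | 0 ≤ y}
  · rw [indicator_of_mem hy]
    by_cases h1 : y ≤ 1
    · rw [indicator_of_mem (show y ∈ Icc 0 1 from ⟨hy, h1⟩)]
    · obtain ⟨r, hr⟩ := not_forall.1 h1
      rw [hL.supp y hy ((not_le.1 hr).trans_le
        (Finset.single_le_sum (fun r _ => hy r) (Finset.mem_univ r))), ENNReal.ofReal_zero]
      exact zero_le
  · rw [indicator_of_notMem hy]
    exact zero_le

theorem gfix_lt_one (hh : 0 < h) {f : (Fin (d + 1) → ℝ) → ℝ} (hf : Continuous f)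
    (h1 : ∀ y, f y ≤ 1) (h0 : ∀ i ∈ dl (d + 1) h, f i = 0) : gfixI f < 1 := by
  have h2 : 0 < gfixI fun y => 1 - f y := by
    refine (setIntegral_pos_iff_support_of_nonneg_ae (ae_of_all _ fun y => sub_nonneg.2 (h1 y))
      (gfix_int (continuous_const.sub hf))).2 ?_
    have hc : 0 < min (h / (d + 1)) 1 := lt_min (by positivity) one_pos
    refine lt_of_lt_of_le ?_ (measure_mono (s := Icc 0 fun _ => min (h / (d + 1)) 1) fun y hy =>
      ⟨?_, hy.1, fun r => (hy.2 r).trans (min_le_right _ _)⟩)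
    · rw [Real.volume_Icc_pi]
      exact CanonicallyOrderedAdd.prod_pos.2 fun r _ => ENNReal.ofReal_pos.2 (by simpa using hc)
    · rw [Function.mem_support, h0 y ⟨hy.1, ?_⟩]
      · norm_num
      · refine (Finset.sum_le_card_nsmul _ _ (h / (d + 1)) fun r _ =>
          (hy.2 r).trans (min_le_left _ _)).trans (le_of_eq ?_)
        rw [Finset.card_univ, Fintype.card_fin, nsmul_eq_mul]
        push_cast
        field_simp
  rw [gfix_sub continuous_const hf, gfix_const] at h2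
  linarith

theorem gfix_min {F : ℕ → (Fin (d + 1) → ℝ) → ℝ} (hF : ∀ n, Cls h (F n)) (n : ℕ) :
    ∃ g, Cls h g ∧ ∀ y x, x ≤ g y ↔ ∀ m ≤ n, x ≤ F m y := by
  induction n with
  | zero => exact ⟨F 0, hF 0, fun y x => by simp⟩
  | succ n ih =>
    obtain ⟨g, hg, h1⟩ := ih
    refine ⟨_, hg.min (hF (n + 1)), fun y x => ?_⟩
    rw [le_min_iff, h1]
    refine ⟨fun h2 m hm => ?_, fun h2 => ⟨fun m hm => h2 m (by omega), h2 _ le_rfl⟩⟩
    rcases hm.eq_or_lt with rfl | hm'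
    · exact h2.2
    · exact h2.1 m (by omega)

end

theorem exists_fronts {d : ℕ} {h : ℝ} (hh : 0 < h) {L : (Fin (d + 1) → ℝ) → ℝ} (hL : Per h L)
    (K : ℕ) (ρ : ℕ → ℝ) (hρ : ∀ k < K, 0 ≤ ρ k ∧ ρ k ≤ h)
    (hvol : ENNReal.ofReal (∑ k ∈ Finset.range K, ρ k ^ (d + 2) / (d + 2).factorial) <
      ∫⁻ y in {y : Fin (d + 1) → ℝ | 0 ≤ y}, ENNReal.ofReal (L y)) (Λ₀ : ℝ) :
    ∃ a : ℕ → (Fin (d + 1) → ℝ) → ℝ, (∀ k ≤ K, Cls h (a k)) ∧
      (∀ k < K, a (k + 1) = Psi (ρ k) (a k)) ∧ (∀ y, 0 ≤ y → a K y ≤ a 0 y + L y) ∧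
      ∀ y, 0 ≤ y → L y = 0 → ∀ k ≤ K, ∀ i ∈ dl (d + 1) h, a k i + Λ₀ ≤ a 0 y := by
  have hη := sub_pos.2 (gfix_eta hL hvol (Finset.sum_nonneg fun k hk => by
    have := (hρ k (Finset.mem_range.1 hk)).1
    positivity))
  set η := gfixI L - ∑ k ∈ Finset.range K, ρ k ^ (d + 2) / (d + 2).factorial with hηd
  have hS : 0 ≤ ∑ k ∈ Finset.range K, ρ k :=
    Finset.sum_nonneg fun k hk => (hρ k (Finset.mem_range.1 hk)).1
  set S := ∑ k ∈ Finset.range K, ρ k with hSd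
  have hL0 := hL.pos
  set φ : ℝ → ℝ := fun t => max 0 (min 1 (2 - 2 * t / L 0)) with hφ
  have φc : Continuous φ := by fun_prop
  have φa : Antitone φ := fun s t hst => max_le_max le_rfl (min_le_min le_rfl (by gcongr))
  have φ0 : ∀ t, 0 ≤ φ t := fun t => le_max_left _ _
  have φ1 : ∀ t, φ t ≤ 1 := fun t => max_le zero_le_one (min_le_left _ _)
  have φ2 : ∀ t, t ≤ L 0 / 2 → φ t = 1 := fun t ht => by
    have h1 : 2 * t / L 0 ≤ 1 := (div_le_one hL0).2 (by linarith)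
    rw [hφ]
    dsimp only
    rw [min_eq_left (by linarith), max_eq_right zero_le_one]
  have φ3 : ∀ i ∈ dl (d + 1) h, φ (L i) = 0 := fun i hi => by
    have h1 : 2 ≤ 2 * L i / L 0 := (le_div_iff₀ hL0).2 (by linarith [gfix_dl hL hi])
    exact max_eq_left ((min_le_right _ _).trans (by linarith))
  have hv := sub_pos.2 (gfix_lt_one hh (φc.comp hL.cont) (fun y => φ1 _) φ3)
  set v := 1 - gfixI (φ ∘ L) with hvd
  set Λ := |Λ₀| + S / v with hΛ
  have hΛ1 : 0 ≤ S / v := by positivity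
  have hΛ0 : 0 ≤ Λ := by positivity
  have hΛ2 : S ≤ Λ * v := by
    rw [hΛ, add_mul, div_mul_cancel₀ _ hv.ne']
    exact le_add_of_nonneg_left (by positivity)
  let F : ℕ → (Fin (d + 1) → ℝ) → ℝ := fun n =>
    (fun f => gfixA ρ L f K)^[n] fun y => Λ * φ (L y)
  have F0 : ∀ y, F 0 y = Λ * φ (L y) := fun y => rfl
  have F1 : ∀ n, F (n + 1) = gfixA ρ L (F n) K := fun n => Function.iterate_succ_apply' _ _ _
  have hF : ∀ n, Cls h (F n) := fun n => by
    induction n with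
    | zero =>
      exact gfix_comp hL (φ := fun t => Λ * φ t) (by fun_prop)
        fun s t hst => mul_le_mul_of_nonneg_left (φa hst) hΛ0
    | succ n ih => exact F1 n ▸ gfixA_cls hL hρ ih K le_rfl
  have hI : ∀ n : ℕ, gfixI (F n) ≤ Λ - S - n * η := fun n => by
    induction n with
    | zero =>
      have h1 : gfixI (F 0) = Λ * gfixI (φ ∘ L) := integral_const_mul _ _
      rw [h1, Nat.cast_zero]
      rw [hvd] at hΛ2
      linarith
    | succ n ih =>
      have h1 := gfixA_int hL hρ (hF n) K le_rfl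
      rw [F1, Nat.cast_succ]
      linarith
  have hM : ∀ (n : ℕ) y, F (n + 1) y ≤ max (F n y - L y) (Λ - n * η) := fun n y => by
    rw [F1]
    refine (gfixA_max hL hρ (hF n) K le_rfl y).trans (max_le_max le_rfl ?_)
    linarith [gfix_zero_le (hF n), hI n]
  have hU : ∀ (n : ℕ) y, F n y ≤ Λ := fun n y => by
    induction n with
    | zero => exact mul_le_of_le_one_right hΛ0 (φ1 _)
    | succ n ih =>
      exact (hM n y).trans (max_le (by linarith [hL.nonneg y]) (sub_le_self _ (by positivity)))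
  have hμ : 0 < min (L 0 / 2) η := lt_min (by positivity) hη
  have hV : ∀ (n : ℕ) y, L 0 / 2 ≤ L y → F (n + 1) y ≤ Λ - n * min (L 0 / 2) η := fun n y hy => by
    induction n with
    | zero => simpa using hU _ y
    | succ n ih =>
      refine (hM _ y).trans (max_le ?_ ?_)
      · rw [Nat.cast_succ]
        linarith [min_le_left (L 0 / 2) η]
      · gcongr
        exact min_le_right _ _
  obtain ⟨N, hN⟩ := exists_nat_ge (Λ / min (L 0 / 2) η)
  rw [div_le_iff₀ hμ] at hN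
  have hN' : ∀ y, F (N + 1) y ≤ F 0 y := fun y => by
    rw [F0]
    rcases le_total (L y) (L 0 / 2) with h1 | h1
    · rw [φ2 _ h1, mul_one]
      exact hU _ y
    · linarith [hV N y h1, mul_nonneg hΛ0 (φ0 (L y))]
  obtain ⟨g, hg, hg1⟩ := gfix_min hF N
  have hg2 : ∀ y, 0 ≤ y → gfixA ρ L g K y ≤ g y := fun y hy => by
    have h1 : ∀ m ≤ N, gfixA ρ L g K y ≤ F (m + 1) y := fun m hm => by
      rw [F1]
      exact gfixA_mono hL hρ hg (hF m) (fun z _ => (hg1 z _).1 le_rfl m hm) K le_rfl y hy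
    refine (hg1 y _).2 fun m hm => ?_
    cases m with
    | zero => exact (h1 N le_rfl).trans (hN' y)
    | succ m => exact h1 m (by omega)
  refine ⟨gfixA ρ L g, gfixA_cls hL hρ hg, fun k _ => rfl, fun y hy => ?_,
    fun y hy h0 k hk i hi => ?_⟩
  · change _ ≤ g y - L y + L y
    linarith [hg2 y hy]
  · have h1 : ∀ m, Λ ≤ F m y := fun m => by
      induction m with
      | zero => rw [F0, φ2 _ (by rw [h0]; positivity), mul_one]
      | succ m ih =>
        have h2 : F m y - L y ≤ gfixA ρ L (F m) K y := gfixA_le ρ L (F m) y (Nat.zero_le K)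
        rw [F1]
        linarith
    have h2 := (hg1 y Λ).2 fun m _ => h1 m
    have h3 : gfixA ρ L g k i ≤ gfixA ρ L g K i := gfixA_le ρ L g i hk
    have h4 := (hg1 i _).1 le_rfl 0 (Nat.zero_le N)
    rw [F0, φ3 i hi, mul_zero] at h4
    change _ ≤ g y - L y
    linarith [hg2 i hi.1, le_abs_self Λ₀]

end Vale.Agent.P209
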