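import Vale.Agent.P209.GPsi

/-! `Psi` preserves the class. All via `le_Psi_iff` with `x := Psi ρ a (..)`.
`mono`, `hA`: keep the same `i` (`Tm m (y + ev l τ) i` versus `Tm m (y + ev k τ) i`: for `m ≥ l`
use `hA`, for `k ≤ m < l` use `mono`, for `m < k` they are equal).
`hB` (here the dimension is `d + 1`, `k < l ≤ d + 1`, `y⁺ = y + ev k τ`, value `x` at `y⁺` with
witness `i`, by `exists_small` `i r ≤ y⁺ (r+1)`): we need value `x - τ` at `y + ev l τ`.
Let `σ = min τ (ρ - ∑ i)`, take `j` from `exists_trim` with `w = τ - σ` and `p = l - 1`, and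
`i' = j + ev (l-1) (σ + ∑ (i - j))`. First term: `a i' ≥ a (i + ev (l-1) σ) - ∑ (i - j)`
(`Cls.move`), so it is `≥ x - τ` (if `σ < τ` then `∑ i' = ρ` and `x ≤ a i + σ`).
`Tm m` for `m ≥ l`: `hB k l` at `Tm m y i`. For `m ≤ l - 1`: if `j r = 0` for all `r < m` and
`σ < τ` then `Tm m (..) i' ≥ i'` coordinatewise; otherwise nothing was removed at positions `≥ m`
and the full `τ` was added, so `Tm m (..) i'` is `Tm m y⁺ i` with `τ` moved from `k` to `l - 1`
(`hB k (l-1)` or equality, the initial sum is `≤ psum y⁺ l` because `i r ≤ y⁺ (r+1)`) when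
`k ≤ m`, and dominates it when `m < k`. -/

open scoped ContDiff Topology
open Set MeasureTheory

namespace Vale.Agent.P209

variable {d : ℕ}

theorem ginv_ev_nonneg (l : ℕ) {τ : ℝ} (hτ : 0 ≤ τ) : (0 : Fin d → ℝ) ≤ ev l τ := fun r => by
  unfold ev
  split_ifs
  exacts [hτ, le_rfl]

theorem ginv_ev_add (l : ℕ) (s t : ℝ) : (ev l (s + t) : Fin d → ℝ) = ev l s + ev l t := by
  funext r
  simp only [ev, Pi.add_apply]
  split_ifs <;> simp

theorem ginv_sum_ev {l : ℕ} (hl : l < d) (τ : ℝ) : ∑ r, (ev l τ : Fin d → ℝ) r = τ := by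
  rw [Finset.sum_eq_single ⟨l, hl⟩]
  · simp [ev]
  · intro r _ hr
    exact if_neg fun h => hr (Fin.ext h)
  · simp

theorem ginv_psum_mono {y y' : Fin d → ℝ} {l : ℕ} (h : ∀ r : Fin d, (r : ℕ) < l → y r ≤ y' r) :
    psum y l ≤ psum y' l :=
  Finset.sum_le_sum fun r _ => by
    split_ifs with hr
    exacts [h r hr, le_rfl]

theorem ginv_psum_le {y : Fin d → ℝ} (hy : 0 ≤ y) (l : ℕ) : psum y l ≤ ∑ r, y r :=
  Finset.sum_le_sum fun r _ => by
    split_ifs with hr
    exacts [le_rfl, hy r]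

theorem ginv_Tm_le {m : Fin d} {l : ℕ} (h : l ≤ m) (y i : Fin d → ℝ) (τ : ℝ) :
    Tm m (y + ev l τ) i = Tm m y i + ev l τ := by
  funext r
  simp only [Tm, ev, Pi.add_apply, Fin.lt_def, Fin.ext_iff]
  split_ifs <;> first | omega | ring1

theorem ginv_Tm_gt {m : Fin d} {l : ℕ} (h : (m : ℕ) < l) (y i : Fin d → ℝ) (τ : ℝ) :
    Tm m (y + ev l τ) i = Tm m y i := by
  funext r
  simp only [Tm, ev, Pi.add_apply, Fin.lt_def, Fin.ext_iff]
  split_ifs <;> first | omega | ring1

theorem ginv_Tm_right {m : Fin d} {l : ℕ} (h : (m : ℕ) ≤ l) (y i : Fin d → ℝ) (τ : ℝ) :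
    Tm m y (i + ev l τ) = Tm m y i + ev l τ := by
  funext r
  simp only [Tm, ev, Pi.add_apply, Fin.lt_def, Fin.ext_iff]
  split_ifs <;> first | omega | ring1

theorem ginv_Tm_congr {m : Fin d} (y : Fin d → ℝ) {i j : Fin d → ℝ}
    (h : ∀ r : Fin d, (m : ℕ) ≤ r → j r = i r) : Tm m y j = Tm m y i := by
  funext r
  simp only [Tm, Fin.lt_def, Fin.ext_iff]
  split_ifs with h1 h2
  · rfl
  · rw [h r h2.ge]
  · exact h r (not_lt.1 h1)

theorem ginv_psum_Tm {z i : Fin (d + 1) → ℝ} (hz : 0 ≤ z) (m : Fin (d + 1)) {p : ℕ} (hp : p ≤ d)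
    (h : ∀ r : Fin d, i r.castSucc ≤ z r.succ) : psum (Tm m z i) p ≤ psum z (p + 1) := by
  have h1 : psum (Tm m z i) p = (∑ r : Fin (d + 1), if (r : ℕ) < p ∧ (r : ℕ) ≤ m then z r else 0) +
      ∑ r : Fin (d + 1), if (r : ℕ) < p ∧ (m : ℕ) ≤ r then i r else 0 := by
    rw [psum, ← Finset.sum_add_distrib]
    refine Finset.sum_congr rfl fun r _ => ?_
    simp only [Tm, Fin.lt_def, Fin.ext_iff]
    split_ifs <;> first | omega | ring1
  have h2 : (∑ r : Fin (d + 1), if (r : ℕ) < p ∧ (m : ℕ) ≤ r then i r else 0) ≤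
      ∑ r : Fin (d + 1), if (r : ℕ) < p + 1 ∧ (m : ℕ) < r then z r else 0 := by
    rw [Fin.sum_univ_castSucc, Fin.sum_univ_succ, if_neg (by rw [Fin.val_last]; omega),
      if_neg (by rw [Fin.val_zero]; omega), add_zero, zero_add]
    refine Finset.sum_le_sum fun r _ => ?_
    simp only [Fin.val_castSucc, Fin.val_succ]
    split_ifs <;> first | exact h r | exact le_rfl | omega
  rw [h1]
  refine (add_le_add le_rfl h2).trans ?_
  rw [psum, ← Finset.sum_add_distrib]
  refine Finset.sum_le_sum fun r _ => ?_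
  have h3 : 0 ≤ z r := hz r
  split_ifs <;> first | omega | linarith

/-- remove mass `w` from the coordinates `< p`, earliest first
(`j r = max 0 (min (i r) (psum i (r+1) - w))` for `r < p`). -/
theorem exists_trim (i : Fin d → ℝ) (hi : 0 ≤ i) (p : ℕ) {w : ℝ} (hw : 0 ≤ w) :
    ∃ j : Fin d → ℝ, 0 ≤ j ∧ j ≤ i ∧ (∀ r : Fin d, p ≤ (r : ℕ) → j r = i r) ∧
      ∑ r, (i r - j r) ≤ w ∧
      (∑ r, (i r - j r) < w → ∀ r : Fin d, (r : ℕ) < p → j r = 0) ∧
      ∀ m : ℕ, (∀ r : Fin d, (r : ℕ) < m → (r : ℕ) < p → j r = 0) ∨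
        ∀ r : Fin d, m ≤ (r : ℕ) → j r = i r := by
  induction p with
  | zero =>
    exact ⟨i, hi, le_rfl, fun _ _ => rfl, by simpa using hw, fun _ r hr => absurd hr (by omega),
      fun m => Or.inr fun _ _ => rfl⟩
  | succ p ih =>
    obtain ⟨j, h0, h1, h2, h3, h4, h5⟩ := ih
    by_cases hc : ∑ r, (i r - j r) < w ∧ p < d
    · obtain ⟨hs, hp⟩ := hc
      set t := min (i ⟨p, hp⟩) (w - ∑ r, (i r - j r)) with ht
      have ht0 : 0 ≤ t := le_min (hi _) (by linarith)
      have hsum : ∑ r, (i r - (j - ev p t : Fin d → ℝ) r) = ∑ r, (i r - j r) + t := by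
        rw [← ginv_sum_ev hp t, ← Finset.sum_add_distrib, ginv_sum_ev hp t]
        exact Finset.sum_congr rfl fun r _ => by rw [Pi.sub_apply]; ring
      have hne : ∀ r : Fin d, (r : ℕ) ≠ p → (j - ev p t : Fin d → ℝ) r = j r := fun r hr => by
        rw [Pi.sub_apply, ev, if_neg hr, sub_zero]
      have heq : (j - ev p t : Fin d → ℝ) ⟨p, hp⟩ = i ⟨p, hp⟩ - t := by
        rw [Pi.sub_apply, ev, if_pos rfl, h2 _ le_rfl]
      refine ⟨j - ev p t, fun r => ?_, (sub_le_self j (ginv_ev_nonneg p ht0)).trans h1,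
        fun r hr => by rw [hne r (by omega), h2 r (by omega)], ?_, fun hlt r hr => ?_, fun m => ?_⟩
      · by_cases hr : (r : ℕ) = p
        · obtain rfl : r = ⟨p, hp⟩ := Fin.ext hr
          rw [heq]
          exact sub_nonneg.2 (min_le_left _ _)
        · rw [hne r hr]
          exact h0 r
      · rw [hsum]
        linarith [min_le_right (i ⟨p, hp⟩) (w - ∑ r, (i r - j r))]
      · by_cases hr' : (r : ℕ) = p
        · obtain rfl : r = ⟨p, hp⟩ := Fin.ext hr'
          rw [hsum] at hlt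
          rw [heq, sub_eq_zero]
          rcases min_choice (i ⟨p, hp⟩) (w - ∑ r, (i r - j r)) with h | h
          · exact h.symm
          · rw [← ht] at h
            linarith
        · rw [hne r hr', h4 hs r (by omega)]
      · rcases le_or_gt m p with hm | hm
        · exact Or.inl fun r hr _ => by rw [hne r (by omega), h4 hs r (by omega)]
        · exact Or.inr fun r hr => by rw [hne r (by omega), h2 r (by omega)]
    · refine ⟨j, h0, h1, fun r hr => h2 r (by omega), h3, fun hs r hr => ?_, fun m => ?_⟩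
      · have := r.2
        exact h4 hs r (by
          by_contra h
          exact hc ⟨hs, by omega⟩)
      · rcases le_or_gt m p with hm | hm
        · exact (h5 m).imp (fun h r hr _ => h r hr (by omega)) id
        · exact Or.inr fun r hr => h2 r (by omega)

/-- moving mass from coordinates `< p` to the coordinate `p` costs at most the mass moved. -/
theorem Cls.move {h : ℝ} {a : (Fin d → ℝ) → ℝ} (ha : Cls h a) {i j : Fin d → ℝ} (hj : 0 ≤ j)
    (hji : j ≤ i) {p : ℕ} (hp : p < d) (he : ∀ r : Fin d, p ≤ (r : ℕ) → j r = i r)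
    (hs : psum i p ≤ h) :
    a i ≤ a (j + ev p (∑ r, (i r - j r))) + ∑ r, (i r - j r) := by
  classical
  have key : ∀ S : Finset (Fin d), a i ≤
      a ((fun r => if r ∈ S then j r else i r) + ev p (∑ r ∈ S, (i r - j r))) +
        ∑ r ∈ S, (i r - j r) := by
    intro S
    induction S using Finset.induction_on with
    | empty =>
      refine le_of_eq ?_
      rw [Finset.sum_empty, add_zero]
      congr 1
      funext r
      simp [ev]
    | insert q S hq ih =>
      have hσ : 0 ≤ ∑ r ∈ S, (i r - j r) := Finset.sum_nonneg fun r _ => sub_nonneg.2 (hji r)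
      have hτ : 0 ≤ i q - j q := sub_nonneg.2 (hji q)
      set y : Fin d → ℝ := (fun r => if r ∈ insert q S then j r else i r) +
        ev p (∑ r ∈ S, (i r - j r)) with hy
      have hy0 : 0 ≤ y := add_nonneg (fun r => by
        dsimp only
        split_ifs
        exacts [hj r, (hj r).trans (hji r)]) (ginv_ev_nonneg p hσ)
      have h1 : ((fun r => if r ∈ S then j r else i r) + ev p (∑ r ∈ S, (i r - j r))) =
          y + ev q (i q - j q) := by
        rw [hy, add_right_comm]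
        congr 1
        funext r
        by_cases hr : r = q
        · subst hr
          simp [ev, hq]
        · simp [ev, hr, Fin.val_ne_of_ne hr]
      rw [Finset.sum_insert hq, add_comm (i q - j q), ginv_ev_add, ← add_assoc _ (ev p _), ← hy]
      rw [h1] at ih
      rcases le_or_gt p q with hq' | hq'
      · have h2 : ∀ l : ℕ, (ev l (0 : ℝ) : Fin d → ℝ) = 0 := fun l => by
          funext r
          simp [ev]
        rw [he q hq', sub_self, h2, add_zero] at ih ⊢
        rwa [add_zero]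
      · have h2 := ha.hB y hy0 _ hτ q p hq' hp.le (by
          rw [← h1]
          refine (ginv_psum_mono fun r hr => ?_).trans hs
          rw [Pi.add_apply, ev, if_neg hr.ne, add_zero]
          split_ifs
          exacts [hji r, le_rfl])
        linarith
  simpa using key Finset.univ

theorem ginv_hB {h ρ : ℝ} {a : (Fin (d + 1) → ℝ) → ℝ} (ha : Cls h a) (hh : ρ ≤ h)
    {y i : Fin (d + 1) → ℝ} (hy : 0 ≤ y) {τ x : ℝ} (hτ : 0 ≤ τ) {k p : ℕ} (hk : k ≤ p) (hp : p ≤ d)
    (hs : psum (y + ev k τ) (p + 1) ≤ h) (hi : i ∈ dl (d + 1) ρ) (h0 : x ≤ a i + ρ - ∑ r, i r)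
    (hT : ∀ m, x ≤ a (Tm m (y + ev k τ) i))
    (hsm : ∀ r : Fin d, i r.castSucc ≤ (y + ev k τ : Fin (d + 1) → ℝ) r.succ) :
    ∃ i' ∈ dl (d + 1) ρ, x - τ ≤ a i' + ρ - ∑ r, i' r ∧
      ∀ m, x - τ ≤ a (Tm m (y + ev (p + 1) τ) i') := by
  set σ := min τ (ρ - ∑ r, i r) with hσ
  have hσ0 : 0 ≤ σ := le_min hτ (sub_nonneg.2 hi.2)
  have hσ1 : σ ≤ τ := min_le_left _ _
  have hσ2 : σ ≤ ρ - ∑ r, i r := min_le_right _ _
  obtain ⟨j, j0, j1, j2, j3, j4, j5⟩ := exists_trim i hi.1 p (sub_nonneg.2 hσ1)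
  have hp' : p < d + 1 := by omega
  have hm := ha.move j0 j1 hp' j2 (((ginv_psum_le hi.1 p).trans hi.2).trans hh)
  have hs0 : ∀ r, 0 ≤ i r - j r := fun r => sub_nonneg.2 (j1 r)
  have hs1 : ∑ r, (i r - j r) = ∑ r, i r - ∑ r, j r := Finset.sum_sub_distrib _ _
  set s := ∑ r, (i r - j r) with hsd
  have hs2 : 0 ≤ s := Finset.sum_nonneg fun r _ => hs0 r
  have i0 : 0 ≤ j + ev p (s + σ) := add_nonneg j0 (ginv_ev_nonneg p (by linarith))
  have i1 : ∑ r, (j + ev p (s + σ) : Fin (d + 1) → ℝ) r = ∑ r, i r + σ := by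
    simp only [Pi.add_apply]
    rw [Finset.sum_add_distrib, ginv_sum_ev hp']
    linarith
  have i2 : a (j + ev p s) ≤ a (j + ev p (s + σ)) :=
    ha.mono _ _ (add_nonneg j0 (ginv_ev_nonneg p hs2)) (by
      rw [ginv_ev_add, ← add_assoc]
      exact le_add_of_nonneg_right (ginv_ev_nonneg p hσ0))
  have hT0 : ∀ m, 0 ≤ Tm m y i := fun m => Tm_nonneg hy hi.1
  refine ⟨j + ev p (s + σ), ⟨i0, by linarith⟩, by linarith, fun m => ?_⟩
  have hTm := hT m
  rcases le_or_gt (p + 1) m with hm1 | hm1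
  · rw [ginv_Tm_le hm1, ginv_Tm_congr y (i := i) fun r hr => by
      rw [Pi.add_apply, ev, if_neg (by omega), add_zero, j2 r (by omega)]]
    rw [ginv_Tm_le (by omega)] at hTm
    have h1 := ha.hB _ (hT0 m) τ hτ k (p + 1) (by omega) (by omega) (by
      rw [← ginv_Tm_le (by omega)]
      refine (ginv_psum_mono fun r hr => ?_).trans hs
      rw [Tm, if_pos (by rw [Fin.lt_def]; omega)])
    linarith
  · rw [ginv_Tm_gt hm1]
    by_cases hc : (∀ r : Fin (d + 1), (r : ℕ) < m → (r : ℕ) < p → j r = 0) ∧ σ < τ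
    · have h1 : σ = ρ - ∑ r, i r := (min_choice _ _).resolve_left hc.2.ne
      have h2 : a (j + ev p (s + σ)) ≤ a (Tm m y (j + ev p (s + σ))) := ha.mono _ _ i0 fun r => by
        have h3 : 0 ≤ y r := hy r
        rw [Tm]
        split_ifs with h4 h5
        · rw [Fin.lt_def] at h4
          rwa [Pi.add_apply, ev, if_neg (by omega), hc.1 r h4 (by omega), add_zero]
        · linarith
        · exact le_rfl
      linarith
    · have h1 : (∀ r : Fin (d + 1), (m : ℕ) ≤ r → j r = i r) ∧ s + σ = τ := by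
        rcases hσ1.eq_or_lt with h2 | h2
        · have h3 : s = 0 := by linarith
          refine ⟨fun r _ => ?_, by linarith⟩
          have h4 := (Finset.sum_eq_zero_iff_of_nonneg fun r _ => hs0 r).1 h3 r (Finset.mem_univ r)
          linarith
        · refine ⟨(j5 m).resolve_left fun h3 => hc ⟨h3, h2⟩, ?_⟩
          have h3 : ¬ s < τ - σ := fun h3 => hc ⟨fun r _ hr => j4 h3 r hr, h2⟩
          linarith [not_lt.1 h3]
      rw [h1.2, ginv_Tm_right (by omega), ginv_Tm_congr y h1.1]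
      rcases le_or_gt k m with hm2 | hm2
      · rw [ginv_Tm_le hm2] at hTm
        rcases hk.eq_or_lt with rfl | hk'
        · linarith
        · have h2 := ha.hB _ (hT0 m) τ hτ k p hk' (by omega) (by
            rw [← ginv_Tm_le hm2]
            exact (ginv_psum_Tm (add_nonneg hy (ginv_ev_nonneg k hτ)) m hp hsm).trans hs)
          linarith
      · rw [ginv_Tm_gt hm2] at hTm
        have h2 := ha.mono _ _ (hT0 m) (le_add_of_nonneg_right (ginv_ev_nonneg p hτ))
        linarith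

theorem Cls.psi {h ρ : ℝ} {a : (Fin (d + 1) → ℝ) → ℝ} (ha : Cls h a) (hρ : 0 ≤ ρ) (hh : ρ ≤ h) :
    Cls h (Psi ρ a) := by
  refine ⟨continuous_Psi ha.cont ρ, fun y y' hy hyy => ?_, fun y hy τ hτ k l hkl hl => ?_,
    fun y hy τ hτ k l hkl hl hs => ?_⟩
  · rw [le_Psi_iff ha.cont hρ]
    rcases (le_Psi_iff ha.cont hρ y _).1 le_rfl with h1 | ⟨i, hi, h1, h2⟩
    · exact Or.inl (h1.trans (ha.mono y y' hy hyy))
    · refine Or.inr ⟨i, hi, h1, fun m => (h2 m).trans (ha.mono _ _ (Tm_nonneg hy hi.1) fun r => ?_)⟩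
      have h3 : y r ≤ y' r := hyy r
      rw [Tm, Tm]
      split_ifs <;> linarith
  · rw [le_Psi_iff ha.cont hρ]
    rcases (le_Psi_iff ha.cont hρ (y + ev l τ) _).1 le_rfl with h1 | ⟨i, hi, h1, h2⟩
    · exact Or.inl (h1.trans (ha.hA y hy τ hτ k l hkl hl))
    · refine Or.inr ⟨i, hi, h1, fun m => (h2 m).trans ?_⟩
      have h0 : 0 ≤ Tm m y i := Tm_nonneg hy hi.1
      rcases le_or_gt l m with h3 | h3
      · rw [ginv_Tm_le h3, ginv_Tm_le (by omega)]
        exact ha.hA _ h0 τ hτ k l hkl hl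
      · rw [ginv_Tm_gt h3]
        rcases le_or_gt k m with h4 | h4
        · rw [ginv_Tm_le h4]
          exact ha.mono _ _ h0 (le_add_of_nonneg_right (ginv_ev_nonneg k hτ))
        · rw [ginv_Tm_gt h4]
  · rw [← sub_le_iff_le_add, le_Psi_iff ha.cont hρ]
    rcases (le_Psi_iff ha.cont hρ (y + ev k τ) _).1 le_rfl with h1 | ⟨i, hi, h1, h2⟩
    · exact Or.inl (by linarith [ha.hB y hy τ hτ k l hkl hl hs])
    · obtain ⟨i', hi', h3, h4, h5⟩ :=
        exists_small ha hh (add_nonneg hy (ginv_ev_nonneg k hτ)) hi h1 h2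
      obtain ⟨p, rfl⟩ : ∃ p, l = p + 1 := ⟨l - 1, by omega⟩
      exact Or.inr (ginv_hB ha hh hy hτ (by omega) (by omega) hs hi' h3 h4 h5)

end Vale.Agent.P209
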