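import Vale.Agent.P209.Game

/-! Elementary facts on the sums `psum` and the vectors `ev`. -/

namespace Vale.Agent.P209

variable {n : ℕ}

theorem gper_psum_top (y : Fin n → ℝ) : psum y n = ∑ r, y r :=
  Finset.sum_congr rfl fun r _ => if_pos r.2

theorem gper_psum_one (y : Fin (n + 1) → ℝ) : psum y 1 = y 0 := by
  simp [psum]

theorem gper_psum_mono {y y' : Fin n → ℝ} (h : y ≤ y') (l : ℕ) : psum y l ≤ psum y' l :=
  Finset.sum_le_sum fun r _ => by
    split_ifs
    · exact h r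
    · exact le_rfl

theorem gper_psum_le {y : Fin n → ℝ} (hy : 0 ≤ y) {j l : ℕ} (h : j ≤ l) :
    psum y j ≤ psum y l :=
  Finset.sum_le_sum fun r _ => by
    by_cases h1 : (r : ℕ) < j
    · rw [if_pos h1, if_pos (h1.trans_le h)]
    · rw [if_neg h1]
      split_ifs
      · exact hy r
      · exact le_rfl

theorem gper_psum_add (y z : Fin n → ℝ) (l : ℕ) : psum (y + z) l = psum y l + psum z l := by
  unfold psum
  rw [← Finset.sum_add_distrib]
  refine Finset.sum_congr rfl fun r _ => ?_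
  split_ifs <;> simp

theorem gper_psum_ev {k : ℕ} (hk : k < n) (τ : ℝ) (l : ℕ) :
    psum (ev k τ : Fin n → ℝ) l = if k < l then τ else 0 := by
  unfold psum ev
  rw [Finset.sum_eq_single (⟨k, hk⟩ : Fin n)]
  · simp
  · intro b _ hb
    have : (b : ℕ) ≠ k := fun h => hb (Fin.ext h)
    simp [this]
  · simp

theorem gper_ev_nonneg (k : ℕ) {τ : ℝ} (hτ : 0 ≤ τ) : (0 : Fin n → ℝ) ≤ ev k τ := fun r => by
  unfold ev
  split_ifs
  · exact hτ
  · exact le_rfl

theorem gper_ev_top (τ : ℝ) : (ev n τ : Fin n → ℝ) = 0 := by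
  funext r
  simp [ev, r.2.ne]

theorem gper_zero_le_sum {y : Fin (n + 1) → ℝ} (hy : 0 ≤ y) : y 0 ≤ ∑ r, y r :=
  Finset.single_le_sum (f := y) (fun r _ => hy r) (Finset.mem_univ _)

end Vale.Agent.P209
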