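import Vale.Agent.P209.Game

/-! Basic facts on `Psi`. Plan: `dl` is compact and nonempty, `val` is jointly continuous
(finite infimum: `le_ciInf_iff`, `continuous_iInf`-free: rewrite as `Finset.inf'`), so the
supremum is attained (`IsCompact.exists_sSup_image_eq`) and continuous
(`IsCompact.continuous_sSup`). `Cls.le_of_dl`: remove the coordinates one at a time with `hB`
(`l = d`). `exists_small` (downward induction on `r`): if `i r > y (r+1)`, move the excess from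
`i r` to `i (r-1)` (drop it when `r = 0`); the new `Tm r` is `Tm (r+1)` with the mass `y (r+1)`..
more precisely new `Tm r y i = (y_<r, y r + y (r+1), i (r+1), …)` dominates `Tm (r+1) y i` by `hA`;
`Tm m`, `m < r`, and the first term improve by `hA` (by `hB` with `l = d + 1` when `r = 0`). -/

open scoped ContDiff Topology
open Set MeasureTheory

namespace Vale.Agent.P209

variable {d : ℕ}

theorem isCompact_dl (d : ℕ) (ρ : ℝ) : IsCompact (dl d ρ) := by
  have h1 : IsClosed (dl d ρ) :=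
    (isClosed_le continuous_const continuous_id).inter
      (isClosed_le (f := fun i : Fin d → ℝ => ∑ r, i r) (by fun_prop) continuous_const)
  refine (isCompact_Icc (a := 0) (b := fun _ => ρ)).of_isClosed_subset h1 fun i hi =>
    ⟨hi.1, fun k => ?_⟩
  exact (Finset.single_le_sum (fun r _ => hi.1 r) (Finset.mem_univ k)).trans hi.2

theorem Tm_nonneg {m : Fin d} {y i : Fin d → ℝ} (hy : 0 ≤ y) (hi : 0 ≤ i) : 0 ≤ Tm m y i := by
  intro k
  unfold Tm
  split_ifs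
  exacts [hy k, add_nonneg (hy k) (hi k), hi k]

theorem gpsi_cont {a : (Fin (d + 1) → ℝ) → ℝ} (ha : Continuous a) (ρ : ℝ) :
    Continuous fun p : (Fin (d + 1) → ℝ) × (Fin (d + 1) → ℝ) => val a ρ p.1 p.2 := by
  unfold val
  simp only [← Finset.inf'_univ_eq_ciInf]
  refine Continuous.min (by fun_prop) (Continuous.finset_inf'_apply _ fun m _ => ha.comp
    (continuous_pi fun k => ?_))
  unfold Tm
  split_ifs <;> fun_prop

theorem gpsi_max {a : (Fin (d + 1) → ℝ) → ℝ} (ha : Continuous a) {ρ : ℝ} (hρ : 0 ≤ ρ)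
    (y : Fin (d + 1) → ℝ) : ∃ i ∈ dl (d + 1) ρ, Psi ρ a y = max (a y) (val a ρ y i) ∧
      ∀ j ∈ dl (d + 1) ρ, val a ρ y j ≤ val a ρ y i := by
  obtain ⟨i, hi, h1, h2⟩ := (isCompact_dl (d + 1) ρ).exists_sSup_image_eq_and_ge
    ⟨0, le_rfl, by simpa using hρ⟩ (f := val a ρ y)
    ((gpsi_cont ha ρ).comp (Continuous.prodMk_right y)).continuousOn
  exact ⟨i, hi, by rw [Psi, h1], h2⟩

theorem gpsi_le {a : (Fin (d + 1) → ℝ) → ℝ} {ρ x : ℝ} {y i : Fin (d + 1) → ℝ} :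
    x ≤ val a ρ y i ↔ x ≤ a i + ρ - ∑ r, i r ∧ ∀ m, x ≤ a (Tm m y i) := by
  simp only [val, le_min_iff, ← Finset.inf'_univ_eq_ciInf, Finset.le_inf'_iff, Finset.mem_univ,
    forall_const]

theorem gpsi_lt {a : (Fin (d + 1) → ℝ) → ℝ} {ρ x : ℝ} {y i : Fin (d + 1) → ℝ} :
    x < val a ρ y i ↔ x < a i + ρ - ∑ r, i r ∧ ∀ m, x < a (Tm m y i) := by
  simp only [val, lt_min_iff, ← Finset.inf'_univ_eq_ciInf, Finset.lt_inf'_iff, Finset.mem_univ,
    forall_const]

theorem le_Psi_iff {a : (Fin (d + 1) → ℝ) → ℝ} (ha : Continuous a) {ρ : ℝ} (hρ : 0 ≤ ρ)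
    (y : Fin (d + 1) → ℝ) (x : ℝ) : x ≤ Psi ρ a y ↔ x ≤ a y ∨
      ∃ i ∈ dl (d + 1) ρ, x ≤ a i + ρ - ∑ r, i r ∧ ∀ m, x ≤ a (Tm m y i) := by
  obtain ⟨i, hi, h1, h2⟩ := gpsi_max ha hρ y
  rw [h1, le_max_iff]
  exact or_congr_right ⟨fun h => ⟨i, hi, gpsi_le.1 h⟩,
    fun ⟨j, hj, h⟩ => (gpsi_le.2 h).trans (h2 j hj)⟩

theorem lt_Psi_iff {a : (Fin (d + 1) → ℝ) → ℝ} (ha : Continuous a) {ρ : ℝ} (hρ : 0 ≤ ρ)
    (y : Fin (d + 1) → ℝ) (x : ℝ) : x < Psi ρ a y ↔ x < a y ∨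
      ∃ i ∈ dl (d + 1) ρ, x < a i + ρ - ∑ r, i r ∧ ∀ m, x < a (Tm m y i) := by
  obtain ⟨i, hi, h1, h2⟩ := gpsi_max ha hρ y
  rw [h1, lt_max_iff]
  exact or_congr_right ⟨fun h => ⟨i, hi, gpsi_lt.1 h⟩,
    fun ⟨j, hj, h⟩ => (gpsi_lt.2 h).trans_le (h2 j hj)⟩

theorem le_Psi (ρ : ℝ) (a : (Fin (d + 1) → ℝ) → ℝ) (y : Fin (d + 1) → ℝ) : a y ≤ Psi ρ a y := by
  exact le_max_left _ _

theorem continuous_Psi {a : (Fin (d + 1) → ℝ) → ℝ} (ha : Continuous a) (ρ : ℝ) :
    Continuous (Psi ρ a) := by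
  exact ha.max ((isCompact_dl (d + 1) ρ).continuous_sSup (f := val a ρ) (gpsi_cont ha ρ))

theorem Psi_mono {a a' : (Fin (d + 1) → ℝ) → ℝ} (ha : Continuous a) (ha' : Continuous a')
    {ρ : ℝ} (hρ : 0 ≤ ρ) (h : ∀ y, 0 ≤ y → a y ≤ a' y) (y : Fin (d + 1) → ℝ) (hy : 0 ≤ y) :
    Psi ρ a y ≤ Psi ρ a' y := by
  rcases (le_Psi_iff ha hρ y _).1 le_rfl with h1 | ⟨i, hi, h1, h2⟩
  · exact (h1.trans (h y hy)).trans (le_Psi ρ a' y)
  · exact (le_Psi_iff ha' hρ y _).2 (Or.inr ⟨i, hi, by linarith [h i hi.1],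
      fun m => (h2 m).trans (h _ (Tm_nonneg hy hi.1))⟩)

theorem gpsi_psum (y : Fin d → ℝ) : psum y d = ∑ r, y r := by simp [psum]

theorem gpsi_ev (τ : ℝ) : (ev d τ : Fin d → ℝ) = 0 := funext fun r => if_neg r.2.ne

theorem gpsi_sum (k : Fin d) (τ : ℝ) : ∑ r : Fin d, ev k τ r = τ := by
  simp [ev, Fin.val_inj]

theorem Cls.le_of_dl {h : ℝ} {a : (Fin d → ℝ) → ℝ} (ha : Cls h a) {i : Fin d → ℝ}
    (hi : i ∈ dl d h) : a i ≤ a 0 + ∑ r, i r := by
  have key : ∀ s : Finset (Fin d), a (fun k => if k ∈ s then i k else 0) ≤ a 0 + ∑ r ∈ s, i r := by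
    intro s
    induction s using Finset.induction_on with
    | empty => exact le_of_eq (by simp; rfl)
    | insert k s hk ih =>
      have e : (fun r => if r ∈ insert k s then i r else 0) =
          (fun r => if r ∈ s then i r else 0) + ev k (i k) := by
        funext r
        by_cases h1 : r = k
        · simp [ev, h1, hk]
        · simp [ev, h1, Fin.val_inj]
      have h1 := ha.hB (fun r => if r ∈ s then i r else 0)
        (fun r => by dsimp only; split_ifs; exacts [hi.1 r, le_rfl]) (i k) (hi.1 k) k d k.2 le_rfl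
        (by
          rw [gpsi_psum, ← e]
          refine (Finset.sum_le_sum fun r _ => ?_).trans hi.2
          split_ifs
          exacts [le_rfl, hi.1 r])
      rw [gpsi_ev, add_zero] at h1
      rw [e, Finset.sum_insert hk]
      linarith
  simpa using key Finset.univ

theorem Psi_le {h ρ : ℝ} {a : (Fin (d + 1) → ℝ) → ℝ} (ha : Cls h a) (hρ : 0 ≤ ρ) (hh : ρ ≤ h)
    (y : Fin (d + 1) → ℝ) : Psi ρ a y ≤ max (a y) (a 0 + ρ) := by
  rcases (le_Psi_iff ha.cont hρ y _).1 le_rfl with h1 | ⟨i, hi, h1, -⟩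
  · exact h1.trans (le_max_left _ _)
  · exact le_max_of_le_right (by linarith [ha.le_of_dl ⟨hi.1, hi.2.trans hh⟩])

theorem Cls.min {h : ℝ} {a b : (Fin d → ℝ) → ℝ} (ha : Cls h a) (hb : Cls h b) :
    Cls h (fun y => min (a y) (b y)) := by
  refine ⟨ha.cont.min hb.cont, fun y y' h1 h2 => min_le_min (ha.mono y y' h1 h2)
    (hb.mono y y' h1 h2), fun y h1 τ h2 k l h3 h4 => min_le_min (ha.hA y h1 τ h2 k l h3 h4)
    (hb.hA y h1 τ h2 k l h3 h4), fun y h1 τ h2 k l h3 h4 h5 => ?_⟩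
  rw [← min_add_add_right]
  exact min_le_min (ha.hB y h1 τ h2 k l h3 h4 h5) (hb.hB y h1 τ h2 k l h3 h4 h5)

theorem Cls.sub {h : ℝ} {a L : (Fin d → ℝ) → ℝ} (ha : Cls h a) (hL : Per h L) :
    Cls h (fun y => a y - L y) := by
  exact ⟨ha.cont.sub hL.cont, fun y y' h1 h2 => sub_le_sub (ha.mono y y' h1 h2)
    (hL.anti y y' h1 h2), fun y h1 τ h2 k l h3 h4 => sub_le_sub (ha.hA y h1 τ h2 k l h3 h4)
    (hL.hA y h1 τ h2 k l h3 h4), fun y h1 τ h2 k l h3 h4 h5 => by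
      linarith [ha.hB y h1 τ h2 k l h3 h4 h5, hL.hB y h1 τ h2 k l h3 h4 h5]⟩

theorem gpsi_Tm {m : Fin d} {k : ℕ} (h : (m : ℕ) ≤ k) (y j : Fin d → ℝ) (τ : ℝ) :
    Tm m y (j + ev k τ) = Tm m y j + ev k τ := by
  funext r
  simp only [Tm, ev, Pi.add_apply, Fin.lt_def, Fin.ext_iff]
  split_ifs <;> first | omega | ring

theorem gpsi_step {h ρ : ℝ} {a : (Fin (d + 1) → ℝ) → ℝ} (ha : Cls h a) (hh : ρ ≤ h)
    {y i : Fin (d + 1) → ℝ} (hy : 0 ≤ y) (hi : i ∈ dl (d + 1) ρ) {x : ℝ}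
    (h0 : x ≤ a i + ρ - ∑ r, i r) (hT : ∀ m, x ≤ a (Tm m y i)) (r : Fin d) :
    ∃ i' ∈ dl (d + 1) ρ, x ≤ a i' + ρ - ∑ r, i' r ∧ (∀ m, x ≤ a (Tm m y i')) ∧
      i' r.castSucc ≤ y r.succ ∧ ∀ k : Fin (d + 1), (r : ℕ) < k → i' k = i k := by
  by_cases hc : i r.castSucc ≤ y r.succ
  · exact ⟨i, hi, h0, hT, hc, fun _ _ => rfl⟩
  obtain ⟨τ, hτ⟩ : ∃ τ, τ = i r.castSucc - y r.succ := ⟨_, rfl⟩
  have τ0 : 0 ≤ τ := by linarith [not_le.1 hc]
  obtain ⟨j, rfl⟩ : ∃ j, i = j + ev r τ := ⟨i - ev r τ, by ring⟩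
  have j1 : j r.castSucc = y r.succ := by
    simp only [Pi.add_apply, ev, Fin.val_castSucc, if_true] at hτ
    linarith
  have j0 : 0 ≤ j := fun k => by
    by_cases hk : k = r.castSucc
    · rw [hk, j1]
      exact hy r.succ
    · have := hi.1 k
      have h2 : (k : ℕ) ≠ r := fun h' => hk (Fin.ext h')
      rwa [Pi.add_apply, ev, if_neg h2, add_zero] at this
  have s1 : ∑ k, (j + ev r τ : Fin (d + 1) → ℝ) k = ∑ k, j k + τ := by
    simp only [Pi.add_apply, Finset.sum_add_distrib]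
    exact congrArg _ (gpsi_sum r.castSucc τ)
  have key : ∀ l : ℕ, (l < r ∨ l = d + 1) → ∀ m : Fin (d + 1), (r : ℕ) ≤ m →
      x ≤ a (Tm m y (j + ev l τ)) := by
    intro l hl m hm
    have hr := r.2
    rcases hm.eq_or_lt with hm | hm
    · have e1 : Tm m y (j + ev l τ) = Tm r.succ (Function.update y r.succ 0) j + ev r (y r.succ) := by
        funext k
        have hk := k.2
        simp only [Tm, ev, Pi.add_apply, Fin.lt_def, Fin.ext_iff, Function.update_apply,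
          Fin.val_succ]
        by_cases h1 : k = r.castSucc
        · subst h1
          simp only [Fin.val_castSucc, j1]
          split_ifs <;> first | omega | ring
        · have h2 : (k : ℕ) ≠ r := fun h' => h1 (Fin.ext h')
          split_ifs <;> first | omega | ring
      have e2 : Tm r.succ y (j + ev r τ) =
          Tm r.succ (Function.update y r.succ 0) j + ev (r + 1) (y r.succ) := by
        funext k
        simp only [Tm, ev, Pi.add_apply, Fin.lt_def, Fin.ext_iff, Function.update_apply,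
          Fin.val_succ]
        by_cases h1 : k = r.succ
        · subst h1
          simp only [Fin.val_succ]
          split_ifs <;> first | omega | ring
        · have h2 : (k : ℕ) ≠ r + 1 := fun h' => h1 (Fin.ext h')
          split_ifs <;> first | omega | ring
      rw [e1]
      refine ((hT r.succ).trans_eq (congrArg a e2)).trans (ha.hA _ (Tm_nonneg ?_ j0) _ (hy _) _ _
        (Nat.lt_succ_self _) (by omega))
      intro k
      rw [Function.update_apply]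
      split_ifs
      · exact le_rfl
      · exact hy k
    · refine (hT m).trans_eq (congrArg a (funext fun k => ?_))
      have hk := k.2
      simp only [Tm, ev, Pi.add_apply, Fin.lt_def, Fin.ext_iff]
      split_ifs <;> first | omega | ring
  rcases Nat.eq_zero_or_pos r with h1 | h1
  · have h2 := ha.hB j j0 τ τ0 r (d + 1) (by omega) le_rfl (by rw [gpsi_psum]; exact hi.2.trans hh)
    have h3 := key (d + 1) (Or.inr rfl)
    rw [gpsi_ev, add_zero] at h2 h3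
    refine ⟨j, ⟨j0, by linarith [hi.2]⟩, by linarith, fun m => h3 m (by omega), j1.le,
      fun k hk => ?_⟩
    rw [Pi.add_apply, ev, if_neg hk.ne', add_zero]
  · have hr := r.2
    have s2 : ∑ k, (j + ev (r - 1) τ : Fin (d + 1) → ℝ) k = ∑ k, j k + τ := by
      simp only [Pi.add_apply, Finset.sum_add_distrib]
      exact congrArg _ (gpsi_sum ⟨r - 1, by omega⟩ τ)
    have h2 := ha.hA j j0 τ τ0 (r - 1) r (by omega) (by omega)
    refine ⟨j + ev (r - 1) τ, ⟨add_nonneg j0 fun k => ?_, by linarith [hi.2]⟩, by linarith,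
      fun m => ?_, ?_, fun k hk => ?_⟩
    · unfold ev
      split_ifs
      · exact τ0
      · exact le_rfl
    · rcases le_or_gt (r : ℕ) m with hm | hm
      · exact key _ (Or.inl (by omega)) m hm
      · have h3 := hT m
        rw [gpsi_Tm hm.le] at h3
        rw [gpsi_Tm (by omega)]
        exact h3.trans (ha.hA _ (Tm_nonneg hy j0) τ τ0 _ _ (by omega) (by omega))
    · rw [Pi.add_apply, ev, if_neg (by rw [Fin.val_castSucc]; omega), add_zero, j1]
    · rw [Pi.add_apply, Pi.add_apply, ev, ev, if_neg hk.ne', if_neg (by omega)]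

theorem exists_small {h ρ : ℝ} {a : (Fin (d + 1) → ℝ) → ℝ} (ha : Cls h a) (hh : ρ ≤ h)
    {y i : Fin (d + 1) → ℝ} (hy : 0 ≤ y) (hi : i ∈ dl (d + 1) ρ) {x : ℝ}
    (h0 : x ≤ a i + ρ - ∑ r, i r) (hT : ∀ m, x ≤ a (Tm m y i)) :
    ∃ i' ∈ dl (d + 1) ρ, x ≤ a i' + ρ - ∑ r, i' r ∧ (∀ m, x ≤ a (Tm m y i')) ∧
      ∀ r : Fin d, i' r.castSucc ≤ y r.succ := by
  have key : ∀ n : ℕ, ∃ i' ∈ dl (d + 1) ρ, x ≤ a i' + ρ - ∑ r, i' r ∧ (∀ m, x ≤ a (Tm m y i')) ∧
      ∀ r : Fin d, d ≤ r + n → i' r.castSucc ≤ y r.succ := by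
    intro n
    induction n with
    | zero => exact ⟨i, hi, h0, hT, fun r hr => absurd r.2 (by omega)⟩
    | succ n ih =>
      obtain ⟨j, h1, h2, h3, h4⟩ := ih
      by_cases hn : n < d
      · have hn' : d - 1 - n < d := by omega
        obtain ⟨j', h5, h6, h7, h8, h9⟩ := gpsi_step ha hh hy h1 h2 h3 ⟨d - 1 - n, hn'⟩
        refine ⟨j', h5, h6, h7, fun r hr => ?_⟩
        by_cases h10 : d ≤ r + n
        · rw [h9 _ (by simp only [Fin.val_castSucc]; omega)]
          exact h4 r h10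
        · have e : r = ⟨d - 1 - n, hn'⟩ := Fin.ext (by simp only; omega)
          rw [e]
          exact h8
      · exact ⟨j, h1, h2, h3, fun r _ => h4 r (by omega)⟩
  obtain ⟨j, h1, h2, h3, h4⟩ := key d
  exact ⟨j, h1, h2, h3, fun r => h4 r (by omega)⟩

end Vale.Agent.P209
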