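import Vale.Agent.P209.Core

/-! The insertion game: definitions. A front is a function `a` on the orthant; inserting a ball
of size `ρ` replaces it by `Psi ρ a`. -/

open scoped ContDiff Topology
open Set MeasureTheory

namespace Vale.Agent.P209

variable {d : ℕ}

/-- sum of the coordinates with index `< l`. -/
def psum (y : Fin d → ℝ) (l : ℕ) : ℝ := ∑ r : Fin d, if (r : ℕ) < l then y r else 0

/-- `τ` times the `l`-th basis vector (zero when `l ≥ d`). -/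
def ev (l : ℕ) (τ : ℝ) : Fin d → ℝ := fun r => if (r : ℕ) = l then τ else 0

/-- `(y₀, …, y_{m-1}, y_m + i_m, i_{m+1}, …)`. -/
def Tm (m : Fin d) (y i : Fin d → ℝ) : Fin d → ℝ :=
  fun k => if k < m then y k else if k = m then y k + i k else i k

/-- closed simplex. -/
def dl (d : ℕ) (ρ : ℝ) : Set (Fin d → ℝ) := {i | 0 ≤ i ∧ ∑ r, i r ≤ ρ}

noncomputable def val (a : (Fin (d + 1) → ℝ) → ℝ) (ρ : ℝ) (y i : Fin (d + 1) → ℝ) : ℝ :=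
  min (a i + ρ - ∑ r, i r) (⨅ m, a (Tm m y i))

noncomputable def Psi (ρ : ℝ) (a : (Fin (d + 1) → ℝ) → ℝ) (y : Fin (d + 1) → ℝ) : ℝ :=
  max (a y) (sSup (val a ρ y '' dl (d + 1) ρ))

/-- the invariant class of fronts. -/
structure Cls (h : ℝ) (a : (Fin d → ℝ) → ℝ) : Prop where
  cont : Continuous a
  mono : ∀ y y', 0 ≤ y → y ≤ y' → a y ≤ a y'
  hA : ∀ y, 0 ≤ y → ∀ τ, 0 ≤ τ → ∀ k l : ℕ, k < l → l < d → a (y + ev l τ) ≤ a (y + ev k τ)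
  hB : ∀ y, 0 ≤ y → ∀ τ, 0 ≤ τ → ∀ k l : ℕ, k < l → l ≤ d → psum (y + ev k τ) l ≤ h →
    a (y + ev k τ) ≤ a (y + ev l τ) + τ

/-- admissible period functions. -/
structure Per (h : ℝ) (L : (Fin d → ℝ) → ℝ) : Prop where
  cont : Continuous L
  nonneg : ∀ y, 0 ≤ L y
  anti : ∀ y y', 0 ≤ y → y ≤ y' → L y' ≤ L y
  hA : ∀ y, 0 ≤ y → ∀ τ, 0 ≤ τ → ∀ k l : ℕ, k < l → l < d → L (y + ev k τ) ≤ L (y + ev l τ)
  hB : ∀ y, 0 ≤ y → ∀ τ, 0 ≤ τ → ∀ k l : ℕ, k < l → l ≤ d → psum (y + ev k τ) l ≤ h →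
    L (y + ev l τ) ≤ L (y + ev k τ)
  supp : ∀ y, 0 ≤ y → 1 < ∑ r, y r → L y = 0
  pos : 0 < L 0

/-- what the target provides: length `ell` over the base `{y > 0, y 0 < δ, gp > 0}`. -/
structure WinFn (δ δg c : ℝ) (D : ℕ) (ell gp : (Fin (d + 1) → ℝ) → ℝ) : Prop where
  cont : Continuous ell
  cont' : Continuous gp
  pos : 0 < δg
  le : δg ≤ δ
  c_nonneg : 0 ≤ c
  mono : ∀ y y', 0 ≤ y → 0 ≤ y' → (∀ l, psum y l ≤ psum y' l) → y' 0 ≤ δ → 0 ≤ gp y' →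
    ell y' ≤ ell y ∧ gp y' ≤ gp y
  inv : ∀ y y', 0 ≤ y → 0 ≤ y' → ∑ r, y r = ∑ r, y' r →
    (∀ l, psum y l = psum y' l ∨ (psum y l ≤ δg ∧ psum y' l ≤ δg)) → ell y = ell y' ∧ gp y = gp y'
  flat : ∀ y, 0 ≤ y → ∑ r, y r ≤ δg → ell y = c + D * (δg - ∑ r, y r) ∧ δg - ∑ r, y r ≤ gp y
  bdd : ∀ y, 0 ≤ y → y 0 ≤ δ → 0 ≤ gp y → ∑ r, y r ≤ 1

/-- the base of the window. -/
def WBase (δ : ℝ) (gp : (Fin (d + 1) → ℝ) → ℝ) : Set (Fin (d + 1) → ℝ) :=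
  {y | (∀ r, 0 < y r) ∧ y 0 < δ ∧ 0 < gp y}

end Vale.Agent.P209
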