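import Vale.Agent.P209.Lift
import Vale.Agent.P209.Inv

/-! Permuting lanes: the map defined by a generating function, and its derivatives. -/

open scoped ContDiff Topology
open Set MeasureTheory Function

namespace Vale.Agent.P209

variable {ι : Type} [Fintype ι] [DecidableEq ι]

/-- the point at which the generating function is evaluated -/
noncomputable def pmE (i₀ : ι) (g : (ι → ℝ) → ℝ) (z : Ph ι) : ι → ℝ :=
  update z.1 i₀ (g (update z.1 i₀ (z.2 i₀)))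

/-- the map with generating function `ζ Φ + K` -/
noncomputable def pmG (i₀ : ι) (Φ K g : (ι → ℝ) → ℝ) (z : Ph ι) : Ph ι :=
  (update z.1 i₀ (z.1 i₀ * fderiv ℝ Φ (pmE i₀ g z) (Pi.single i₀ 1) +
      fderiv ℝ K (pmE i₀ g z) (Pi.single i₀ 1)),
    update (fun i => z.2 i - z.1 i₀ * fderiv ℝ Φ (pmE i₀ g z) (Pi.single i 1) -
      fderiv ℝ K (pmE i₀ g z) (Pi.single i 1)) i₀ (pmE i₀ g z i₀))

theorem pm_symp (i₀ : ι) {Φ K g : (ι → ℝ) → ℝ} (hΦ : ContDiff ℝ ∞ Φ) (hK : ContDiff ℝ ∞ K)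
    (hg : ContDiff ℝ ∞ g) (hinv : ∀ y, Φ (update y i₀ (g y)) = y i₀) :
    Symp (pmG i₀ Φ K g) univ := by
  have e0 : ∀ y : ι → ℝ, update y i₀ (g y) = y + (g y - y i₀) • (Pi.single i₀ 1 : ι → ℝ) :=
    fun y => by rw [← lift_upd, add_sub_cancel]
  have hψ : ContDiff ℝ ∞ fun y : ι → ℝ => y + (g y - y i₀) • (Pi.single i₀ 1 : ι → ℝ) := by
    fun_prop
  have hD : ∀ F : (ι → ℝ) → ℝ, ContDiff ℝ ∞ F → ∀ i, ContDiff ℝ ∞ fun z : Ph ι =>
      fderiv ℝ F (z.1 + (g z.1 - z.1 i₀) • (Pi.single i₀ 1 : ι → ℝ)) (Pi.single i 1) :=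
    fun F hF i => (((hF.fderiv_right (m := ∞) (by simp)).comp hψ).comp contDiff_fst).clm_apply
      contDiff_const
  have h := lift_exact (U := univ)
    (Y := fun y => y + (g y - y i₀) • (Pi.single i₀ 1 : ι → ℝ))
    (K := fun y => -K (y + (g y - y i₀) • (Pi.single i₀ 1 : ι → ℝ)))
    (P := fun z i => z.2 i - z.2 i₀ * (Pi.single i₀ 1 : ι → ℝ) i +
      z.2 i₀ * fderiv ℝ Φ (z.1 + (g z.1 - z.1 i₀) • (Pi.single i₀ 1 : ι → ℝ)) (Pi.single i 1) -
      fderiv ℝ K (z.1 + (g z.1 - z.1 i₀) • (Pi.single i₀ 1 : ι → ℝ)) (Pi.single i 1))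
    isOpen_univ hψ.contDiffOn (hK.comp hψ).neg.contDiffOn
    (ContDiff.contDiffOn (contDiff_pi.2 fun i =>
      (ContDiff.add (by fun_prop) (ContDiff.mul (by fun_prop) (hD Φ hΦ i))).sub (hD K hK i)))
    fun z _ v => by
      have d1 := (hψ.differentiable (by simp) z.1).hasFDerivAt
      have d2 := (hΦ.differentiable (by simp) _).hasFDerivAt.comp z.1 d1
      have d3 := ((hK.differentiable (by simp) _).hasFDerivAt.comp z.1 d1).neg
      have d4 : (Φ ∘ fun y : ι → ℝ => y + (g y - y i₀) • (Pi.single i₀ 1 : ι → ℝ)) =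
          fun y => y i₀ := funext fun y => by rw [comp_apply, ← e0, hinv]
      rw [d4] at d2
      have d5 := congrArg (fun L => L v) (d2.unique (hasFDerivAt_apply i₀ z.1))
      have d6 := lift_shear i₀ (f := fun y => g y - y i₀) (y := z.1)
        ((hg.differentiable (by simp) _).sub (by fun_prop)) z.2 v
      have d7 := lift_shear i₀ (f := fun y => g y - y i₀) (y := z.1)
        ((hg.differentiable (by simp) _).sub (by fun_prop)) (Pi.single i₀ 1) v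
      rw [show fderiv ℝ (fun y : ι → ℝ => -K (y + (g y - y i₀) • (Pi.single i₀ 1 : ι → ℝ))) z.1 = _
        from d3.fderiv]
      simp only [sub_mul, add_mul, mul_assoc, Finset.sum_sub_distrib, Finset.sum_add_distrib,
        ← Finset.mul_sum, lift_lin, d6, d7]
      simp only [ContinuousLinearMap.comp_apply, ContinuousLinearMap.proj_apply] at d5
      rw [d5]
      simp [Pi.single_apply]
      ring
  have h' := (symp_Jinv i₀).comp ((h.mono isOpen_univ fun _ _ => trivial).comp (symp_Jsw i₀)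
    (mapsTo_univ _ _)) (mapsTo_univ _ _)
  refine h'.congr fun z _ => ?_
  simp only [← e0]
  simp only [Jsw, Jinv, pmG, pmE, update_idem, update_self, Pi.single_eq_same]
  refine Prod.ext ?_ (funext fun i => ?_)
  · simp only
    congr 1
    ring
  · by_cases hi : i = i₀
    · simp [hi]
    · simp only [update_of_ne hi, Pi.single_eq_of_ne hi]
      ring

/-- periodic part of the primitive -/
noncomputable def pmD (b : ℝ → ℝ) (θ : ℝ) : ℝ := (∫ x in (0 : ℝ)..θ, b x) - θ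

theorem pmD_deriv {b : ℝ → ℝ} (hb : Continuous b) (θ : ℝ) : HasDerivAt (pmD b) (b θ - 1) θ :=
  (hb.integral_hasStrictDerivAt 0 θ).hasDerivAt.sub (hasDerivAt_id θ)

theorem pmD_smooth {b : ℝ → ℝ} (hb : ContDiff ℝ ∞ b) : ContDiff ℝ ∞ (pmD b) := by
  refine contDiff_infty_iff_deriv.2 ⟨fun θ => (pmD_deriv hb.continuous θ).differentiableAt, ?_⟩
  rw [show deriv (pmD b) = fun θ => b θ - 1 from funext fun θ => (pmD_deriv hb.continuous θ).deriv]
  exact hb.sub contDiff_const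

theorem pmD_per {b : ℝ → ℝ} (hb : Continuous b) (hp : ∀ θ, b (θ + 1) = b θ)
    (h1 : ∫ θ in (0 : ℝ)..1, b θ = 1) (k : ℤ) (θ : ℝ) : pmD b (θ + k) = pmD b θ := by
  have h : Periodic (pmD b) 1 := fun θ => by
    rw [pmD, pmD, Periodic.intervalIntegral_add_eq_add hp 0 θ hb.intervalIntegrable, zero_add, h1]
    ring
  simpa using h.int_mul k θ

/-- the old angle as a function of the new one -/
noncomputable def pmF (i₀ : ι) (σ : (ι → ℝ) → ℝ) (b : ℝ → ℝ) (η : ι → ℝ) : ℝ :=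
  η i₀ + σ η * pmD b (η i₀)

omit [DecidableEq ι] in
theorem pmF_smooth (i₀ : ι) {σ : (ι → ℝ) → ℝ} (hσ : ContDiff ℝ ∞ σ) {b : ℝ → ℝ}
    (hb : ContDiff ℝ ∞ b) : ContDiff ℝ ∞ (pmF i₀ σ b) :=
  (contDiff_apply ℝ ℝ i₀).add (hσ.mul ((pmD_smooth hb).comp (contDiff_apply ℝ ℝ i₀)))

omit [DecidableEq ι] in
theorem pmF_fderiv (i₀ : ι) {σ : (ι → ℝ) → ℝ} (hσ : ContDiff ℝ ∞ σ) {b : ℝ → ℝ}
    (hb : ContDiff ℝ ∞ b) (η v : ι → ℝ) : fderiv ℝ (pmF i₀ σ b) η v =
      v i₀ * (1 - σ η + σ η * b (η i₀)) + pmD b (η i₀) * fderiv ℝ σ η v := by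
  have h := (hasFDerivAt_apply (𝕜 := ℝ) i₀ η).add
    ((hσ.differentiable (by simp) η).hasFDerivAt.mul
      ((pmD_deriv hb.continuous (η i₀)).comp_hasFDerivAt η (hasFDerivAt_apply i₀ η)))
  rw [show fderiv ℝ (pmF i₀ σ b) η = _ from h.fderiv]
  simp
  ring

theorem pm_inv (i₀ : ι) {σ : (ι → ℝ) → ℝ} (hσ : ContDiff ℝ ∞ σ) (h0 : ∀ y, 0 ≤ σ y)
    (h1 : ∀ y, σ y ≤ 1) (hi : ∀ y t, σ (update y i₀ t) = σ y) {b : ℝ → ℝ} (hb : ContDiff ℝ ∞ b)
    (hpos : ∀ θ, 0 < b θ) (hp : ∀ θ, b (θ + 1) = b θ) (hone : ∫ θ in (0 : ℝ)..1, b θ = 1) :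
    ∃ g : (ι → ℝ) → ℝ, ContDiff ℝ ∞ g ∧ ∀ y, pmF i₀ σ b (update y i₀ (g y)) = y i₀ := by
  have hD := pmD_smooth hb
  obtain ⟨g, g1, g2, -⟩ := exists_mono_inv (U := univ) isOpen_univ
    (fun s (e : ι → ℝ) => s + σ e * pmD b s) (ContDiff.contDiffOn (by fun_prop))
    (fun s e _ => by
      rw [show deriv (fun s => s + σ e * pmD b s) s = _ from
        ((hasDerivAt_id s).add ((pmD_deriv hb.continuous s).const_mul (σ e))).deriv]
      rcases (h0 e).eq_or_lt with h | h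
      · rw [← h]
        norm_num
      · nlinarith [mul_pos h (hpos s), h1 e]) (L := 1) (fun _ => 1) (fun _ _ => one_pos)
    fun s e _ => by
      have := pmD_per hb.continuous hp hone 1 s
      rw [Int.cast_one] at this
      rw [this]
      ring
  rw [univ_prod_univ, contDiffOn_univ] at g1
  refine ⟨fun y => g (y i₀) y, g1.comp (f := fun y : ι → ℝ => (y i₀, y)) (by fun_prop),
    fun y => ?_⟩
  rw [pmF, update_self, hi]
  exact g2 _ _ trivial

/-- the coefficients -/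
noncomputable def pmC (τ : ℝ) (π : ℕ → ℕ) (m j : ℕ) : ℝ :=
  (if j < m then 1 else 0) + τ * ((if π j < π m then 1 else 0) - if j < m then 1 else 0)

/-- the second part of the generating function -/
noncomputable def pmK (i₀ : ι) (N : ℕ) (π : ℕ → ℕ) (b : ℕ → ℝ → ℝ) (σ τ W : (ι → ℝ) → ℝ) (m : ℕ)
    (η : ι → ℝ) : ℝ := W η * ∑ j ∈ Finset.range N, pmC (τ η) π m j * pmF i₀ σ (b j) η

omit [DecidableEq ι] in
theorem pmK_smooth (i₀ : ι) (N : ℕ) (π : ℕ → ℕ) {b : ℕ → ℝ → ℝ} (hb : ∀ j, ContDiff ℝ ∞ (b j))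
    {σ τ W : (ι → ℝ) → ℝ} (hσ : ContDiff ℝ ∞ σ) (hτ : ContDiff ℝ ∞ τ) (hW : ContDiff ℝ ∞ W)
    (m : ℕ) : ContDiff ℝ ∞ (pmK i₀ N π b σ τ W m) :=
  hW.mul (ContDiff.sum fun j _ => (contDiff_const.add (hτ.mul contDiff_const)).mul
    (pmF_smooth i₀ hσ (hb j)))

omit [DecidableEq ι] in
theorem pmK_fderiv (i₀ : ι) (N : ℕ) (π : ℕ → ℕ) {b : ℕ → ℝ → ℝ} (hb : ∀ j, ContDiff ℝ ∞ (b j))
    {σ τ W : (ι → ℝ) → ℝ} (hσ : ContDiff ℝ ∞ σ) (hτ : ContDiff ℝ ∞ τ) (hW : ContDiff ℝ ∞ W)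
    (m : ℕ) (η v : ι → ℝ) (h0 : fderiv ℝ τ η v = 0) : fderiv ℝ (pmK i₀ N π b σ τ W m) η v =
      W η * ∑ j ∈ Finset.range N, pmC (τ η) π m j * fderiv ℝ (pmF i₀ σ (b j)) η v +
        (∑ j ∈ Finset.range N, pmC (τ η) π m j * pmF i₀ σ (b j) η) * fderiv ℝ W η v := by
  have h := (hW.differentiable (by simp) η).hasFDerivAt.fun_mul
    (HasFDerivAt.fun_sum (u := Finset.range N) fun j _ =>
      (((hτ.differentiable (by simp) η).hasFDerivAt.mul_const
        ((if π j < π m then 1 else 0) - if j < m then (1 : ℝ) else 0)).const_add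
          (if j < m then 1 else 0)).fun_mul
        ((pmF_smooth i₀ hσ (hb j)).differentiable (by simp) η).hasFDerivAt)
  rw [show fderiv ℝ (pmK i₀ N π b σ τ W m) η = _ from h.fderiv]
  simp only [add_apply, smul_apply, _root_.sum_apply, smul_eq_mul, h0, mul_zero,
    add_zero, pmC]

theorem pm_fderiv_upd (i₀ : ι) {W : (ι → ℝ) → ℝ} (h : ∀ y t, W (update y i₀ t) = W y)
    (y : ι → ℝ) (t : ℝ) : fderiv ℝ W (update y i₀ t) = fderiv ℝ W y := by
  rw [← add_sub_cancel (y i₀) t, lift_upd, ← fderiv_comp_add_right]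
  congr 1
  funext x
  rw [← lift_upd, h]

theorem pm_count {N : ℕ} {π : ℕ → ℕ} (hπ : ∀ m < N, π m < N)
    (hinj : ∀ m < N, ∀ m' < N, π m = π m' → m = m') {k : ℕ} (hk : k < N) :
    ∑ j ∈ Finset.range N, (if π j < k then (1 : ℝ) else 0) = k := by
  have h1 : Set.InjOn π (Finset.range N) := fun a ha a' ha' =>
    hinj a (Finset.mem_range.1 ha) a' (Finset.mem_range.1 ha')
  have h2 : (Finset.range N).image π = Finset.range N :=
    Finset.eq_of_subset_of_card_le (Finset.image_subset_iff.2 fun a ha =>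
      Finset.mem_range.2 (hπ a (Finset.mem_range.1 ha))) (Finset.card_image_of_injOn h1).ge
  rw [← Finset.sum_image (f := fun j => if j < k then (1 : ℝ) else 0) h1, h2, Finset.sum_boole]
  have h3 : (Finset.range N).filter (fun j => j < k) = Finset.range k := by
    ext j
    simp only [Finset.mem_filter, Finset.mem_range]
    omega
  rw [h3, Finset.card_range]

theorem pm_lt {N : ℕ} {ρ : ℕ → ℕ} {f : ℕ → ℝ} (hf : ∀ j, 0 < f j) {m m' : ℕ} (hm : m < N)
    (h : ρ m < ρ m') {w ζ ζ' : ℝ} (h0 : 0 < ζ) (h1 : ζ < w) (h2 : 0 < ζ') :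
    ζ * f m + w * ∑ j ∈ Finset.range N, (if ρ j < ρ m then (1 : ℝ) else 0) * f j <
      ζ' * f m' + w * ∑ j ∈ Finset.range N, (if ρ j < ρ m' then (1 : ℝ) else 0) * f j := by
  have h3 : f m + ∑ j ∈ Finset.range N, (if ρ j < ρ m then (1 : ℝ) else 0) * f j ≤
      ∑ j ∈ Finset.range N, (if ρ j < ρ m' then (1 : ℝ) else 0) * f j := by
    rw [← Finset.add_sum_erase _ _ (Finset.mem_range.2 hm),
      ← Finset.add_sum_erase _ _ (Finset.mem_range.2 hm), if_neg (lt_irrefl _), if_pos h,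
      zero_mul, zero_add, one_mul]
    refine add_le_add_right (Finset.sum_le_sum fun j _ =>
      mul_le_mul_of_nonneg_right ?_ (hf j).le) _
    split_ifs with a1 a2
    exacts [le_rfl, absurd (a1.trans h) a2, zero_le_one, le_rfl]
  have h4 := mul_le_mul_of_nonneg_left h3 (h0.trans h1).le
  nlinarith [mul_pos h2 (hf m'), mul_lt_mul_of_pos_right h1 (hf m)]

theorem pm_loc {b : ℝ → ℝ} (hb : Continuous b) (hpos : ∀ θ, 0 < b θ)
    (hone : ∫ θ in (0 : ℝ)..1, b θ = 1) {κ₀ l r a : ℝ} (hl : ∫ θ in (0 : ℝ)..l, b θ < κ₀)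
    (hr : ∫ θ in r..1, b θ < κ₀) (h1 : κ₀ < a + pmD b a) (h2 : a + pmD b a < 1 - κ₀) :
    l < a ∧ a < r := by
  have hm : StrictMono fun θ => ∫ x in (0 : ℝ)..θ, b x := strictMono_of_deriv_pos fun θ => by
    rw [(hb.integral_hasStrictDerivAt 0 θ).hasDerivAt.deriv]
    exact hpos θ
  have h3 := intervalIntegral.integral_add_adjacent_intervals (hb.intervalIntegrable (μ := volume) 0 r)
    (hb.intervalIntegrable r 1)
  rw [pmD, add_sub_cancel] at h1 h2
  exact ⟨hm.lt_iff_lt.1 (hl.trans h1), hm.lt_iff_lt.1 (show _ < ∫ x in (0 : ℝ)..r, b x by linarith)⟩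

end Vale.Agent.P209
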