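import Vale.Agent.P209.WDefs
import Vale.Agent.P209.Dens
import Vale.Agent.P209.Lift
import Vale.Agent.P209.Inv
import Vale.Agent.P209.PermAux

/-! Permuting lanes. Plan: `sT = Real.smoothTransition`, `ξ = (x - x₀ t)/s`,
`σ = sT (3ξ) * sT (3 - 3ξ)`, `τ = sT (3ξ - 1)` (if `0 < τ < 1` then `σ = 1`);
`f m θ σ = 1 - σ + σ * b m θ`, `Φ m θ σ = (1 - σ) θ + σ ∫₀^θ b m`, `g m · σ` its inverse
(`exists_mono_inv`), `c m j = (1 - τ) [j < m] + τ [π j < π m]`,
`β m = w t * ∑ j < N, c m j * f j θ σ`, `Kf m = w t * ∑ j < N, c m j * Φ j θ σ` (so `∂_θ Kf = β`).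
`G m = Jinv none ∘ liftF ψ (fun q => - Kf m (ψ q)) ∘ Jsw none` with
`ψ q = update q none (g m (q none) (σ q))`. By `liftF_pair` the new coordinates are
`angle none = θ = g m ϑ σ`, `base none = β m + ζ * f m θ σ`. Where `ξ ≤ 0` or `ξ ≥ 1` the
functions `σ, τ` are flat, `fderiv ψ = id`; compare with `Tr` through `eq_of_pair`
(`#{j < N | π j < π m} = π m`). `sep`: same `x, t`; if `τ ∈ {0, 1}` the intervals
`(β m, β m + w f m)` are disjoint for different `m` (periodicity in `θ`); otherwise `σ = 1` and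
`θ - n ∈ (m/N, (m+1)/N)`. For `m = m'`: `Φ (θ + k) = Φ θ + k` forces `k = 0`, then `ζ = ζ'`, and
the other angles differ by the same integers (`liftF_pair`). -/

open scoped ContDiff Topology
open Set MeasureTheory

namespace Vale.Agent.P209

section core
open Function
variable {ι : Type} [Fintype ι] [DecidableEq ι] {i₀ : ι} {N : ℕ} {π : ℕ → ℕ} {b : ℕ → ℝ → ℝ}
  {σ τ W g : (ι → ℝ) → ℝ}

omit [Fintype ι] in
theorem pm_ang (σi : ∀ y t, σ (update y i₀ t) = σ y) {m : ℕ}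
    (hinv : ∀ y, pmF i₀ σ (b m) (update y i₀ (g y)) = y i₀) (z : Ph ι) :
    pmE i₀ g z i₀ + σ z.1 * pmD (b m) (pmE i₀ g z i₀) = z.2 i₀ := by
  have h := hinv (update z.1 i₀ (z.2 i₀))
  rw [pmF, σi, σi, update_self, update_self] at h
  rw [pmE, update_self]
  exact h

theorem pm_base (hb : ∀ j, ContDiff ℝ ∞ (b j)) (hσ : ContDiff ℝ ∞ σ) (hτ : ContDiff ℝ ∞ τ)
    (hW : ContDiff ℝ ∞ W) (σi : ∀ y t, σ (update y i₀ t) = σ y)
    (τi : ∀ y t, τ (update y i₀ t) = τ y) (Wi : ∀ y t, W (update y i₀ t) = W y) (m : ℕ)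
    (z : Ph ι) : (pmG i₀ (pmF i₀ σ (b m)) (pmK i₀ N π b σ τ W m) g z).1 i₀ =
      z.1 i₀ * (1 - σ z.1 + σ z.1 * b m (pmE i₀ g z i₀)) + W z.1 * ∑ j ∈ Finset.range N,
        pmC (τ z.1) π m j * (1 - σ z.1 + σ z.1 * b j (pmE i₀ g z i₀)) := by
  have e1 : σ (pmE i₀ g z) = σ z.1 := σi _ _
  have e2 : τ (pmE i₀ g z) = τ z.1 := τi _ _
  have e3 : W (pmE i₀ g z) = W z.1 := Wi _ _
  simp only [pmG, update_self, pmK_fderiv i₀ N π hb hσ hτ hW m _ _ (fderiv_single_eq_zero i₀ τi _),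
    pmF_fderiv i₀ hσ (hb _), fderiv_single_eq_zero i₀ σi, fderiv_single_eq_zero i₀ Wi, e1, e2, e3,
    Pi.single_eq_same, mul_zero, add_zero, one_mul]

theorem pm_flat (hb : ∀ j, ContDiff ℝ ∞ (b j)) (hσ : ContDiff ℝ ∞ σ) (hτ : ContDiff ℝ ∞ τ)
    (hW : ContDiff ℝ ∞ W) (σ0 : ∀ y, 0 ≤ σ y) (σi : ∀ y t, σ (update y i₀ t) = σ y)
    (τi : ∀ y t, τ (update y i₀ t) = τ y) (Wi : ∀ y t, W (update y i₀ t) = W y) {m : ℕ}
    (hinv : ∀ y, pmF i₀ σ (b m) (update y i₀ (g y)) = y i₀) {z : Ph ι} (h1 : σ z.1 = 0)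
    (h2 : fderiv ℝ τ z.1 = 0) {C : ℝ} (h3 : ∑ j ∈ Finset.range N, pmC (τ z.1) π m j = C) :
    pmG i₀ (pmF i₀ σ (b m)) (pmK i₀ N π b σ τ W m) g z = Tr i₀ (fun y => C * W y) z := by
  have e1 : σ (pmE i₀ g z) = 0 := (σi _ _).trans h1
  have e2 : τ (pmE i₀ g z) = τ z.1 := τi _ _
  have e3 : W (pmE i₀ g z) = W z.1 := Wi _ _
  have e4 : fderiv ℝ σ (pmE i₀ g z) = 0 :=
    IsLocalMin.fderiv_eq_zero (Filter.Eventually.of_forall fun y => e1.le.trans (σ0 y))
  have e5 : ∀ v, fderiv ℝ τ (pmE i₀ g z) v = 0 := fun v => by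
    rw [pmE, pm_fderiv_upd i₀ τi, h2]
    rfl
  have e6 : fderiv ℝ W (pmE i₀ g z) = fderiv ℝ W z.1 := pm_fderiv_upd i₀ Wi _ _
  have e7 : pmE i₀ g z i₀ = z.2 i₀ := by
    have h := pm_ang σi hinv z
    rwa [h1, zero_mul, add_zero] at h
  have e8 : ∀ v, fderiv ℝ (fun y => C * W y) z.1 v = C * fderiv ℝ W z.1 v := fun v => by
    rw [show fderiv ℝ (fun y => C * W y) z.1 = _ from
      ((hW.differentiable (by simp) z.1).hasFDerivAt.const_mul C).fderiv]
    rfl
  simp only [pmG, Tr, pmK_fderiv i₀ N π hb hσ hτ hW m _ _ (e5 _), pmF_fderiv i₀ hσ (hb _), pmF,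
    e1, e2, e3, e4, e6, e7, e8, ← Finset.sum_mul, h3, zero_mul, zero_apply, mul_zero, add_zero,
    sub_zero, mul_one, Pi.single_eq_same, fderiv_single_eq_zero i₀ Wi]
  refine Prod.ext ?_ (funext fun i => ?_)
  · simp only [mul_comm]
  · by_cases hi : i = i₀
    · simp only [hi, update_self, fderiv_single_eq_zero i₀ Wi, mul_zero, sub_zero]
    · simp only [update_of_ne hi, Pi.single_eq_of_ne (Ne.symm hi)]
      ring

theorem pm_f_pos {s x : ℝ} (h0 : 0 ≤ s) (h1 : s ≤ 1) (hx : 0 < x) : 0 < 1 - s + s * x := by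
  rcases h0.eq_or_lt with h | h
  · rw [← h]
    norm_num
  · nlinarith [mul_pos h hx]

theorem pm_range {f : ℕ → ℝ} (hf : ∀ j, 0 < f j) (hs : ∑ j ∈ Finset.range N, f j = N) {t : ℝ}
    (t0 : 0 ≤ t) (t1 : t ≤ 1) {m : ℕ} (hm : m < N) {w ζ : ℝ} (h0 : 0 < ζ) (h1 : ζ < w) :
    0 < ζ * f m + w * ∑ j ∈ Finset.range N, pmC t π m j * f j ∧
      ζ * f m + w * ∑ j ∈ Finset.range N, pmC t π m j * f j < N * w := by
  have hc : ∀ j, 0 ≤ pmC t π m j ∧ pmC t π m j ≤ 1 := fun j => by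
    unfold pmC
    split_ifs <;> constructor <;> linarith
  have hw := h0.trans h1
  refine ⟨add_pos_of_pos_of_nonneg (mul_pos h0 (hf m)) (mul_nonneg hw.le
    (Finset.sum_nonneg fun j _ => mul_nonneg (hc j).1 (hf j).le)), ?_⟩
  have h2 : ∑ j ∈ (Finset.range N).erase m, pmC t π m j * f j ≤
      ∑ j ∈ (Finset.range N).erase m, f j :=
    Finset.sum_le_sum fun j _ => mul_le_of_le_one_left (hf j).le (hc j).2
  have h3 : pmC t π m m = 0 := by simp [pmC]
  rw [← hs, ← Finset.add_sum_erase _ _ (Finset.mem_range.2 hm),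
    ← Finset.add_sum_erase _ _ (Finset.mem_range.2 hm), h3]
  nlinarith [mul_le_mul_of_nonneg_left h2 hw.le, mul_lt_mul_of_pos_right h1 (hf m)]

theorem pm_int {N m m' : ℕ} (hm : m < N) (hm' : m' < N) {a : ℝ} {k : ℤ} (h1 : (m / N : ℝ) < a)
    (h2 : a < (m + 1) / N) (h3 : (m' / N : ℝ) < a + k) (h4 : a + k < (m' + 1) / N) : m = m' := by
  have hN : (0 : ℝ) < N := by exact_mod_cast (Nat.zero_le m).trans_lt hm
  have a1 : (m : ℝ) + 1 ≤ N := by exact_mod_cast hm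
  have a2 : (m' : ℝ) + 1 ≤ N := by exact_mod_cast hm'
  have a3 : ((m : ℝ) + 1) / N ≤ 1 := (div_le_one hN).2 a1
  have a4 : ((m' : ℝ) + 1) / N ≤ 1 := (div_le_one hN).2 a2
  have a5 : (0 : ℝ) ≤ m / N := by positivity
  have a6 : (0 : ℝ) ≤ m' / N := by positivity
  have a7 : k < 1 := by exact_mod_cast (show (k : ℝ) < 1 by linarith)
  have a8 : -1 < k := by exact_mod_cast (show (-1 : ℝ) < k by linarith)
  obtain rfl : k = 0 := by omega
  rw [Int.cast_zero, add_zero] at h3 h4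
  have a9 : m < m' + 1 := by exact_mod_cast (div_lt_div_iff_of_pos_right hN).1 (h1.trans h4)
  have a10 : m' < m + 1 := by exact_mod_cast (div_lt_div_iff_of_pos_right hN).1 (h3.trans h2)
  omega

theorem pm_core (i₀ : ι) (hN : 0 < N) (hπ : ∀ m < N, π m < N)
    (hinj : ∀ m < N, ∀ m' < N, π m = π m' → m = m') {κ₀ : ℝ} (hκ : 0 < κ₀)
    (hσ : ContDiff ℝ ∞ σ) (hτ : ContDiff ℝ ∞ τ) (hW : ContDiff ℝ ∞ W) (σ0 : ∀ y, 0 ≤ σ y)
    (σ1 : ∀ y, σ y ≤ 1) (τ0 : ∀ y, 0 ≤ τ y) (τ1 : ∀ y, τ y ≤ 1)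
    (σi : ∀ y t, σ (update y i₀ t) = σ y) (τi : ∀ y t, τ (update y i₀ t) = τ y)
    (Wi : ∀ y t, W (update y i₀ t) = W y) (hor : ∀ y, τ y = 0 ∨ τ y = 1 ∨ σ y = 1) :
    ∃ G : ℕ → Ph ι → Ph ι, (∀ m, Symp (G m) univ) ∧ (∀ m z i, i ≠ i₀ → (G m z).1 i = z.1 i) ∧
      (∀ m < N, ∀ z, σ z.1 = 0 → τ z.1 = 0 → G m z = Tr i₀ (fun y => (m : ℝ) * W y) z) ∧
      (∀ m < N, ∀ z, σ z.1 = 0 → τ z.1 = 1 → G m z = Tr i₀ (fun y => (π m : ℝ) * W y) z) ∧
      (∀ m < N, ∀ z, 0 < z.1 i₀ → z.1 i₀ < W z.1 →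
        0 < (G m z).1 i₀ ∧ (G m z).1 i₀ < N * W z.1) ∧
      ∀ m < N, ∀ m' < N, ∀ (z z' : Ph ι) (n n' : ℤ),
        0 < z.1 i₀ → z.1 i₀ < W z.1 → 0 < z'.1 i₀ → z'.1 i₀ < W z'.1 →
        n + κ₀ < z.2 i₀ → z.2 i₀ < n + 1 - κ₀ → n' + κ₀ < z'.2 i₀ → z'.2 i₀ < n' + 1 - κ₀ →
        (m = m' → n = n') → LatEq (G m z) (G m' z') → m = m' ∧ LatEq z z' := by
  obtain ⟨b, hb, bpos, bper, bsum, bint⟩ := exists_dens hN hκ
  have hg : ∀ m, ∃ g : (ι → ℝ) → ℝ, m < N → ContDiff ℝ ∞ g ∧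
      ∀ y, pmF i₀ σ (b m) (update y i₀ (g y)) = y i₀ := fun m => by
    by_cases hm : m < N
    · exact (pm_inv i₀ hσ σ0 σ1 σi (hb m) (bpos m) (bper m) (bint m hm).1).imp fun g h _ => h
    · exact ⟨0, fun h => absurd h hm⟩
  choose g hg using hg
  have hf : ∀ y θ j, 0 < 1 - σ y + σ y * b j θ := fun y θ j => pm_f_pos (σ0 y) (σ1 y) (bpos j θ)
  refine ⟨fun m => if m < N then pmG i₀ (pmF i₀ σ (b m)) (pmK i₀ N π b σ τ W m) (g m) else id,
    fun m => ?_, fun m z i hi => ?_, fun m hm z h1 h2 => ?_, fun m hm z h1 h2 => ?_,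
    fun m hm z h1 h2 => ?_, fun m hm m' hm' z z' n n' a1 a2 a3 a4 a5 a6 a7 a8 hn he => ?_⟩
  · beta_reduce
    split_ifs with hm
    · exact pm_symp i₀ (pmF_smooth i₀ hσ (hb m)) (pmK_smooth i₀ N π hb hσ hτ hW m) (hg m hm).1
        (hg m hm).2
    · exact Symp.id
  · beta_reduce
    split_ifs
    · exact update_of_ne hi _ _
    · rfl
  · beta_reduce
    rw [if_pos hm]
    refine pm_flat hb hσ hτ hW σ0 σi τi Wi (hg m hm).2 h1 (IsLocalMin.fderiv_eq_zero
      (Filter.Eventually.of_forall fun y => h2.le.trans (τ0 y))) ?_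
    simp only [pmC, h2, zero_mul, add_zero]
    exact pm_count (π := id) (fun _ h => h) (fun _ _ _ _ h => h) hm
  · beta_reduce
    rw [if_pos hm]
    refine pm_flat hb hσ hτ hW σ0 σi τi Wi (hg m hm).2 h1 (IsLocalMax.fderiv_eq_zero
      (Filter.Eventually.of_forall fun y => (τ1 y).trans h2.ge)) ?_
    simp only [pmC, h2, one_mul, add_sub_cancel]
    exact pm_count hπ hinj (hπ m hm)
  · beta_reduce
    rw [if_pos hm, pm_base hb hσ hτ hW σi τi Wi]
    refine pm_range (hf _ _) ?_ (τ0 _) (τ1 _) hm h1 h2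
    rw [Finset.sum_add_distrib, ← Finset.mul_sum, bsum, Finset.sum_const, Finset.card_range,
      nsmul_eq_mul]
    ring
  · beta_reduce at he
    rw [if_pos hm, if_pos hm'] at he
    have hq : z'.1 = update z.1 i₀ (z'.1 i₀) := funext fun i => by
      by_cases hi : i = i₀
      · rw [hi, update_self]
      · rw [update_of_ne hi]
        exact (update_of_ne hi _ _).symm.trans ((congrFun he.1 i).symm.trans (update_of_ne hi _ _))
    have e1 : σ z'.1 = σ z.1 := by rw [hq, σi]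
    have e2 : τ z'.1 = τ z.1 := by rw [hq, τi]
    have e3 : W z'.1 = W z.1 := by rw [hq, Wi]
    obtain ⟨k, hk⟩ := he.2 i₀
    have hk' : pmE i₀ (g m') z' i₀ = pmE i₀ (g m) z i₀ + k := by
      simpa only [pmG, update_self] using hk
    have hbk : ∀ j θ, b j (θ + k) = b j θ := fun j θ => by
      simpa using Periodic.int_mul (f := b j) (bper j) k θ
    have h1 := congrFun he.1 i₀
    have h2 := pm_ang σi (hg m hm).2 z
    have h3 := pm_ang σi (hg m' hm').2 z'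
    rw [pm_base hb hσ hτ hW σi τi Wi, pm_base hb hσ hτ hW σi τi Wi, e1, e2, e3, hk'] at h1
    rw [e1, hk', pmD_per (hb m').continuous (bper m') (bint m' hm').1] at h3
    rw [e3] at a4
    simp only [hbk] at h1
    have hmm : m = m' := by
      by_contra hne
      rcases hor z.1 with h | h | h
      · simp only [pmC, h, zero_mul, add_zero] at h1
        rcases lt_or_gt_of_ne hne with h' | h'
        · exact (pm_lt (ρ := id) (hf _ _) hm h' a1 a2 a3).ne h1
        · exact (pm_lt (ρ := id) (hf _ _) hm' h' a3 a4 a1).ne' h1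
      · simp only [pmC, h, one_mul, add_sub_cancel] at h1
        rcases lt_or_gt_of_ne (fun e => hne (hinj m hm m' hm' e)) with h' | h'
        · exact (pm_lt (hf _ _) hm h' a1 a2 a3).ne h1
        · exact (pm_lt (hf _ _) hm' h' a3 a4 a1).ne' h1
      · rw [h, one_mul] at h2 h3
        have p1 := pmD_per (hb m).continuous (bper m) (bint m hm).1 (-n) (pmE i₀ (g m) z i₀)
        have p2 := pmD_per (hb m').continuous (bper m') (bint m' hm').1 (k - n')
          (pmE i₀ (g m) z i₀)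
        push_cast at p1 p2
        have q1 := pm_loc (hb m).continuous (bpos m) (bint m hm).1 (bint m hm).2.1 (bint m hm).2.2
          (a := pmE i₀ (g m) z i₀ + -n) (by linarith) (by linarith)
        have q2 := pm_loc (hb m').continuous (bpos m') (bint m' hm').1 (bint m' hm').2.1
          (bint m' hm').2.2 (a := pmE i₀ (g m) z i₀ + (k - n')) (by linarith) (by linarith)
        refine hne (pm_int hm hm' (k := k - n' + n) q1.1 q1.2 ?_ ?_) <;> push_cast <;>
          linarith [q2.1, q2.2]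
    subst hmm
    obtain rfl := hn rfl
    have k1 : k < 1 := by exact_mod_cast (show (k : ℝ) < 1 by linarith)
    have k2 : -1 < k := by exact_mod_cast (show (-1 : ℝ) < k by linarith)
    obtain rfl : k = 0 := by omega
    rw [Int.cast_zero, add_zero] at hk' h3
    have hζ : z.1 i₀ = z'.1 i₀ := mul_right_cancel₀ (hf _ _ _).ne' (add_right_cancel h1)
    have hq' : z'.1 = z.1 := by rw [hq, ← hζ, update_eq_self]
    have hE : pmE i₀ (g m) z' = pmE i₀ (g m) z := by rw [pmE, pmE, hq', ← h3, h2]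
    refine ⟨rfl, hq'.symm, fun i => ?_⟩
    by_cases hi : i = i₀
    · exact ⟨0, by rw [hi, ← h3, h2, Int.cast_zero, add_zero]⟩
    · obtain ⟨l, hl⟩ := he.2 i
      simp only [pmG, update_of_ne hi, hE, hq'] at hl
      exact ⟨l, by linarith⟩

end core

theorem exists_perm {κ : Type} [Fintype κ] [DecidableEq κ] {N : ℕ} (hN : 0 < N) (π : ℕ → ℕ)
    (hπ : ∀ m < N, π m < N) (hinj : ∀ m < N, ∀ m' < N, π m = π m' → m = m')
    {w x₀ : (κ → ℝ) → ℝ} (hw : ContDiff ℝ ∞ w) (hx : ContDiff ℝ ∞ x₀) {s κ₀ : ℝ} (hs : 0 < s)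
    (hκ : 0 < κ₀) : ∃ G, IsPerm N π w x₀ s κ₀ G := by
  have ht : ContDiff ℝ ∞ (tt : (Option (Option κ) → ℝ) → κ → ℝ) :=
    contDiff_pi.2 fun r => contDiff_apply ℝ ℝ (some (some r))
  obtain ⟨ξ, hξ⟩ : ∃ ξ : (Option (Option κ) → ℝ) → ℝ,
    ξ = fun y => 3 * ((y (some none) - x₀ (tt y)) / s) := ⟨_, rfl⟩
  have h1 : ContDiff ℝ ∞ ξ := hξ ▸ contDiff_const.mul
    (((contDiff_apply ℝ ℝ (some none)).sub (hx.comp ht)).div_const s)
  have h2 : ∀ y t, ξ (Function.update y none t) = ξ y := fun y t => by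
    rw [hξ]
    rfl
  have hT : ContDiff ℝ ∞ Real.smoothTransition := Real.smoothTransition.contDiff
  obtain ⟨G, g1, g2, g3, g4, g5, g6⟩ := pm_core (ι := Option (Option κ))
    (σ := fun y => Real.smoothTransition (ξ y) * Real.smoothTransition (3 - ξ y))
    (τ := fun y => Real.smoothTransition (ξ y - 1)) (W := fun y => w (tt y)) none hN hπ hinj hκ
    ((hT.comp h1).mul (hT.comp (contDiff_const.sub h1))) (hT.comp (h1.sub contDiff_const))
    (hw.comp ht)
    (fun y => mul_nonneg (Real.smoothTransition.nonneg _) (Real.smoothTransition.nonneg _))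
    (fun y => mul_le_one₀ (Real.smoothTransition.le_one _) (Real.smoothTransition.nonneg _)
      (Real.smoothTransition.le_one _)) (fun y => Real.smoothTransition.nonneg _)
    (fun y => Real.smoothTransition.le_one _) (fun y t => by rw [h2]) (fun y t => by rw [h2])
    (fun y t => rfl) fun y => by
      rcases le_total (ξ y) 1 with h | h
      · exact Or.inl (Real.smoothTransition.zero_of_nonpos (by linarith))
      rcases le_total 2 (ξ y) with h' | h'
      · exact Or.inr (Or.inl (Real.smoothTransition.one_of_one_le (by linarith)))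
      · refine Or.inr (Or.inr ?_)
        rw [Real.smoothTransition.one_of_one_le h,
          Real.smoothTransition.one_of_one_le (by linarith), mul_one]
  refine ⟨G, g1, fun m z => ⟨g2 m z _ (by simp), funext fun r => g2 m z _ (by simp)⟩,
    fun m hm z h => ?_, fun m hm z h => ?_, g5, g6⟩
  · have h3 : ξ z.1 ≤ 0 := by
      have := div_nonpos_of_nonpos_of_nonneg (sub_nonpos.2 h) hs.le
      rw [hξ]
      linarith
    refine g3 m hm z ?_ (Real.smoothTransition.zero_of_nonpos (by linarith))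
    rw [Real.smoothTransition.zero_of_nonpos h3, zero_mul]
  · have h3 : 3 ≤ ξ z.1 := by
      have := (one_le_div hs).2 (show s ≤ z.1 (some none) - x₀ (tt z.1) by linarith)
      rw [hξ]
      linarith
    refine g4 m hm z ?_ (Real.smoothTransition.one_of_one_le (by linarith))
    rw [Real.smoothTransition.zero_of_nonpos (x := 3 - ξ z.1) (by linarith), mul_zero]

theorem lanePerm_lt {lam m : ℕ} (hl : 1 ≤ lam) (hm : m < 2 * lam - 1) :
    lanePerm lam m < 2 * lam - 1 := by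
  unfold lanePerm
  split_ifs
  · have := Nat.mod_lt (m / 2 + 1) hl
    omega
  · exact hm

theorem lanePerm_inj {lam m m' : ℕ} (hl : 1 ≤ lam) (hm : m < 2 * lam - 1) (hm' : m' < 2 * lam - 1)
    (h : lanePerm lam m = lanePerm lam m') : m = m' := by
  have key : ∀ a, a < lam → (a + 1) % lam = a + 1 ∨ a + 1 = lam ∧ (a + 1) % lam = 0 := by
    intro a ha
    rcases Nat.lt_or_eq_of_le (Nat.succ_le_of_lt ha) with h | h
    · exact Or.inl (Nat.mod_eq_of_lt h)
    · exact Or.inr ⟨h, by rw [show a + 1 = lam from h, Nat.mod_self]⟩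
  have h1 := key (m / 2) (by omega)
  have h2 := key (m' / 2) (by omega)
  unfold lanePerm at h
  split_ifs at h <;> omega

end Vale.Agent.P209
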