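import Vale.Agent.P209.Basic

/-! Action-angle coordinates. Plan: explicit `HasFDerivAt` computations;
`Complex.exp_eq_exp_iff_exists_int`; `contDiffOn_descend`: near a point of the slit plane use
`Complex.arg` (smooth there: `arg = im ∘ log`), near a negative real point use
`arg z = arg (-z) ± π` and periodicity. -/

open scoped ContDiff Topology
open Set MeasureTheory

namespace Vale.Agent.P209

theorem norm_pol_aux (a θ : ℝ) : ‖pol a θ‖ = Real.sqrt (a / Real.pi) := by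
  unfold pol
  have h : (2 * Real.pi * θ * Complex.I : ℂ) = ((2 * Real.pi * θ : ℝ) : ℂ) * Complex.I := by
    push_cast; ring
  rw [norm_mul, h, Complex.norm_exp_ofReal_mul_I, mul_one, Complex.norm_real,
    Real.norm_of_nonneg (Real.sqrt_nonneg _)]

theorem norm_pol {a : ℝ} (ha : 0 ≤ a) (θ : ℝ) : Real.pi * ‖pol a θ‖ ^ 2 = a := by
  rw [norm_pol_aux, Real.sq_sqrt (div_nonneg ha Real.pi_pos.le)]
  field_simp

theorem pol_arg (z : ℂ) : pol (Real.pi * ‖z‖ ^ 2) (Complex.arg z / (2 * Real.pi)) = z := by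
  unfold pol
  have h1 : Real.sqrt (Real.pi * ‖z‖ ^ 2 / Real.pi) = ‖z‖ := by
    rw [mul_div_cancel_left₀ _ Real.pi_ne_zero, Real.sqrt_sq (norm_nonneg _)]
  have h2 : (2 * Real.pi * ((Complex.arg z / (2 * Real.pi) : ℝ) : ℂ) * Complex.I : ℂ) =
      (Complex.arg z : ℂ) * Complex.I := by
    have hp : (Real.pi : ℂ) ≠ 0 := by exact_mod_cast Real.pi_ne_zero
    push_cast
    field_simp
  rw [h1, h2]
  exact Complex.norm_mul_exp_arg_mul_I z

theorem pol_add_int (a θ : ℝ) (m : ℤ) : pol a (θ + m) = pol a θ := by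
  unfold pol
  have h : (2 * Real.pi * ((θ + m : ℝ) : ℂ) * Complex.I : ℂ) =
      2 * Real.pi * θ * Complex.I + m * (2 * Real.pi * Complex.I) := by
    push_cast; ring
  rw [h, Complex.exp_add, Complex.exp_int_mul_two_pi_mul_I, mul_one]

theorem pol_re (a θ : ℝ) :
    (pol a θ).re = Real.sqrt (a / Real.pi) * Real.cos (2 * Real.pi * θ) := by
  unfold pol
  have h : (2 * Real.pi * θ * Complex.I : ℂ) = ((2 * Real.pi * θ : ℝ) : ℂ) * Complex.I := by
    push_cast; ring
  rw [h, Complex.re_ofReal_mul, Complex.exp_ofReal_mul_I_re]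

theorem pol_inj {a a' θ θ' : ℝ} (ha : 0 < a) (ha' : 0 < a') (h : pol a θ = pol a' θ') :
    a = a' ∧ ∃ m : ℤ, θ' = θ + m := by
  have h1 : a = a' := by
    rw [← norm_pol ha.le θ, ← norm_pol ha'.le θ', h]
  subst h1
  refine ⟨rfl, ?_⟩
  unfold pol at h
  have hr : ((Real.sqrt (a / Real.pi) : ℝ) : ℂ) ≠ 0 := by
    exact_mod_cast (Real.sqrt_pos.2 (div_pos ha Real.pi_pos)).ne'
  have h2 := mul_left_cancel₀ hr h
  obtain ⟨m, hm⟩ := Complex.exp_eq_exp_iff_exists_int.1 h2.symm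
  refine ⟨m, ?_⟩
  have hp : (2 * Real.pi * Complex.I : ℂ) ≠ 0 := Complex.two_pi_I_ne_zero
  have h3 : (θ' : ℂ) = θ + m := by
    apply mul_left_cancel₀ hp
    linear_combination hm
  exact_mod_cast h3

theorem contDiffOn_pol : ContDiffOn ℝ ∞ (fun x : ℝ × ℝ => pol x.1 x.2) {x | 0 < x.1} := by
  intro x hx
  apply ContDiffAt.contDiffWithinAt
  have hx' : (0 : ℝ) < x.1 := hx
  have h1 : ContDiffAt ℝ ∞ (fun x : ℝ × ℝ => Real.sqrt (x.1 / Real.pi)) x :=
    ContDiffAt.sqrt (contDiffAt_fst.div_const _) (div_pos hx' Real.pi_pos).ne'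
  have h2 : ContDiffAt ℝ ∞ (fun x : ℝ × ℝ => ((Real.sqrt (x.1 / Real.pi) : ℝ) : ℂ)) x :=
    Complex.ofRealCLM.contDiff.contDiffAt.comp x h1
  have h3 : ContDiffAt ℝ ∞ (fun x : ℝ × ℝ => ((x.2 : ℝ) : ℂ)) x :=
    Complex.ofRealCLM.contDiff.contDiffAt.comp x contDiffAt_snd
  have h4 : ContDiffAt ℝ ∞
      (fun x : ℝ × ℝ => Complex.exp (2 * Real.pi * x.2 * Complex.I)) x :=
    ((contDiffAt_const.mul h3).mul contDiffAt_const).cexp
  exact h2.mul h4

theorem pol_fderiv (x : ℝ × ℝ) (hx : 0 < x.1) (u : ℝ × ℝ) :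
    fderiv ℝ (fun x : ℝ × ℝ => pol x.1 x.2) x u =
      (((u.1 / (2 * Real.pi * Real.sqrt (x.1 / Real.pi)) : ℝ) : ℂ) +
        ((2 * Real.pi * Real.sqrt (x.1 / Real.pi) * u.2 : ℝ) : ℂ) * Complex.I) *
        Complex.exp (2 * Real.pi * x.2 * Complex.I) := by
  have hq : x.1 / Real.pi ≠ 0 := (div_pos hx Real.pi_pos).ne'
  have hr : Real.sqrt (x.1 / Real.pi) ≠ 0 := (Real.sqrt_pos.2 (div_pos hx Real.pi_pos)).ne'
  have h0 : HasFDerivAt (fun x : ℝ × ℝ => x.1 / Real.pi)
      (Real.pi⁻¹ • ContinuousLinearMap.fst ℝ ℝ ℝ) x := by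
    have := (hasFDerivAt_fst (𝕜 := ℝ) (p := x)).const_mul Real.pi⁻¹
    refine this.congr_of_eventuallyEq (Filter.Eventually.of_forall fun y => ?_)
    simp [div_eq_inv_mul]
  have h1 := h0.sqrt hq
  have h2 := Complex.ofRealCLM.hasFDerivAt.comp x h1
  have h3 := Complex.ofRealCLM.hasFDerivAt.comp x (hasFDerivAt_snd (𝕜 := ℝ) (p := x))
  have h4 := ((h3.const_mul (2 * Real.pi : ℂ)).mul_const Complex.I).cexp
  have h5 := h2.mul h4
  have h6 : (fun x : ℝ × ℝ => pol x.1 x.2) =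
      ((Complex.ofRealCLM ∘ fun y : ℝ × ℝ => Real.sqrt (y.1 / Real.pi)) * fun y : ℝ × ℝ =>
        Complex.exp (2 * Real.pi * (Complex.ofRealCLM ∘ Prod.snd) y * Complex.I)) := by
    funext y
    simp [pol]
  rw [h6, h5.fderiv]
  have hrc : ((Real.sqrt (x.1 / Real.pi) : ℝ) : ℂ) ≠ 0 := by exact_mod_cast hr
  have hp : (Real.pi : ℂ) ≠ 0 := by exact_mod_cast Real.pi_ne_zero
  simp only [add_apply, smul_apply,
    ContinuousLinearMap.comp_apply, Function.comp_apply, Complex.ofRealCLM_apply, smul_eq_mul,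
    ContinuousLinearMap.coe_fst', ContinuousLinearMap.coe_snd']
  push_cast
  field_simp
  ring

theorem pol_pres (x : ℝ × ℝ) (hx : 0 < x.1) (u v : ℝ × ℝ) :
    (fderiv ℝ (fun x : ℝ × ℝ => pol x.1 x.2) x u).re *
        (fderiv ℝ (fun x : ℝ × ℝ => pol x.1 x.2) x v).im -
      (fderiv ℝ (fun x : ℝ × ℝ => pol x.1 x.2) x u).im *
        (fderiv ℝ (fun x : ℝ × ℝ => pol x.1 x.2) x v).re = u.1 * v.2 - u.2 * v.1 := by
  rw [pol_fderiv x hx, pol_fderiv x hx]
  have hr : Real.sqrt (x.1 / Real.pi) ≠ 0 := (Real.sqrt_pos.2 (div_pos hx Real.pi_pos)).ne'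
  have h : (2 * Real.pi * x.2 * Complex.I : ℂ) = ((2 * Real.pi * x.2 : ℝ) : ℂ) * Complex.I := by
    push_cast; ring
  rw [h]
  generalize Real.sqrt (x.1 / Real.pi) = r at hr
  generalize 2 * Real.pi * x.2 = t
  have hp := Real.pi_ne_zero
  simp only [Complex.mul_re, Complex.mul_im, Complex.add_re, Complex.add_im, Complex.ofReal_re,
    Complex.ofReal_im, Complex.I_re, Complex.I_im, Complex.exp_ofReal_mul_I_re,
    Complex.exp_ofReal_mul_I_im]
  have hc := Real.sin_sq_add_cos_sq t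
  field_simp
  linear_combination (u.1 * v.2 - u.2 * v.1) * 4 * Real.pi ^ 2 * r ^ 2 * hc

theorem contDiffAt_arg_slit {z : ℂ} (hz : z ∈ Complex.slitPlane) :
    ContDiffAt ℝ ∞ Complex.arg z := by
  have h1 : ContDiffAt ℝ ∞ Complex.log z :=
    (Complex.contDiffAt_log hz).restrict_scalars ℝ
  have h2 := Complex.imCLM.contDiff.contDiffAt.comp z h1
  have h3 : Complex.arg = Complex.imCLM ∘ Complex.log := by
    funext w
    simp [Complex.log_im]
  rw [h3]
  exact h2

/-- a smooth function of action and angle, periodic in the angle, is smooth on `ℂ \ 0`. -/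
theorem contDiffOn_descend {F : Type} [NormedAddCommGroup F] [NormedSpace ℝ F] (f : ℝ × ℝ → F)
    (hf : ContDiffOn ℝ ∞ f {x | 0 < x.1}) (hper : ∀ x : ℝ × ℝ, f (x.1, x.2 + 1) = f x) :
    ContDiffOn ℝ ∞ (fun z : ℂ => f (Real.pi * ‖z‖ ^ 2, Complex.arg z / (2 * Real.pi)))
      {z | z ≠ 0} := by
  intro z hz
  apply ContDiffAt.contDiffWithinAt
  have hz' : z ≠ 0 := hz
  have hn : ContDiffAt ℝ ∞ (fun z : ℂ => Real.pi * ‖z‖ ^ 2) z :=
    contDiffAt_const.mul (contDiff_norm_sq ℝ).contDiffAt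
  have hpos : 0 < Real.pi * ‖z‖ ^ 2 := mul_pos Real.pi_pos (pow_pos (norm_pos_iff.2 hz') 2)
  have hop : IsOpen {x : ℝ × ℝ | 0 < x.1} := isOpen_lt continuous_const continuous_fst
  rcases Complex.mem_slitPlane_or_neg_mem_slitPlane hz' with h | h
  · have h1 : ContDiffAt ℝ ∞
        (fun z : ℂ => (Real.pi * ‖z‖ ^ 2, Complex.arg z / (2 * Real.pi))) z :=
      hn.prodMk ((contDiffAt_arg_slit h).div_const _)
    exact (hf.contDiffAt (hop.mem_nhds hpos)).comp z h1
  · have h0 : ContDiffAt ℝ ∞ (fun z : ℂ => Complex.arg (-z)) z :=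
      (contDiffAt_arg_slit h).comp z contDiff_neg.contDiffAt
    have h1 : ContDiffAt ℝ ∞
        (fun z : ℂ => (Real.pi * ‖z‖ ^ 2, Complex.arg (-z) / (2 * Real.pi) + 1 / 2)) z :=
      hn.prodMk ((h0.div_const _).add contDiffAt_const)
    have h2 := (hf.contDiffAt (hop.mem_nhds hpos)).comp z h1
    refine h2.congr_of_eventuallyEq ?_
    filter_upwards [isOpen_ne.mem_nhds hz'] with w hw
    have hp := Real.pi_ne_zero
    have hcase : Complex.arg (-w) = Complex.arg w - Real.pi ∨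
        Complex.arg (-w) = Complex.arg w + Real.pi := by
      rw [Complex.arg_neg_eq_arg_sub_pi_iff, Complex.arg_neg_eq_arg_add_pi_iff]
      rcases lt_trichotomy w.im 0 with h1 | h1 | h1
      · exact Or.inr (Or.inl h1)
      · rcases lt_trichotomy w.re 0 with h2 | h2 | h2
        · exact Or.inl (Or.inr ⟨h1, h2⟩)
        · exact absurd (Complex.ext h2 h1) hw
        · exact Or.inr (Or.inr ⟨h1, h2⟩)
      · exact Or.inl (Or.inl h1)
    simp only [Function.comp_apply]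
    rcases hcase with h1 | h1
    · have : Complex.arg (-w) / (2 * Real.pi) + 1 / 2 = Complex.arg w / (2 * Real.pi) := by
        rw [h1]; field_simp; ring
      rw [this]
    · have : Complex.arg (-w) / (2 * Real.pi) + 1 / 2 = Complex.arg w / (2 * Real.pi) + 1 := by
        rw [h1]; field_simp; ring
      rw [this]
      exact (hper (Real.pi * ‖w‖ ^ 2, Complex.arg w / (2 * Real.pi))).symm

/-- the chart of the right half plane `w ↦ (π |w|² / 2, arg w / π + 1 / 2)`. -/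
theorem halfPlane_chart : ∃ c : ℂ → ℝ × ℝ, ContDiffOn ℝ ∞ c {w | 0 < w.re} ∧
    InjOn c {w | 0 < w.re} ∧
    (∀ w : ℂ, 0 < w.re → ∀ u v, (fderiv ℝ c w u).1 * (fderiv ℝ c w v).2 -
      (fderiv ℝ c w u).2 * (fderiv ℝ c w v).1 = u.re * v.im - u.im * v.re) ∧
    ∀ w : ℂ, 0 < w.re → (c w).1 = Real.pi * ‖w‖ ^ 2 / 2 ∧ 0 < (c w).2 ∧ (c w).2 < 1 := by
  have hp := Real.pi_ne_zero
  refine ⟨fun w => (Real.pi * ‖w‖ ^ 2 / 2, Complex.arg w / Real.pi + 1 / 2), ?_, ?_, ?_, ?_⟩
  · intro w hw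
    apply ContDiffAt.contDiffWithinAt
    have hs : w ∈ Complex.slitPlane := Or.inl hw
    exact ((contDiffAt_const.mul (contDiff_norm_sq ℝ).contDiffAt).div_const _).prodMk
      (((contDiffAt_arg_slit hs).div_const _).add contDiffAt_const)
  · intro w _ w' _ h
    have h1 : Real.pi * ‖w‖ ^ 2 / 2 = Real.pi * ‖w'‖ ^ 2 / 2 := congrArg Prod.fst h
    have h2 : Complex.arg w / Real.pi + 1 / 2 = Complex.arg w' / Real.pi + 1 / 2 :=
      congrArg Prod.snd h
    have h3 : ‖w‖ ^ 2 = ‖w'‖ ^ 2 := by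
      apply mul_left_cancel₀ hp
      linarith
    have h4 : ‖w‖ = ‖w'‖ := (pow_left_inj₀ (norm_nonneg _) (norm_nonneg _) two_ne_zero).1 h3
    have h5 : Complex.arg w = Complex.arg w' := by
      have h6 : Complex.arg w / Real.pi = Complex.arg w' / Real.pi := by linarith
      exact (div_left_inj' hp).1 h6
    exact Complex.ext_norm_arg h4 h5
  · intro w hw u v
    have hs : w ∈ Complex.slitPlane := Or.inl hw
    have hre := Complex.reCLM.hasFDerivAt (x := w)
    have him := Complex.imCLM.hasFDerivAt (x := w)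
    have h1 := ((hre.mul hre).add (him.mul him)).const_mul (Real.pi / 2)
    have h2 := (Complex.imCLM.hasFDerivAt.comp w
      (Complex.hasStrictFDerivAt_log_real hs).hasFDerivAt).const_mul Real.pi⁻¹
    have h3 := h1.prodMk (h2.add_const (1 / 2))
    have h4 : (fun w : ℂ => (Real.pi * ‖w‖ ^ 2 / 2, Complex.arg w / Real.pi + 1 / 2)) =
        fun w : ℂ => (Real.pi / 2 * (Complex.reCLM * Complex.reCLM +
          Complex.imCLM * Complex.imCLM : ℂ → ℝ) w,
          Real.pi⁻¹ * (Complex.imCLM ∘ Complex.log) w + 1 / 2) := by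
      funext y
      refine Prod.ext ?_ ?_
      · simp only [Pi.add_apply, Pi.mul_apply, Complex.reCLM_apply, Complex.imCLM_apply]
        rw [Complex.sq_norm, Complex.normSq_apply]
        ring
      · simp only [Function.comp_apply, Complex.imCLM_apply, Complex.log_im]
        ring
    rw [h4, h3.fderiv]
    have hn : w.re * w.re + w.im * w.im ≠ 0 := by
      have : 0 < w.re := hw
      nlinarith [mul_pos this this, mul_self_nonneg w.im]
    simp only [ContinuousLinearMap.prod_apply, smul_apply,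
      add_apply, ContinuousLinearMap.comp_apply, Complex.reCLM_apply,
      Complex.imCLM_apply, smul_eq_mul, one_apply_eq_self, Complex.mul_im,
      Complex.inv_re, Complex.inv_im, Complex.normSq_apply]
    field_simp
    ring
  · intro w hw
    have h1 : |Complex.arg w| < Real.pi / 2 := Complex.abs_arg_lt_pi_div_two_iff.2 (Or.inl hw)
    rw [abs_lt] at h1
    have hpp := Real.pi_pos
    refine ⟨rfl, ?_, ?_⟩
    · have : -(1 / 2) < Complex.arg w / Real.pi := by
        rw [lt_div_iff₀ hpp]; linarith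
      show 0 < Complex.arg w / Real.pi + 1 / 2
      linarith
    · have : Complex.arg w / Real.pi < 1 / 2 := by
        rw [div_lt_iff₀ hpp]; linarith
      show Complex.arg w / Real.pi + 1 / 2 < 1
      linarith

/-- the action-angle map to `ℂⁿ`. -/
noncomputable def polN {n : ℕ} (z : Ph (Fin n)) : Fin n → ℂ := fun i => pol (z.1 i) (z.2 i)

/-- the coordinate projection to one action-angle pair. -/
noncomputable def prj {n : ℕ} (i : Fin n) : Ph (Fin n) →L[ℝ] ℝ × ℝ :=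
  ((ContinuousLinearMap.proj i).comp (ContinuousLinearMap.fst ℝ (Fin n → ℝ) (Fin n → ℝ))).prod
    ((ContinuousLinearMap.proj i).comp (ContinuousLinearMap.snd ℝ (Fin n → ℝ) (Fin n → ℝ)))

theorem prj_apply {n : ℕ} (i : Fin n) (z : Ph (Fin n)) : prj i z = (z.1 i, z.2 i) := rfl

theorem contDiffOn_polN (n : ℕ) :
    ContDiffOn ℝ ∞ (polN (n := n)) (T {y | ∀ i, 0 < y i}) := by
  refine contDiffOn_pi.2 fun i => ?_
  exact contDiffOn_pol.comp (prj i).contDiff.contDiffOn (fun z hz => hz i)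

theorem polN_pres {n : ℕ} (z : Ph (Fin n)) (hz : ∀ i, 0 < z.1 i) (u v : Ph (Fin n)) :
    omega (fderiv ℝ polN z u) (fderiv ℝ polN z v) = om u v := by
  have hop : IsOpen {x : ℝ × ℝ | 0 < x.1} := isOpen_lt continuous_const continuous_fst
  have hd : ∀ i, HasFDerivAt (fun z : Ph (Fin n) => pol (z.1 i) (z.2 i))
      ((fderiv ℝ (fun x : ℝ × ℝ => pol x.1 x.2) (prj i z)).comp (prj i)) z := by
    intro i
    have h1 : DifferentiableAt ℝ (fun x : ℝ × ℝ => pol x.1 x.2) (prj i z) :=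
      (contDiffOn_pol.contDiffAt (hop.mem_nhds (hz i))).differentiableAt (by simp)
    exact h1.hasFDerivAt.comp z (prj i).hasFDerivAt
  have h2 : HasFDerivAt (polN (n := n)) (ContinuousLinearMap.pi fun i =>
      (fderiv ℝ (fun x : ℝ × ℝ => pol x.1 x.2) (prj i z)).comp (prj i)) z :=
    hasFDerivAt_pi.2 hd
  rw [h2.fderiv]
  unfold omega om
  refine Finset.sum_congr rfl fun i _ => ?_
  simp only [ContinuousLinearMap.pi_apply, ContinuousLinearMap.comp_apply]
  exact pol_pres (prj i z) (hz i) (prj i u) (prj i v)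

theorem polN_inj {n : ℕ} {z z' : Ph (Fin n)} (hz : ∀ i, 0 < z.1 i) (hz' : ∀ i, 0 < z'.1 i)
    (h : polN z = polN z') : LatEq z z' := by
  have h1 := fun i => pol_inj (hz i) (hz' i) (congrFun h i)
  exact ⟨funext fun i => (h1 i).1, fun i => (h1 i).2⟩

theorem polN_norm {n : ℕ} {z : Ph (Fin n)} (hz : ∀ i, 0 < z.1 i) :
    Real.pi * ∑ i, ‖polN z i‖ ^ 2 = ∑ i, z.1 i := by
  rw [Finset.mul_sum]
  exact Finset.sum_congr rfl fun i _ => norm_pol (hz i).le _

end Vale.Agent.P209
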