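import Vale.Agent.P209.Inv

/-! The map of the cylinder with generating function `S (a, s) = ∫₀ˢ r (a, ·)`,
`r (a, s) = a + γ a * (j s - 1)`, `ϑ = Θ (s, a) = s + γ' a * (J s - s)`, `J s = ∫ 0..s, j`.
Plan: `∂ₛ Θ = 1 - γ' + γ' j > 0`, `Θ (s + 1) = Θ s + 1`; invert with `exists_mono_inv`
(`U = univ`), `Tm (a, ϑ) = (r (a, s), s)` with `s = g ϑ a`. Jacobian: differentiate
`Θ (g ϑ a) a = ϑ`; note `∂ₐ r = ∂ₛ Θ`. Injectivity: `r (·, s)` is strictly increasing.
`exists_profile`: `j = m + c * (bump supported in (-1/4,1/4) + ℤ)`; e.g.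
`j = deriv (fun s => m * s + (1 - m) * N s)` with a staircase `N`, or build it from
`Real.smoothTransition` of `cos (2 π s) / η` normalised to integral one. -/

open scoped ContDiff Topology
open Set MeasureTheory

namespace Vale.Agent.P209

theorem exists_cylMap (γ j : ℝ → ℝ) (hγ : ContDiff ℝ ∞ γ) (hγ0 : ∀ a, 0 ≤ deriv γ a)
    (hγ1 : ∀ a, deriv γ a ≤ 1) (hj : ContDiff ℝ ∞ j) (hjp : ∀ s, 0 < j s)
    (hper : ∀ s, j (s + 1) = j s) (hint : ∫ s in (0 : ℝ)..1, j s = 1) :
    ∃ Tm : ℝ × ℝ → ℝ × ℝ, ContDiff ℝ ∞ Tm ∧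
      (∀ x u v, (fderiv ℝ Tm x u).1 * (fderiv ℝ Tm x v).2 -
        (fderiv ℝ Tm x u).2 * (fderiv ℝ Tm x v).1 = u.1 * v.2 - u.2 * v.1) ∧
      (∀ x : ℝ × ℝ, Tm (x.1, x.2 + 1) = ((Tm x).1, (Tm x).2 + 1)) ∧
      (∀ x : ℝ × ℝ, (Tm x).1 = x.1 + γ x.1 * (j (Tm x).2 - 1)) ∧
      (∀ x : ℝ × ℝ, γ x.1 = 0 → deriv γ x.1 = 0 → Tm x = x) ∧
      (∀ (x y : ℝ × ℝ) (m : ℤ), (Tm x).1 = (Tm y).1 → (Tm y).2 = (Tm x).2 + m →
        x.1 = y.1 ∧ y.2 = x.2 + m) := by
  obtain ⟨P, hPd, hP, hPp⟩ : ∃ P : ℝ → ℝ, (∀ s, HasDerivAt P (j s - 1) s) ∧ ContDiff ℝ ∞ P ∧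
      Function.Periodic P 1 := by
    have hd : ∀ s, HasDerivAt (fun s => (∫ y in (0 : ℝ)..s, j y) - s) (j s - 1) s := fun s =>
      (hj.continuous.integral_hasStrictDerivAt 0 s).hasDerivAt.sub (hasDerivAt_id' s)
    refine ⟨_, hd, contDiff_infty_iff_deriv.2 ⟨fun s => (hd s).differentiableAt, ?_⟩, fun s => ?_⟩
    · rw [funext fun s => (hd s).deriv]
      exact hj.sub contDiff_const
    · have h1 := Function.Periodic.intervalIntegral_add_eq hper s 0
      have h2 := intervalIntegral.integral_add_adjacent_intervals (μ := volume)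
        (hj.continuous.intervalIntegrable 0 s) (hj.continuous.intervalIntegrable s (s + 1))
      rw [zero_add, hint] at h1
      show _ - _ = _ - _
      linarith
  have hγ' : ContDiff ℝ ∞ (deriv γ) := (contDiff_infty_iff_deriv.1 hγ).2
  have hD : ∀ s a, 0 < 1 + deriv γ a * (j s - 1) := fun s a => by
    have := hγ0 a
    have := hγ1 a
    have := hjp s
    rcases le_total (j s) 1 with h | h <;> nlinarith
  obtain ⟨g, hg, h1, h2⟩ := exists_mono_inv isOpen_univ (fun s a => s + deriv γ a * P s)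
    (ContDiff.contDiffOn (by fun_prop)) (fun s a _ => by
      rw [((hasDerivAt_id' s).fun_add ((hPd s).const_mul _)).deriv]
      exact hD s a) (L := 1) (fun _ => 1) (fun _ _ => one_pos) fun s a _ => by
      rw [hPp s]
      ring
  rw [univ_prod_univ, contDiffOn_univ] at hg
  have hG : ContDiff ℝ ∞ fun x : ℝ × ℝ => g x.2 x.1 := hg.comp (contDiff_snd.prodMk contDiff_fst)
  have h3 : ∀ (x a : ℝ) (m : ℤ), g x a + m + deriv γ a * P (g x a + m) = x + m := fun x a m => by
    have h := hPp.int_mul m (g x a)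
    rw [mul_one] at h
    rw [h]
    linarith [h1 x a (mem_univ a)]
  refine ⟨fun x => (x.1 + γ x.1 * (j (g x.2 x.1) - 1), g x.2 x.1), by fun_prop, fun x u v => ?_,
    fun x => ?_, fun x => rfl, fun x h h' => ?_, fun x y m h h' => ?_⟩
  · have dG := (hG.differentiable (by simp) x).hasFDerivAt
    generalize fderiv ℝ (fun x : ℝ × ℝ => g x.2 x.1) x = G at dG
    have d0 : HasFDerivAt Prod.fst (ContinuousLinearMap.fst ℝ ℝ ℝ) x := hasFDerivAt_fst
    have d1 := (hγ.differentiable (by simp) x.1).hasDerivAt.comp_hasFDerivAt x d0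
    have d2 := (hγ'.differentiable (by simp) x.1).hasDerivAt.comp_hasFDerivAt x d0
    have d3 := (hj.differentiable (by simp) _).hasDerivAt.comp_hasFDerivAt x dG
    have d4 := (hPd _).comp_hasFDerivAt x dG
    have e1 := (dG.add (d2.mul d4)).unique
      (hasFDerivAt_snd.congr_of_eventuallyEq (.of_forall fun y => h1 y.2 y.1 (mem_univ _)))
    have e2 := ((d0.add (d1.mul (d3.sub_const 1))).prodMk dG).fderiv
    have hu := DFunLike.congr_fun e1 u
    have hv := DFunLike.congr_fun e1 v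
    rw [show fderiv ℝ (fun x => (x.1 + γ x.1 * (j (g x.2 x.1) - 1), g x.2 x.1)) x = _ from e2]
    simp only [ContinuousLinearMap.prod_apply, add_apply, smul_apply, smul_eq_mul,
      ContinuousLinearMap.coe_fst', ContinuousLinearMap.coe_snd', Function.comp_apply] at hu hv ⊢
    linear_combination u.1 * hv - v.1 * hu
  · have h := h2 (g x.2 x.1 + 1) x.1 (mem_univ _)
    have h' := h3 x.2 x.1 1
    rw [Int.cast_one] at h'
    simp only [h'] at h
    simp only [h, hper]
  · have h4 := h1 x.2 x.1 (mem_univ _)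
    simp only [h', zero_mul, add_zero] at h4
    simp only [h, h4, zero_mul, add_zero]
  · have h4 : j (g y.2 y.1) = j (g x.2 x.1) := by
      have h := Function.Periodic.int_mul hper m (g x.2 x.1)
      rwa [mul_one, ← show g y.2 y.1 = g x.2 x.1 + m from h'] at h
    have h5 : x.1 = y.1 := (strictMono_of_deriv_pos
      (f := fun a => a + γ a * (j (g x.2 x.1) - 1)) fun a => by
        rw [((hasDerivAt_id' a).fun_add
          ((hγ.differentiable (by simp) a).hasDerivAt.mul_const _)).deriv]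
        exact hD _ a).injective (Eq.trans h (by simp only [h4]))
    refine ⟨h5, ?_⟩
    rw [← h3 x.2 x.1 m, ← show g y.2 y.1 = g x.2 x.1 + m from h', h5]
    exact (h1 y.2 y.1 (mem_univ _)).symm


/-- angular profile concentrated on the directions pointing into the right half plane. -/
theorem exists_profile {η : ℝ} (hη : 0 < η) :
    ∃ j : ℝ → ℝ, ContDiff ℝ ∞ j ∧ (∀ s, 0 < j s) ∧ (∀ s, j (s + 1) = j s) ∧
      (∫ s in (0 : ℝ)..1, j s = 1) ∧ (∀ s, j s ≤ 2 + η) ∧
      ∀ s, Real.cos (2 * Real.pi * s) ≤ 0 → j s ≤ η := by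
  obtain ⟨m, h0, h1, h2⟩ : ∃ m : ℝ, 0 < m ∧ m ≤ η ∧ m ≤ 1 / 2 :=
    ⟨min η (1 / 2), lt_min hη (by norm_num), min_le_left _ _, min_le_right _ _⟩
  obtain ⟨w, hw⟩ : ∃ w : ℝ, w = (1 - m) / 4 := ⟨_, rfl⟩
  have hπ := Real.pi_pos
  have hκ : 0 < Real.cos (2 * Real.pi * w) :=
    Real.cos_pos_of_mem_Ioo ⟨by nlinarith, by nlinarith⟩
  obtain ⟨b, hb⟩ : ∃ b : ℝ → ℝ, b = fun s =>
    Real.smoothTransition (Real.cos (2 * Real.pi * s) / Real.cos (2 * Real.pi * w)) := ⟨_, rfl⟩
  have hs : ContDiff ℝ ∞ b := hb ▸ Real.smoothTransition.contDiff.comp (by fun_prop)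
  have hp : Function.Periodic b 1 := fun s => by
    simp only [hb, mul_add, mul_one, Real.cos_add_two_pi]
  have b0 : ∀ s, 0 ≤ b s := fun s => hb ▸ Real.smoothTransition.nonneg _
  have b1 : ∀ s, b s ≤ 1 := fun s => hb ▸ Real.smoothTransition.le_one _
  have hi := fun x y => hs.continuous.intervalIntegrable (μ := volume) x y
  have hI : 2 * w ≤ ∫ s in (0 : ℝ)..1, b s := by
    have e1 := hp.intervalIntegral_add_eq 0 (-w)
    have e2 := intervalIntegral.integral_add_adjacent_intervals (hi (-w) w) (hi w (-w + 1))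
    have e3 : ∫ s in (-w)..w, b s = ∫ _ in (-w)..w, (1 : ℝ) := by
      refine intervalIntegral.integral_congr fun s hs => ?_
      rw [uIcc_of_le (by linarith)] at hs
      rw [hb]
      refine Real.smoothTransition.one_of_one_le ((one_le_div hκ).2 ?_)
      rw [← Real.cos_abs (2 * Real.pi * s)]
      refine Real.cos_le_cos_of_nonneg_of_le_pi (abs_nonneg _) (by nlinarith) (abs_le.2 ?_)
      constructor <;> nlinarith [hs.1, hs.2]
    have e4 : 0 ≤ ∫ s in w..(-w + 1), b s :=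
      intervalIntegral.integral_nonneg (by linarith) fun s _ => b0 s
    rw [zero_add] at e1
    rw [intervalIntegral.integral_const, smul_eq_mul] at e3
    linarith
  generalize hI' : ∫ s in (0 : ℝ)..1, b s = I at hI
  have hI0 : 0 < I := by linarith
  have hc0 : 0 ≤ (1 - m) / I := div_nonneg (by linarith) hI0.le
  have hc : (1 - m) / I ≤ 2 := (div_le_iff₀ hI0).2 (by linarith)
  refine ⟨fun s => m + (1 - m) / I * b s, by fun_prop,
    fun s => add_pos_of_pos_of_nonneg h0 (mul_nonneg hc0 (b0 s)), fun s => by simp only [hp s], ?_,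
    fun s => by nlinarith [b0 s, b1 s], fun s h => ?_⟩
  · rw [intervalIntegral.integral_add intervalIntegrable_const ((hi 0 1).const_mul _),
      intervalIntegral.integral_const_mul, hI', div_mul_cancel₀ _ hI0.ne']
    simp
  · have h3 : b s = 0 := hb ▸ Real.smoothTransition.zero_of_nonpos
      (div_nonpos_of_nonpos_of_nonneg h hκ.le)
    simp only [h3, mul_zero, add_zero, h1]


end Vale.Agent.P209
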