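import Vale.Agent.P209.RectA
import Vale.Agent.P209.Polar
import Vale.Agent.P209.Ramp

/-! Nested embedding of discs in rectangles. Plan: choose `η, a₁` tiny, `j` from
`exists_profile`, `γ a = ramp a₁ (a - 2 a₁)` (zero with zero derivative for `a ≤ a₁`,
`0 ≤ a - γ a ≤ 2 a₁` for `a ≥ 0`), `Tm` from `exists_cylMap`. Put
`σ₁ z = pol (Tm (π |z|², arg z / 2π))`; it equals `z` for `π |z|² ≤ a₁` (`pol_arg`), is smooth
off `0` by `contDiffOn_descend`, and `σ₁ ∘ pol = pol ∘ Tm`, which gives the Jacobian identity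
(the derivative of `pol` is onto) and injectivity. The new action is
`r = (a - γ a) + γ a * j s ≤ 2 a₁ + (2 + η) a`, and `r ≤ 2 a₁ + η A` when `cos 2πs ≤ 0`, so
`σ₁ z + c` has positive real part for `c` slightly above `√((2 a₁ + η A) / π)`. Compose with
`halfPlane_chart`. -/

open scoped ContDiff Topology
open Set MeasureTheory

namespace Vale.Agent.P209

theorem rectB_onto (L : ℝ × ℝ →L[ℝ] ℂ)
    (h : ∀ u v, (L u).re * (L v).im - (L u).im * (L v).re = u.1 * v.2 - u.2 * v.1) :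
    Function.Surjective L := by
  have hi : Function.Injective (L : ℝ × ℝ →ₗ[ℝ] ℂ) := by
    rw [injective_iff_map_eq_zero]
    intro u hu
    have hu' : L u = 0 := hu
    have h1 := h u (1, 0)
    have h2 := h u (0, 1)
    rw [hu'] at h1 h2
    simp at h1 h2
    exact Prod.ext h2.symm h1
  exact (LinearMap.injective_iff_surjective_of_finrank_eq_finrank (by simp)).1 hi

theorem rectB_disc {η a₁ : ℝ} (hη : 0 < η) (ha₁ : 0 < a₁) :
    ∃ s : ℂ → ℂ, ContDiff ℝ ∞ s ∧ Function.Injective s ∧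
      (∀ z u v, (fderiv ℝ s z u).re * (fderiv ℝ s z v).im -
        (fderiv ℝ s z u).im * (fderiv ℝ s z v).re = u.re * v.im - u.im * v.re) ∧
      ∀ z, Real.pi * ‖s z‖ ^ 2 ≤ 2 * a₁ + (2 + η) * (Real.pi * ‖z‖ ^ 2) ∧
        ((s z).re < 0 → Real.pi * ‖s z‖ ^ 2 ≤ 2 * a₁ + η * (Real.pi * ‖z‖ ^ 2)) := by
  obtain ⟨j, hj, hjp, hper, hint, hj2, hjη⟩ := exists_profile hη
  let γ : ℝ → ℝ := fun a => ramp a₁ (a - 2 * a₁)
  have hγd : ∀ a, deriv γ a = rp a₁ (a - 2 * a₁) := fun a =>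
    ((hasDerivAt_ramp a₁ (a - 2 * a₁)).comp_sub_const a (2 * a₁)).deriv
  have hγ : ContDiff ℝ ∞ γ := (contDiff_ramp a₁).comp (contDiff_id.sub contDiff_const)
  obtain ⟨Tm, hT, hTJ, hTp, hT1, hT0, hTi⟩ := exists_cylMap γ j hγ
    (fun a => by rw [hγd]; exact rp_nonneg _ _) (fun a => by rw [hγd]; exact rp_le_one _ _)
    hj hjp hper hint
  have g0 : ∀ a, 0 ≤ γ a := fun a => (le_max_right _ _).trans (max_le_ramp ha₁ _)
  have g1 : ∀ a, a - 2 * a₁ ≤ γ a := fun a => (le_max_left _ _).trans (max_le_ramp ha₁ _)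
  have g2 : ∀ a, a ≤ a₁ → γ a = 0 := fun a ha => ramp_of_le ha₁ (by linarith)
  have g3 : ∀ a, 0 < a → γ a < a := by
    intro a ha
    rcases le_total a a₁ with h | h
    · rw [g2 a h]; exact ha
    · have := ramp_sub_ramp_le a₁ (x := -a₁) (y := a - 2 * a₁) (by linarith)
      rw [ramp_of_le ha₁ le_rfl] at this
      show ramp a₁ (a - 2 * a₁) < a
      linarith
  have g4 : ∀ a, 0 ≤ a → γ a ≤ a := by
    intro a ha
    rcases ha.eq_or_lt with h | h
    · rw [g2 a (by linarith)]; exact ha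
    · exact (g3 a h).le
  have hid : ∀ x : ℝ × ℝ, x.1 ≤ a₁ → Tm x = x := fun x hx =>
    hT0 x (g2 _ hx) (by rw [hγd]; exact rp_of_le ha₁ (by linarith))
  have hpos : ∀ x : ℝ × ℝ, 0 < x.1 → 0 < (Tm x).1 := by
    intro x hx
    have := mul_nonneg (g0 x.1) (hjp (Tm x).2).le
    have := g3 _ hx
    rw [hT1]
    linarith
  have hnn : ∀ x : ℝ × ℝ, 0 ≤ x.1 → 0 ≤ (Tm x).1 := by
    intro x hx
    have := mul_nonneg (g0 x.1) (hjp (Tm x).2).le
    have := g4 _ hx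
    rw [hT1]
    linarith
  have hub : ∀ (x : ℝ × ℝ) (c : ℝ), 0 ≤ x.1 → j (Tm x).2 ≤ c → (Tm x).1 ≤ 2 * a₁ + c * x.1 := by
    intro x c hx hc
    have h1 := mul_le_mul (g4 _ hx) hc (hjp _).le hx
    have := g1 x.1
    rw [hT1]
    linarith
  let P : ℝ × ℝ → ℂ := fun x => pol x.1 x.2
  let Q : ℂ → ℝ × ℝ := fun z => (Real.pi * ‖z‖ ^ 2, Complex.arg z / (2 * Real.pi))
  have hPQ : ∀ z, P (Q z) = z := pol_arg
  have hQ0 : ∀ z, 0 ≤ (Q z).1 := fun z => by positivity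
  have hQp : ∀ z, z ≠ 0 → 0 < (Q z).1 := fun z hz => by
    have := norm_pos_iff.2 hz
    positivity
  have hU : IsOpen {x : ℝ × ℝ | 0 < x.1} := isOpen_lt continuous_const continuous_fst
  have hf : ContDiffOn ℝ ∞ (fun x => P (Tm x)) {x | 0 < x.1} :=
    contDiffOn_pol.comp hT.contDiffOn hpos
  have hfp : ∀ x : ℝ × ℝ, P (Tm (x.1, x.2 + 1)) = P (Tm x) := fun x => by
    rw [hTp]
    simpa using pol_add_int (Tm x).1 (Tm x).2 1
  have hfz : ∀ (x : ℝ × ℝ) (m : ℤ), P (Tm (x.1, x.2 + m)) = P (Tm x) := fun x m => by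
    have h1 : Function.Periodic (fun t => P (Tm (x.1, t))) 1 := fun t => hfp (x.1, t)
    simpa using h1.int_mul m x.2
  let s : ℂ → ℂ := fun z => P (Tm (Q z))
  have hs0 : ∀ z, (Q z).1 ≤ a₁ → s z = z := fun z hz => by
    show P (Tm (Q z)) = z
    rw [hid _ hz, hPQ]
  have hev : s =ᶠ[𝓝 0] id := by
    have hc : Continuous fun z : ℂ => Real.pi * ‖z‖ ^ 2 := by fun_prop
    filter_upwards [hc.continuousAt (x := 0) |>.eventually (Iic_mem_nhds (a := a₁) (by simpa))]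
      with z hz
    exact hs0 z hz
  have hs : ContDiff ℝ ∞ s := by
    rw [contDiff_iff_contDiffAt]
    intro z
    by_cases hz : z = 0
    · subst hz
      exact contDiffAt_id.congr_of_eventuallyEq hev
    · exact (contDiffOn_descend _ hf hfp).contDiffAt (isOpen_ne.mem_nhds hz)
  have hn : ∀ z, Real.pi * ‖s z‖ ^ 2 = (Tm (Q z)).1 := fun z => norm_pol (hnn _ (hQ0 z)) _
  have hsz : ∀ z, s z = 0 → z = 0 := by
    intro z h
    by_contra hz
    have := hpos _ (hQp z hz)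
    rw [← hn, h] at this
    simp at this
  have hs00 : s 0 = 0 := hev.eq_of_nhds
  refine ⟨s, hs, fun z z' h => ?_, fun z u v => ?_, fun z => ⟨?_, fun h => ?_⟩⟩
  · by_cases hz : z = 0
    · rw [hz, hs00] at h
      rw [hz, hsz z' h.symm]
    · have hz' : z' ≠ 0 := fun e => hz (hsz z (by rw [h, e, hs00]))
      obtain ⟨e, m, hm⟩ := pol_inj (hpos _ (hQp z hz)) (hpos _ (hQp z' hz')) h
      obtain ⟨e1, e2⟩ := hTi _ _ m e hm
      rw [← hPQ z, ← hPQ z']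
      show pol _ _ = pol _ _
      rw [← e1, e2, pol_add_int]
  · by_cases hz : z = 0
    · rw [hz, hev.fderiv_eq, fderiv_id]
      rfl
    · have hx := hQp z hz
      have hP : ∀ x : ℝ × ℝ, 0 < x.1 → DifferentiableAt ℝ P x := fun x hx =>
        (contDiffOn_pol.contDiffAt (hU.mem_nhds hx)).differentiableAt (by simp)
      have he : s ∘ P =ᶠ[𝓝 (Q z)] P ∘ Tm := by
        filter_upwards [hU.mem_nhds hx] with x hx
        have h1 : (Q (P x)).1 = x.1 := norm_pol (le_of_lt hx) _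
        obtain ⟨-, m, hm⟩ := pol_inj hx (h1.symm ▸ hx) (hPQ (P x)).symm
        have h2 : Q (P x) = (x.1, x.2 + m) := Prod.ext h1 hm
        show P (Tm (Q (P x))) = P (Tm x)
        rw [h2, hfz]
      have h3 := he.fderiv_eq (𝕜 := ℝ)
      rw [fderiv_comp _ (hs.differentiable (by simp) _) (hP _ hx),
        fderiv_comp _ (hP _ (hpos _ hx)) (hT.differentiable (by simp) _), hPQ] at h3
      have h4 : ∀ y, fderiv ℝ s z (fderiv ℝ P (Q z) y) =
          fderiv ℝ P (Tm (Q z)) (fderiv ℝ Tm (Q z) y) := fun y => congrArg (fun L => L y) h3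
      obtain ⟨u, rfl⟩ := rectB_onto _ (pol_pres _ hx) u
      obtain ⟨v, rfl⟩ := rectB_onto _ (pol_pres _ hx) v
      rw [h4, h4, pol_pres _ (hpos _ hx), pol_pres _ hx, hTJ]
  · rw [hn]
    exact hub _ _ (hQ0 z) (hj2 _)
  · rw [hn]
    refine hub _ _ (hQ0 z) (hjη _ ?_)
    by_contra hc
    have h1 : (s z).re = _ := pol_re _ _
    have := mul_nonneg (Real.sqrt_nonneg ((Tm (Q z)).1 / Real.pi)) (not_le.1 hc).le
    linarith

theorem exists_rect {A ε : ℝ} (hA : 0 < A) (hε : 0 < ε) :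
    ∃ σ : ℂ → ℝ × ℝ, ContDiffOn ℝ ∞ σ {z | Real.pi * ‖z‖ ^ 2 < A} ∧
      InjOn σ {z | Real.pi * ‖z‖ ^ 2 < A} ∧
      (∀ z : ℂ, Real.pi * ‖z‖ ^ 2 < A → ∀ u v, (fderiv ℝ σ z u).1 * (fderiv ℝ σ z v).2 -
        (fderiv ℝ σ z u).2 * (fderiv ℝ σ z v).1 = u.re * v.im - u.im * v.re) ∧
      ∀ z : ℂ, Real.pi * ‖z‖ ^ 2 < A → 0 < (σ z).1 ∧ (σ z).1 < Real.pi * ‖z‖ ^ 2 + ε ∧
        0 < (σ z).2 ∧ (σ z).2 < 1 := by
  set ρ := 1 + ε + 2 * A with hρ
  have hρ1 : 1 ≤ ρ := by linarith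
  obtain ⟨c₀, hc0, hc1, hc2⟩ : ∃ c₀ : ℝ, 0 < c₀ ∧ c₀ ≤ 1 ∧ 8 * (ρ + 1) * c₀ ≤ ε :=
    ⟨min 1 (ε / (8 * (ρ + 1))), by positivity, min_le_left _ _, by
      rw [← le_div_iff₀' (by positivity)]; exact min_le_right _ _⟩
  obtain ⟨s, hs, hsi, hsJ, hsb⟩ := rectB_disc (η := c₀ ^ 2 / (2 * A)) (a₁ := c₀ ^ 2 / 4)
    (by positivity) (by positivity)
  obtain ⟨c, hc, hci, hcJ, hcb⟩ := halfPlane_chart
  have pi3 := Real.pi_gt_three
  have pi4 := Real.pi_lt_four
  have hηa : ∀ z : ℂ, Real.pi * ‖z‖ ^ 2 < A →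
      c₀ ^ 2 / (2 * A) * (Real.pi * ‖z‖ ^ 2) ≤ c₀ ^ 2 / 2 := fun z hz => by
    refine (mul_le_mul_of_nonneg_left hz.le (by positivity)).trans_eq ?_
    field_simp
  have hre : ∀ z : ℂ, Real.pi * ‖z‖ ^ 2 < A → 0 < (s z + c₀).re := by
    intro z hz
    rw [Complex.add_re, Complex.ofReal_re]
    rcases le_or_gt 0 (s z).re with h | h
    · linarith
    · have h1 := (hsb z).2 h
      have h2 := hηa z hz
      have h3 : ‖s z‖ ^ 2 < c₀ ^ 2 := by nlinarith [sq_nonneg ‖s z‖, pow_pos hc0 2]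
      have h4 := (Complex.abs_re_le_norm (s z)).trans_lt (lt_of_pow_lt_pow_left₀ 2 hc0.le h3)
      linarith [(abs_lt.1 h4).1]
  have hO : IsOpen {w : ℂ | 0 < w.re} := isOpen_lt continuous_const Complex.continuous_re
  refine ⟨fun z => c (s z + c₀), hc.comp (hs.add contDiff_const).contDiffOn hre,
    fun z hz z' hz' h => hsi (add_right_cancel (hci (hre z hz) (hre z' hz') h)),
    fun z hz u v => ?_, fun z hz => ?_⟩
  · have h1 : HasFDerivAt (fun z => c (s z + c₀))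
        ((fderiv ℝ c (s z + c₀)).comp (fderiv ℝ s z)) z :=
      ((hc.contDiffAt (hO.mem_nhds (hre z hz))).differentiableAt (by simp)).hasFDerivAt.comp z
        ((hs.differentiable (by simp) z).hasFDerivAt.add_const _)
    rw [h1.fderiv, ContinuousLinearMap.comp_apply, ContinuousLinearMap.comp_apply,
      hcJ _ (hre z hz), hsJ]
  · obtain ⟨e, h2, h3⟩ := hcb _ (hre z hz)
    refine ⟨?_, ?_, h2, h3⟩
    · have : s z + c₀ ≠ 0 := fun h => by simpa [h] using hre z hz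
      have := norm_pos_iff.2 this
      rw [e]
      positivity
    · have h4 := (hsb z).1
      have h5 := hηa z hz
      have h6 : c₀ ^ 2 ≤ c₀ := by nlinarith
      have h7 : ‖s z‖ ≤ ρ := by
        refine le_of_pow_le_pow_left₀ two_ne_zero (by linarith) ?_
        nlinarith [sq_nonneg ‖s z‖]
      have h8 : ‖s z + c₀‖ ≤ ‖s z‖ + c₀ := by
        refine (norm_add_le _ _).trans_eq ?_
        rw [Complex.norm_real, Real.norm_of_nonneg hc0.le]
      have h9 : ‖s z + c₀‖ ^ 2 ≤ (‖s z‖ + c₀) ^ 2 := pow_le_pow_left₀ (norm_nonneg _) h8 2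
      have h10 : ‖s z‖ * c₀ ≤ ρ * c₀ := mul_le_mul_of_nonneg_right h7 hc0.le
      have h11 : Real.pi * ‖s z + c₀‖ ^ 2 ≤ Real.pi * (‖s z‖ + c₀) ^ 2 :=
        mul_le_mul_of_nonneg_left h9 Real.pi_pos.le
      have h12 : Real.pi * (2 * (‖s z‖ * c₀) + c₀ ^ 2) ≤ 4 * (2 * (ρ * c₀) + c₀) :=
        mul_le_mul pi4.le (by linarith) (by positivity) (by norm_num)
      rw [e]
      nlinarith

end Vale.Agent.P209
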