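import Vale.Agent.P209.Basic

/-! Integral transvections, reindexing, and volume comparison slice by slice.
Plan: `temb_transv`: the linear map `(y, θ) ↦ (update y j (y j + c y i), update θ i (θ i - c θ j))`
on `U' = preimage of T B`. `temb_reindex`: `(y, θ) ↦ (y ∘ e.symm, θ ∘ e.symm)`.
`volume_le_of_slices`: `MeasureTheory.lmarginal` (`lintegral_le_of_lmarginal_le`,
`lmarginal_singleton`) applied to indicator functions. `volume_transv` from it (both ways,
translation invariance on slices). `volume_reindex`: `volume_measurePreserving_piCongrLeft`.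
`volume_option`: `measurePreserving_piOptionEquivProd`-type lemma plus Tonelli. -/

open scoped ContDiff Topology
open Set MeasureTheory

namespace Vale.Agent.P209

variable {ι κ : Type} [Fintype ι] [DecidableEq ι] [Fintype κ] [DecidableEq κ]

omit [DecidableEq ι] [DecidableEq κ] in
theorem slice_lin (L : Ph ι →ₗ[ℝ] Ph κ) (h1 : ∀ u v, om (L u) (L v) = om u v)
    (h2 : ∀ x y, LatEq (L x) (L y) → LatEq x y) {A : Set (ι → ℝ)} {B : Set (κ → ℝ)} (hB : IsOpen B)
    (h : ∀ z : Ph ι, z.1 ∈ A → (L z).1 ∈ B) : TEmb A B := by
  intro K _ hK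
  let L' := LinearMap.toContinuousLinearMap L
  refine ⟨L', L' ⁻¹' T B, ⟨(isOpen_T hB).preimage L'.continuous, L'.contDiff.contDiffOn,
    fun x _ u v => ?_⟩, fun z hz => h z (hK hz), fun z hz => hz, fun x _ y _ => h2 x y⟩
  rw [L'.fderiv]
  exact h1 u v

/-- the lifted transvection -/
def slice_L (i j : ι) (c : ℝ) : Ph ι →ₗ[ℝ] Ph ι where
  toFun z := (fun k => z.1 k + if k = j then c * z.1 i else 0,
    fun k => z.2 k - if k = i then c * z.2 j else 0)
  map_add' x y := by
    refine Prod.ext (funext fun k => ?_) (funext fun k => ?_) <;>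
      simp only [Prod.fst_add, Prod.snd_add, Pi.add_apply] <;> split_ifs <;> ring
  map_smul' a x := by
    refine Prod.ext (funext fun k => ?_) (funext fun k => ?_) <;>
      simp only [Prod.smul_fst, Prod.smul_snd, Pi.smul_apply, smul_eq_mul, RingHom.id_apply] <;>
      split_ifs <;> ring

theorem temb_transv {i j : ι} (hij : i ≠ j) (c : ℤ) {A B : Set (ι → ℝ)} (hB : IsOpen B)
    (h : ∀ y ∈ A, Function.update y j (y j + c * y i) ∈ B) : TEmb A B := by
  refine slice_lin (slice_L i j c) (fun u v => ?_) (fun x y hxy => ?_) hB fun z hz => ?_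
  · have e : ∀ k, ((slice_L i j c u).1 k * (slice_L i j c v).2 k -
        (slice_L i j c u).2 k * (slice_L i j c v).1 k) = (u.1 k * v.2 k - u.2 k * v.1 k) +
        ((if k = j then c * (u.1 i * v.2 j - u.2 j * v.1 i) else 0) -
          if k = i then c * (u.1 i * v.2 j - u.2 j * v.1 i) else 0) := by
      intro k
      show (u.1 k + if k = j then c * u.1 i else 0) * (v.2 k - if k = i then c * v.2 j else 0) -
        (u.2 k - if k = i then c * u.2 j else 0) * (v.1 k + if k = j then c * v.1 i else 0) = _
      by_cases h1 : k = j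
      · subst h1
        simp only [if_true, if_neg hij.symm]
        ring
      · by_cases h2 : k = i
        · subst h2
          simp only [if_true, if_neg h1]
          ring
        · simp only [if_neg h1, if_neg h2]
          ring
    simp only [om, e, Finset.sum_add_distrib]
    rw [Finset.sum_sub_distrib (fun k => if k = j then _ else _), Finset.sum_ite_eq',
      Finset.sum_ite_eq']
    simp
  · have a : ∀ k, x.1 k + (if k = j then c * x.1 i else 0) =
        y.1 k + if k = j then c * y.1 i else 0 := fun k => congrFun hxy.1 k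
    have b : ∀ k, ∃ m : ℤ, y.2 k - (if k = i then c * y.2 j else 0) =
        x.2 k - (if k = i then c * x.2 j else 0) + m := hxy.2
    have ai := a i
    rw [if_neg hij, if_neg hij, add_zero, add_zero] at ai
    refine ⟨funext fun k => ?_, fun k => ?_⟩
    · have := a k
      rw [ai] at this
      exact add_right_cancel this
    · obtain ⟨m, hm⟩ := b k
      obtain ⟨m', hm'⟩ := b j
      rw [if_neg hij.symm, if_neg hij.symm, sub_zero, sub_zero] at hm'
      by_cases hk : k = i
      · rw [if_pos hk, if_pos hk, hm'] at hm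
        exact ⟨m + c * m', by push_cast; linarith⟩
      · rw [if_neg hk, if_neg hk, sub_zero, sub_zero] at hm
        exact ⟨m, hm⟩
  · have e : (slice_L i j c z).1 = Function.update z.1 j (z.1 j + c * z.1 i) := by
      funext k
      show (z.1 k + if k = j then c * z.1 i else 0) = _
      by_cases hk : k = j
      · subst hk; simp
      · simp [hk]
    rw [e]
    exact h _ hz

theorem temb_reindex (e : ι ≃ κ) {A : Set (ι → ℝ)} {B : Set (κ → ℝ)} (hB : IsOpen B)
    (h : ∀ y ∈ A, (fun k => y (e.symm k)) ∈ B) : TEmb A B := by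
  let L : Ph ι →ₗ[ℝ] Ph κ := (LinearMap.funLeft ℝ ℝ e.symm).prodMap (LinearMap.funLeft ℝ ℝ e.symm)
  refine slice_lin L (fun u v => ?_) (fun x y hxy => ⟨funext fun k => ?_, fun k => ?_⟩) hB
    fun z hz => h _ hz
  · exact Equiv.sum_comp e.symm fun k => u.1 k * v.2 k - u.2 k * v.1 k
  · have a : x.1 (e.symm (e k)) = y.1 (e.symm (e k)) := congrFun hxy.1 (e k)
    rwa [e.symm_apply_apply] at a
  · have a : ∃ m : ℤ, y.2 (e.symm (e k)) = x.2 (e.symm (e k)) + m := hxy.2 (e k)
    rwa [e.symm_apply_apply] at a

theorem volume_le_of_slices (i₀ : ι) {S S' : Set (ι → ℝ)} (hS : MeasurableSet S)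
    (hS' : MeasurableSet S')
    (h : ∀ y, volume {t : ℝ | Function.update y i₀ t ∈ S} ≤
      volume {t : ℝ | Function.update y i₀ t ∈ S'}) : volume S ≤ volume S' := by
  have key : ∀ {S : Set (ι → ℝ)}, MeasurableSet S → ∀ y : ι → ℝ,
      ∫⁻ t : ℝ, S.indicator (1 : (ι → ℝ) → ENNReal) (Function.update y i₀ t) =
        volume {t : ℝ | Function.update y i₀ t ∈ S} := fun hS y =>
    lintegral_indicator_one ((measurable_update y) hS)
  rw [← lintegral_indicator_one hS, ← lintegral_indicator_one hS']
  refine lintegral_le_of_lmarginal_le {i₀} (measurable_one.indicator hS)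
    (measurable_one.indicator hS') fun y => ?_
  simp only [lmarginal_singleton]
  rw [key hS, key hS']
  exact h y

theorem volume_transv {i j : ι} (hij : i ≠ j) (c : ℝ) {S : Set (ι → ℝ)} (hS : MeasurableSet S) :
    volume {y | Function.update y j (y j + c * y i) ∈ S} = volume S := by
  have hm : Measurable fun y : ι → ℝ => Function.update y j (y j + c * y i) := by fun_prop
  have key : ∀ y : ι → ℝ, volume {t : ℝ | Function.update y j t ∈
      {y | Function.update y j (y j + c * y i) ∈ S}} =
      volume {t : ℝ | Function.update y j t ∈ S} := by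
    intro y
    rw [← measure_preimage_add_right volume (c * y i) {t : ℝ | Function.update y j t ∈ S}]
    congr 1
    ext t
    simp [Function.update_of_ne hij]
  exact le_antisymm (volume_le_of_slices j (hm hS) hS fun y => (key y).le)
    (volume_le_of_slices j hS (hm hS) fun y => (key y).ge)

theorem volume_reindex (e : ι ≃ κ) {S : Set (κ → ℝ)} (hS : MeasurableSet S) :
    volume {y : ι → ℝ | (fun k => y (e.symm k)) ∈ S} = volume S := by
  exact (volume_preserving_arrowCongr' e (MeasurableEquiv.refl ℝ)
    (MeasurePreserving.id _)).measure_preimage hS.nullMeasurableSet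

omit [DecidableEq κ] in
theorem slice_opt : MeasurePreserving (fun (p : (κ → ℝ) × ℝ) (o : Option κ) => Option.elim o p.2 p.1)
    ((volume : Measure (κ → ℝ)).prod volume) volume := by
  have e : (fun (p : (κ → ℝ) × ℝ) (o : Option κ) => Option.elim o p.2 p.1) =
      (MeasurableEquiv.piOptionEquivProd fun _ : Option κ => ℝ).symm := by
    funext p o
    cases o <;> rfl
  rw [e]
  exact ⟨MeasurableEquiv.measurable _, Measure.pi_map_piOptionEquivProd fun _ => volume⟩

/-- volume of the region between two graphs. -/
theorem volume_option {D : Set (κ → ℝ)} (hD : MeasurableSet D) {f g : (κ → ℝ) → ℝ}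
    (hf : Measurable f) (hg : Measurable g) :
    volume {z : Option κ → ℝ | bb z ∈ D ∧ f (bb z) < z none ∧ z none < g (bb z)} =
      ∫⁻ y in D, ENNReal.ofReal (g y - f y) := by
  have hb : Measurable (bb : (Option κ → ℝ) → κ → ℝ) :=
    measurable_pi_lambda _ fun r => measurable_pi_apply _
  have hS : MeasurableSet {z : Option κ → ℝ | bb z ∈ D ∧ f (bb z) < z none ∧ z none < g (bb z)} :=
    (hb hD).inter ((measurableSet_lt (hf.comp hb) (measurable_pi_apply _)).inter
      (measurableSet_lt (measurable_pi_apply _) (hg.comp hb)))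
  rw [← slice_opt.measure_preimage hS.nullMeasurableSet]
  exact volume_regionBetween_eq_lintegral' (μ := volume) hf hg hD

/-- Tonelli in the special coordinate. -/
theorem volume_option_slices {S : Set (Option κ → ℝ)} (hS : MeasurableSet S) :
    volume S = ∫⁻ x : ℝ, volume {y : κ → ℝ | (fun o => Option.elim o x y) ∈ S} := by
  rw [← slice_opt.measure_preimage hS.nullMeasurableSet,
    Measure.prod_apply_symm (slice_opt.measurable hS)]
  rfl

end Vale.Agent.P209
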