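import Vale.Agent.P209.TBasic
import Vale.Agent.P209.Slice

/-! The window has the volume of the polygons. Plan: `area_le`: with `c = h - κ`,
`η' = (λ - 1) η`, `ellW = 4λh - 8λu - (c - u)₊ - (u - κ)₊ - (u - κ - η')₊`; the polygon has area
`λ h² - c₊² / 2` and `∫₀ʷ ellW du` is at least that (cases `h ≤ 2κ`: `η = 0`, `w = h/2`;
`h > 2κ`: `3 w = h + κ + η'`, `κ + η' ≤ w ≤ c`); `volume_regionBetween_eq_lintegral`.
`volume_le_of_slices2`: Tonelli over the parameters (`lmarginal` over `{none, some none}`, or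
twice a measure preserving `Option`-equivalence). -/

open scoped ContDiff Topology
open Set MeasureTheory

namespace Vale.Agent.P209

theorem tarea_vol {κ : Type} [Fintype κ] [DecidableEq κ]
    {S : Set (Option (Option κ) → ℝ)} (hS : MeasurableSet S) :
    volume S = ∫⁻ t : κ → ℝ, volume {p : ℝ × ℝ | mk3 p.2 p.1 t ∈ S} := by
  have h1 := (slice_opt (κ := Option κ)).comp
    (((slice_opt (κ := κ)).prod (MeasurePreserving.id (volume : Measure ℝ))).comp
      (measurePreserving_prodAssoc (volume : Measure (κ → ℝ)) (volume : Measure ℝ)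
        (volume : Measure ℝ)).symm)
  rw [← h1.measure_preimage hS.nullMeasurableSet, Measure.prod_apply (h1.measurable hS)]
  refine lintegral_congr fun t => ?_
  have e : ∀ p : ℝ × ℝ, (((fun (p : (Option κ → ℝ) × ℝ) (o : Option (Option κ)) =>
      Option.elim o p.2 p.1) ∘ (Prod.map (fun (p : (κ → ℝ) × ℝ) (o : Option κ) =>
      Option.elim o p.2 p.1) id) ∘ (MeasurableEquiv.prodAssoc (α := κ → ℝ) (β := ℝ)
        (γ := ℝ)).symm) (t, p)) = mk3 p.2 p.1 t := by
    intro p
    funext o
    rcases o with _ | _ | r <;> rfl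
  have e2 : (Prod.mk t ⁻¹' (((fun (p : (Option κ → ℝ) × ℝ) (o : Option (Option κ)) =>
      Option.elim o p.2 p.1) ∘ (Prod.map (fun (p : (κ → ℝ) × ℝ) (o : Option κ) =>
      Option.elim o p.2 p.1) id) ∘ (MeasurableEquiv.prodAssoc (α := κ → ℝ) (β := ℝ)
        (γ := ℝ)).symm) ⁻¹' S)) = {p : ℝ × ℝ | mk3 p.2 p.1 t ∈ S} := by
    ext p
    simp only [mem_preimage, e p]
    rfl
  rw [e2]
  rfl

theorem volume_le_of_slices2 {κ : Type} [Fintype κ] [DecidableEq κ]
    {S S' : Set (Option (Option κ) → ℝ)} (hS : MeasurableSet S) (hS' : MeasurableSet S')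
    (h : ∀ t : κ → ℝ, volume {p : ℝ × ℝ | mk3 p.2 p.1 t ∈ S} ≤
      volume {p : ℝ × ℝ | mk3 p.2 p.1 t ∈ S'}) : volume S ≤ volume S' := by
  rw [tarea_vol hS, tarea_vol hS']
  exact lintegral_mono h

theorem tarea_reg {g : ℝ → ℝ} (hg : Continuous g) {w : ℝ} (hw : 0 ≤ w)
    (h0 : ∀ u ∈ Ioo 0 w, 0 ≤ g u) :
    volume {p : ℝ × ℝ | 0 < p.1 ∧ p.1 < w ∧ 0 < p.2 ∧ p.2 < g p.1} =
      ENNReal.ofReal (∫ u in (0 : ℝ)..w, g u) := by
  have e : {p : ℝ × ℝ | 0 < p.1 ∧ p.1 < w ∧ 0 < p.2 ∧ p.2 < g p.1} =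
      regionBetween (fun _ => 0) g (Ioo 0 w) := by
    ext p
    simp only [regionBetween, mem_Ioo, Set.mem_ofPred_eq, and_assoc]
  have hi : IntegrableOn g (Ioo 0 w) volume :=
    (hg.integrableOn_Icc (a := 0) (b := w)).mono_set Ioo_subset_Icc_self
  have hz : IntegrableOn (fun _ : ℝ => (0 : ℝ)) (Ioo 0 w) volume := integrableOn_zero
  rw [e, intervalIntegral.integral_of_le hw, integral_Ioc_eq_integral_Ioo]
  have := volume_regionBetween_eq_integral (μ := volume) hz hi measurableSet_Ioo h0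
  rw [show (volume : Measure (ℝ × ℝ)) = (volume : Measure ℝ).prod volume from rfl, this]
  congr 1
  refine integral_congr_ae (Filter.Eventually.of_forall fun u => ?_)
  simp

theorem tarea_reg_ge {g : ℝ → ℝ} (hg : Continuous g) {w : ℝ} (hw : 0 ≤ w) :
    ENNReal.ofReal (∫ u in (0 : ℝ)..w, g u) ≤
      volume {p : ℝ × ℝ | 0 < p.1 ∧ p.1 < w ∧ 0 < p.2 ∧ p.2 < g p.1} := by
  have hm : Continuous fun u => max (g u) 0 := hg.max continuous_const
  have e : {p : ℝ × ℝ | 0 < p.1 ∧ p.1 < w ∧ 0 < p.2 ∧ p.2 < g p.1} =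
      {p : ℝ × ℝ | 0 < p.1 ∧ p.1 < w ∧ 0 < p.2 ∧ p.2 < max (g p.1) 0} := by
    ext p
    simp only [Set.mem_ofPred_eq, lt_max_iff]
    constructor
    · rintro ⟨a, b, c, d⟩
      exact ⟨a, b, c, Or.inl d⟩
    · rintro ⟨a, b, c, d | d⟩
      · exact ⟨a, b, c, d⟩
      · exact absurd d (not_lt.2 c.le)
  rw [e, tarea_reg hm hw fun u _ => le_max_right _ _]
  exact ENNReal.ofReal_le_ofReal (intervalIntegral.integral_mono_on hw
    (hg.intervalIntegrable _ _) (hm.intervalIntegrable _ _) fun u _ => le_max_left _ _)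

theorem tarea_pos0 (y : ℝ) : ∫ u in (0 : ℝ)..y, max u 0 = (max y 0) ^ 2 / 2 := by
  rcases le_total 0 y with hy | hy
  · rw [intervalIntegral.integral_congr (g := fun u => u), integral_id, max_eq_left hy]
    · ring
    · intro u hu
      rw [uIcc_of_le hy] at hu
      exact max_eq_left hu.1
  · rw [intervalIntegral.integral_congr (g := fun _ => (0 : ℝ)), max_eq_right hy]
    · simp
    · intro u hu
      rw [uIcc_of_ge hy] at hu
      exact max_eq_right hu.2

theorem tarea_pos (a y : ℝ) :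
    ∫ u in (0 : ℝ)..y, max (u - a) 0 = ((max (y - a) 0) ^ 2 - (max (-a) 0) ^ 2) / 2 := by
  have hc : Continuous fun u : ℝ => max u 0 := continuous_id.max continuous_const
  rw [intervalIntegral.integral_comp_sub_right (fun u : ℝ => max u 0) a,
    ← intervalIntegral.integral_interval_sub_left (a := 0) (hc.intervalIntegrable _ _)
      (hc.intervalIntegrable _ _), tarea_pos0, tarea_pos0, zero_sub]
  ring

theorem tarea_min (a b : ℝ) : min a b = a - max (a - b) 0 := by
  rcases le_total a b with h | h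
  · rw [min_eq_left h, max_eq_right (by linarith)]; ring
  · rw [min_eq_right h, max_eq_left (by linarith)]; ring

theorem tarea_ellW (lam : ℕ) (h κ η u : ℝ) :
    ellW lam h ((h - η) / 2) (h + (lam - 1) * η) (h + (lam - 1) * η + κ) u =
      (4 * lam * h - (h - κ)) + (1 - 8 * lam) * u - max (u - (h - κ)) 0 - max (u - κ) 0 -
        max (u - (κ + (lam - 1) * η)) 0 := by
  unfold ellW
  rw [tarea_min (h - u), tarea_min (h + (lam - 1) * η - u), tarea_min (h + (lam - 1) * η + κ - u)]
  rw [show h - u - (h + ((lam : ℝ) - 1) * η + κ - 2 * u) = u - (κ + (lam - 1) * η) by ring,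
    show h + ((lam : ℝ) - 1) * η - u - (h + (lam - 1) * η + κ - 2 * u) = u - κ by ring,
    show h + ((lam : ℝ) - 1) * η + κ - u - (h + (h + (lam - 1) * η) - 2 * u) = u - (h - κ) by ring]
  ring

theorem tarea_int (A B a b c w : ℝ) :
    ∫ u in (0 : ℝ)..w, (A + B * u - max (u - a) 0 - max (u - b) 0 - max (u - c) 0) =
      A * w + B * (w ^ 2 / 2) - ((max (w - a) 0) ^ 2 - (max (-a) 0) ^ 2) / 2 -
        ((max (w - b) 0) ^ 2 - (max (-b) 0) ^ 2) / 2 -
        ((max (w - c) 0) ^ 2 - (max (-c) 0) ^ 2) / 2 := by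
  have hp : ∀ a : ℝ, Continuous fun u : ℝ => max (u - a) 0 := fun a => by fun_prop
  have h1 : Continuous fun u : ℝ => A + B * u := by fun_prop
  have h2 : Continuous fun u : ℝ => A + B * u - max (u - a) 0 := by fun_prop
  have h3 : Continuous fun u : ℝ => A + B * u - max (u - a) 0 - max (u - b) 0 := by fun_prop
  rw [intervalIntegral.integral_sub (h3.intervalIntegrable _ _) ((hp c).intervalIntegrable _ _),
    intervalIntegral.integral_sub (h2.intervalIntegrable _ _) ((hp b).intervalIntegrable _ _),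
    intervalIntegral.integral_sub (h1.intervalIntegrable _ _) ((hp a).intervalIntegrable _ _),
    intervalIntegral.integral_add (continuous_const.intervalIntegrable _ _)
      ((by fun_prop : Continuous fun u : ℝ => B * u).intervalIntegrable _ _),
    tarea_pos, tarea_pos, tarea_pos, intervalIntegral.integral_const_mul, integral_id,
    intervalIntegral.integral_const]
  simp only [smul_eq_mul]
  ring

theorem area_le {lam : ℕ} (hl : 1 ≤ lam) {h κ η : ℝ} (hκ : 0 ≤ κ)
    (hη : η = max (h - 2 * κ) 0 / (2 * lam + 1)) :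
    volume {p : ℝ × ℝ | 0 < p.1 ∧ p.1 < h ∧ 0 < p.2 ∧ p.2 < lam * h ∧ p.1 + p.2 < lam * h + κ} ≤
      volume {p : ℝ × ℝ | 0 < p.1 ∧ p.1 < (h - η) / 2 ∧ 0 < p.2 ∧
        p.2 < ellW lam h ((h - η) / 2) (h + (lam - 1) * η) (h + (lam - 1) * η + κ) p.1} := by
  have hl' : (1 : ℝ) ≤ lam := by exact_mod_cast hl
  rcases le_or_gt h 0 with hh0 | hh0
  · have : {p : ℝ × ℝ | 0 < p.1 ∧ p.1 < h ∧ 0 < p.2 ∧ p.2 < lam * h ∧ p.1 + p.2 < lam * h + κ} =
        ∅ := by
      refine eq_empty_of_forall_notMem ?_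
      rintro p ⟨a, b, -⟩
      linarith
    rw [this, measure_empty]
    exact zero_le
  have e1 : {p : ℝ × ℝ | 0 < p.1 ∧ p.1 < h ∧ 0 < p.2 ∧ p.2 < lam * h ∧ p.1 + p.2 < lam * h + κ} =
      {p : ℝ × ℝ | 0 < p.1 ∧ p.1 < h ∧ 0 < p.2 ∧ p.2 < lam * h - max (p.1 - κ) 0} := by
    ext p
    simp only [Set.mem_ofPred_eq]
    refine and_congr_right fun _ => and_congr_right fun _ => and_congr_right fun _ => ?_
    rw [lt_sub_comm, max_lt_iff]
    constructor
    · rintro ⟨a, b⟩
      constructor <;> linarith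
    · rintro ⟨a, b⟩
      constructor <;> linarith
  have hlh : h ≤ lam * h := by nlinarith
  have hp : Continuous fun u : ℝ => max (u - κ) 0 := by fun_prop
  rw [e1, tarea_reg (g := fun u => lam * h - max (u - κ) 0) (by fun_prop) hh0.le
    (fun u hu => by
      have : max (u - κ) 0 ≤ lam * h := max_le (by linarith [hu.2]) (by linarith)
      linarith)]
  have hd : (0 : ℝ) < 2 * lam + 1 := by linarith
  have hη0 : 0 ≤ η := hη ▸ div_nonneg (le_max_right _ _) hd.le
  have hη1 : (2 * lam + 1) * η = max (h - 2 * κ) 0 := by rw [hη]; field_simp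
  have hw : 0 ≤ (h - η) / 2 := by
    have : max (h - 2 * κ) 0 ≤ h := max_le (by linarith) hh0.le
    nlinarith
  refine le_trans (ENNReal.ofReal_le_ofReal ?_) (tarea_reg_ge (g := fun u =>
    ellW lam h ((h - η) / 2) (h + (lam - 1) * η) (h + (lam - 1) * η + κ) u)
    (by unfold ellW; fun_prop) hw)
  simp only [tarea_ellW]
  rw [tarea_int, intervalIntegral.integral_sub (continuous_const.intervalIntegrable _ _)
    (hp.intervalIntegrable _ _), tarea_pos, intervalIntegral.integral_const]
  have hη' : 0 ≤ ((lam : ℝ) - 1) * η := mul_nonneg (by linarith) hη0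
  rw [max_eq_right (show -κ ≤ 0 by linarith),
    max_eq_right (show -(κ + ((lam : ℝ) - 1) * η) ≤ 0 by linarith)]
  simp only [smul_eq_mul, sub_zero]
  rcases le_total h (2 * κ) with hc | hc
  · rw [max_eq_right (by linarith)] at hη1
    have h0 : η = 0 := by
      rcases mul_eq_zero.1 hη1 with h | h
      · exact absurd h hd.ne'
      · exact h
    subst h0
    rw [max_eq_left (show 0 ≤ (h - 0) / 2 - (h - κ) by linarith),
      max_eq_right (show (h - 0) / 2 - κ ≤ 0 by linarith),
      max_eq_right (show (h - 0) / 2 - (κ + ((lam : ℝ) - 1) * 0) ≤ 0 by linarith)]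
    rcases le_total h κ with h1 | h1
    · rw [max_eq_right (show h - κ ≤ 0 by linarith), max_eq_left (show 0 ≤ -(h - κ) by linarith)]
      apply le_of_eq
      ring
    · rw [max_eq_left (show 0 ≤ h - κ by linarith), max_eq_right (show -(h - κ) ≤ 0 by linarith)]
      apply le_of_eq
      ring
  · rw [max_eq_left (by linarith)] at hη1
    have hh' : h = 2 * κ + (2 * lam + 1) * η := by linarith
    have hlη : 0 ≤ (lam : ℝ) * η := mul_nonneg (by linarith) hη0
    rw [max_eq_left (show 0 ≤ h - κ by linarith), max_eq_right (show -(h - κ) ≤ 0 by linarith),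
      max_eq_right (show (h - η) / 2 - (h - κ) ≤ 0 by linarith),
      max_eq_left (show 0 ≤ (h - η) / 2 - κ by linarith),
      max_eq_left (show 0 ≤ (h - η) / 2 - (κ + ((lam : ℝ) - 1) * η) by linarith)]
    apply le_of_eq
    rw [hh']
    ring

theorem volume_Pgr_le (m : ℕ) (δ : ℝ) :
    volume (Pgr m δ) ≤ volume {z : Option (Fin (m + 2)) → ℝ | bb z ∈ WBase δ (gpT δ) ∧
      0 < z none ∧ z none < ellT δ (bb z)} := by
  have hb : Continuous (bb : (Option (Fin (m + 2)) → ℝ) → Fin (m + 2) → ℝ) :=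
    continuous_pi fun r => continuous_apply _
  have hW : IsOpen (WBase δ (gpT (m := m) δ)) := by
    unfold WBase
    refine IsOpen.inter ?_ (IsOpen.inter (isOpen_lt (continuous_apply _) continuous_const)
      (isOpen_lt continuous_const (continuous_gpT δ)))
    change IsOpen {y : Fin (m + 1 + 1) → ℝ | ∀ r, 0 < y r}
    rw [Set.ofPred_forall]
    exact isOpen_iInter_of_finite fun r => isOpen_lt continuous_const (continuous_apply r)
  have hT : IsOpen {z : Option (Fin (m + 2)) → ℝ | bb z ∈ WBase δ (gpT δ) ∧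
      0 < z none ∧ z none < ellT δ (bb z)} :=
    (hW.preimage hb).inter ((isOpen_lt continuous_const (continuous_apply _)).inter
      (isOpen_lt (continuous_apply _) ((continuous_ellT δ).comp hb)))
  let e : Option (Option (Fin (m + 1))) ≃ Option (Fin (m + 2)) :=
    (finSuccEquivLast.symm).optionCongr
  have hm : Measurable fun (y : Option (Option (Fin (m + 1))) → ℝ) (k : Option (Fin (m + 2))) =>
      y (e.symm k) := measurable_pi_lambda _ fun k => measurable_pi_apply _
  rw [← volume_reindex e hT.measurableSet]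
  refine volume_le_of_slices2 (isOpen_Pgr δ).measurableSet (hm hT.measurableSet) fun t => ?_
  have hbb : ∀ a b : ℝ, bb (fun k => mk3 a b t (e.symm k)) = Fin.snoc (α := fun _ => ℝ) t b := by
    intro a b
    funext r
    refine Fin.lastCases ?_ (fun r => ?_) r
    · simp [bb, e, mk3]
    · simp [bb, e, mk3]
  have hn : ∀ a b : ℝ, mk3 a b t (e.symm none) = a := fun a b => rfl
  by_cases ht : (∀ r, 0 < t r) ∧ t 0 < δ
  · have hk : 0 ≤ kk δ t := le_max_right _ _
    have := area_le (lam := 2 ^ m) Nat.one_le_two_pow (h := hh δ t) (κ := kk δ t) (η := eta δ t)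
      hk (by unfold eta; push_cast; rfl)
    refine le_trans (measure_mono ?_) (this.trans (measure_mono ?_))
    · rintro p ⟨h1, -, h3, h4, h5⟩
      refine ⟨h1 (some none), h3, h1 none, ?_, ?_⟩
      · push_cast
        exact h4
      · push_cast
        exact h5
    · rintro p ⟨h1, h2, h3, h4⟩
      simp only [Set.mem_ofPred_eq, hbb, hn]
      refine ⟨⟨fun r => ?_, ?_, ?_⟩, h3, ?_⟩
      · refine Fin.lastCases ?_ (fun r => ?_) r
        · simpa using h1
        · simpa using ht.1 r
      · have : (0 : Fin (m + 1 + 1)) = Fin.castSucc 0 := rfl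
        rw [this, Fin.snoc_castSucc]
        exact ht.2
      · unfold gpT ww
        rw [Fin.init_snoc, Fin.snoc_last]
        linarith
      · unfold ellT KK HH ww
        rw [Fin.init_snoc, Fin.snoc_last]
        push_cast at h4 ⊢
        exact h4
  · have : {p : ℝ × ℝ | mk3 p.2 p.1 t ∈ Pgr m δ} = ∅ := by
      refine eq_empty_of_forall_notMem ?_
      rintro p ⟨h1, h2, -⟩
      exact ht ⟨fun r => h1 (some (some r)), h2⟩
    rw [this, measure_empty]
    exact zero_le

end Vale.Agent.P209
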