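import Vale.Agent.P209.TDefs

/-! Continuity and elementary inequalities for the target data. Plan: `fun_prop` / induction on
`k`; `exc δ t k` depends only on `t r`, `r < k`; the inequalities by cases on the sign of
`hh - 2 kk`. -/

open scoped ContDiff Topology
open Set MeasureTheory

namespace Vale.Agent.P209

variable {m : ℕ}

theorem continuous_psum {d : ℕ} (l : ℕ) : Continuous (fun y : Fin d → ℝ => psum y l) := by
  unfold psum
  refine continuous_finsetSum _ fun r _ => ?_
  split_ifs
  · exact continuous_apply r
  · exact continuous_const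

theorem continuous_extd_TBasic (k : ℕ) : Continuous (fun t : Fin (m + 1) → ℝ => extd t k) := by
  unfold extd
  split_ifs
  · exact continuous_apply _
  · exact continuous_const

theorem continuous_exc (δ : ℝ) (k : ℕ) : Continuous (fun t : Fin (m + 1) → ℝ => exc δ t k) := by
  induction k with
  | zero => exact continuous_const
  | succ k ih =>
    have h := ih.add (continuous_extd_TBasic (m := m) k)
    exact h.add ((h.max continuous_const).mul continuous_const)

theorem exc_congr (δ : ℝ) {t t' : Fin (m + 1) → ℝ} (k : ℕ)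
    (h : ∀ r : Fin (m + 1), (r : ℕ) < k → t r = t' r) : exc δ t k = exc δ t' k := by
  induction k with
  | zero => rfl
  | succ k ih =>
    have h1 := ih fun r hr => h r (hr.trans (Nat.lt_succ_self k))
    have h2 : extd t k = extd t' k := by
      unfold extd
      split_ifs with hk
      · exact h ⟨k, hk⟩ (Nat.lt_succ_self k)
      · rfl
    simp only [exc, h1, h2]

theorem psum_congr {d : ℕ} {t t' : Fin d → ℝ} (k : ℕ)
    (h : ∀ r : Fin d, (r : ℕ) < k → t r = t' r) : psum t k = psum t' k := by
  unfold psum
  refine Finset.sum_congr rfl fun r _ => ?_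
  split_ifs with hr
  · exact h r hr
  · rfl

theorem psum_zero {d : ℕ} (t : Fin d → ℝ) : psum t 0 = 0 := by
  simp [psum]

theorem psum_succ (t : Fin (m + 1) → ℝ) (k : ℕ) : psum t (k + 1) = psum t k + extd t k := by
  have h : extd t k = ∑ r : Fin (m + 1), if (r : ℕ) = k then t r else 0 := by
    unfold extd
    split_ifs with hk
    · rw [Finset.sum_eq_single (⟨k, hk⟩ : Fin (m + 1))]
      · simp
      · intro b _ hb
        rw [if_neg]
        intro hb'
        exact hb (Fin.ext hb')
      · simp
    · symm
      refine Finset.sum_eq_zero fun r _ => ?_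
      rw [if_neg]
      intro hr
      exact hk (hr ▸ r.2)
  rw [h]
  unfold psum
  rw [← Finset.sum_add_distrib]
  refine Finset.sum_congr rfl fun r _ => ?_
  rcases lt_trichotomy (r : ℕ) k with hr | hr | hr
  · rw [if_pos (by omega), if_pos hr, if_neg (by omega), add_zero]
  · rw [if_pos (by omega), if_neg (by omega), if_pos hr, zero_add]
  · rw [if_neg (by omega), if_neg (by omega), if_neg (by omega), add_zero]

theorem psum_of_le {d : ℕ} (t : Fin d → ℝ) {k : ℕ} (h : d ≤ k) : psum t k = ∑ r, t r := by
  unfold psum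
  exact Finset.sum_congr rfl fun r _ => if_pos (r.2.trans_le h)

theorem continuous_xx (δ : ℝ) : Continuous (xx (m := m) δ) :=
  (continuous_exc δ m).add (continuous_apply _)

theorem continuous_hh (δ : ℝ) : Continuous (hh (m := m) δ) := by
  have := continuous_xx (m := m) δ
  unfold hh
  fun_prop

theorem continuous_kk (δ : ℝ) : Continuous (kk (m := m) δ) := by
  have := continuous_xx (m := m) δ
  unfold kk
  fun_prop

theorem continuous_eta_TBasic (δ : ℝ) : Continuous (eta (m := m) δ) := by
  have := continuous_hh (m := m) δ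
  have := continuous_kk (m := m) δ
  unfold eta
  fun_prop

theorem continuous_ww (δ : ℝ) : Continuous (ww (m := m) δ) := by
  have := continuous_hh (m := m) δ
  have := continuous_eta_TBasic (m := m) δ
  unfold ww
  fun_prop

theorem continuous_HH (δ : ℝ) : Continuous (HH (m := m) δ) := by
  have := continuous_hh (m := m) δ
  have := continuous_eta_TBasic (m := m) δ
  unfold HH
  fun_prop

theorem continuous_KK (δ : ℝ) : Continuous (KK (m := m) δ) :=
  (continuous_HH δ).add (continuous_kk δ)

theorem continuous_init_TBasic :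
    Continuous (fun y : Fin (m + 2) → ℝ => (Fin.init y : Fin (m + 1) → ℝ)) :=
  continuous_pi fun _ => continuous_apply _

theorem continuous_ellT (δ : ℝ) : Continuous (ellT (m := m) δ) := by
  have h1 := (continuous_hh (m := m) δ).comp continuous_init_TBasic
  have h2 := (continuous_ww (m := m) δ).comp continuous_init_TBasic
  have h3 := (continuous_HH (m := m) δ).comp continuous_init_TBasic
  have h4 := (continuous_KK (m := m) δ).comp continuous_init_TBasic
  have h5 : Continuous (fun y : Fin (m + 2) → ℝ => y (Fin.last (m + 1))) := continuous_apply _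
  have hK := h4.sub (h5.const_mul 2)
  exact (((((((h1.const_mul 2).add (h2.const_mul 4)).sub (h5.const_mul 8)).const_mul _).add
    ((h1.sub h5).min hK)).add ((h3.sub h5).min hK)).add
    ((h4.sub h5).min ((h1.add h3).sub (h5.const_mul 2)))).sub (h5.const_mul 4)

theorem continuous_gpT (δ : ℝ) : Continuous (gpT (m := m) δ) :=
  ((continuous_ww (m := m) δ).comp continuous_init_TBasic).sub (continuous_apply _)

theorem continuous_tt_TBasic :
    Continuous (fun y : Option (Option (Fin (m + 1))) → ℝ => tt y) :=
  continuous_pi fun _ => continuous_apply _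

theorem isOpen_pos_TBasic : IsOpen {y : Option (Option (Fin (m + 1))) → ℝ | ∀ i, 0 < y i} := by
  rw [Set.ofPred_forall]
  exact isOpen_iInter_of_finite fun i => isOpen_lt continuous_const (continuous_apply i)

theorem isOpen_PK (δ : ℝ) (k : ℕ) : IsOpen (PK m δ k) := by
  have ht := continuous_tt_TBasic (m := m)
  have h0 : Continuous (fun y : Option (Option (Fin (m + 1))) → ℝ => tt y 0) :=
    (continuous_apply 0).comp ht
  have hs : Continuous (fun y : Option (Option (Fin (m + 1))) → ℝ => ∑ r, tt y r) :=
    continuous_finsetSum _ fun r _ => (continuous_apply r).comp ht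
  have hp : Continuous (fun y : Option (Option (Fin (m + 1))) → ℝ => psum (tt y) k) :=
    (continuous_psum k).comp ht
  have he : Continuous (fun y : Option (Option (Fin (m + 1))) → ℝ => exc δ (tt y) k) :=
    (continuous_exc δ k).comp ht
  have ha : Continuous (fun y : Option (Option (Fin (m + 1))) → ℝ => y none) := continuous_apply _
  have hb : Continuous (fun y : Option (Option (Fin (m + 1))) → ℝ => y (some none)) :=
    continuous_apply _
  have hq : Continuous (fun y : Option (Option (Fin (m + 1))) → ℝ => 1 - 2 * psum (tt y) k) :=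
    continuous_const.sub (hp.const_mul 2)
  have h1 : IsOpen {y : Option (Option (Fin (m + 1))) → ℝ | 0 < k → tt y 0 < δ} := by
    by_cases hk : 0 < k
    · simpa [hk] using isOpen_lt h0 continuous_const
    · simp [hk]
  exact isOpen_pos_TBasic.inter (h1.inter
    ((isOpen_lt (((hs.sub hp).add hb).add (ha.div_const _)) hq).inter
      (isOpen_lt (hq.add he) (((hs.sub hp).add hb).add ha))))

theorem isOpen_Pfin (δ : ℝ) : IsOpen (Pfin m δ) := by
  have ht := continuous_tt_TBasic (m := m)
  have h0 : Continuous (fun y : Option (Option (Fin (m + 1))) → ℝ => tt y 0) :=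
    (continuous_apply 0).comp ht
  have hs : Continuous (fun y : Option (Option (Fin (m + 1))) → ℝ => ∑ r, tt y r) :=
    continuous_finsetSum _ fun r _ => (continuous_apply r).comp ht
  have hp : Continuous (fun y : Option (Option (Fin (m + 1))) → ℝ => hh δ (tt y)) :=
    (continuous_hh δ).comp ht
  have he : Continuous (fun y : Option (Option (Fin (m + 1))) → ℝ => xx δ (tt y)) :=
    (continuous_xx δ).comp ht
  have ha : Continuous (fun y : Option (Option (Fin (m + 1))) → ℝ => y none) := continuous_apply _
  have hb : Continuous (fun y : Option (Option (Fin (m + 1))) → ℝ => y (some none)) :=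
    continuous_apply _
  have hq : Continuous (fun y : Option (Option (Fin (m + 1))) → ℝ => 1 - 2 * ∑ r, tt y r) :=
    continuous_const.sub (hs.const_mul 2)
  exact isOpen_pos_TBasic.inter ((isOpen_lt h0 continuous_const).inter ((isOpen_lt hb hp).inter
    ((isOpen_lt ha (hq.const_mul _)).inter (isOpen_lt (hq.add he) (hb.add ha)))))

theorem isOpen_Pgr (δ : ℝ) : IsOpen (Pgr m δ) := by
  have ht := continuous_tt_TBasic (m := m)
  have h0 : Continuous (fun y : Option (Option (Fin (m + 1))) → ℝ => tt y 0) :=
    (continuous_apply 0).comp ht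
  have hp : Continuous (fun y : Option (Option (Fin (m + 1))) → ℝ => hh δ (tt y)) :=
    (continuous_hh δ).comp ht
  have he : Continuous (fun y : Option (Option (Fin (m + 1))) → ℝ => kk δ (tt y)) :=
    (continuous_kk δ).comp ht
  have ha : Continuous (fun y : Option (Option (Fin (m + 1))) → ℝ => y none) := continuous_apply _
  have hb : Continuous (fun y : Option (Option (Fin (m + 1))) → ℝ => y (some none)) :=
    continuous_apply _
  exact isOpen_pos_TBasic.inter ((isOpen_lt h0 continuous_const).inter ((isOpen_lt hb hp).inter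
    ((isOpen_lt ha (hp.const_mul _)).inter (isOpen_lt (hb.add ha) ((hp.const_mul _).add he)))))

theorem eta_facts_TBasic (δ : ℝ) (t : Fin (m + 1) → ℝ) :
    0 ≤ kk δ t ∧ 0 ≤ eta δ t ∧ (2 * 2 ^ m + 1) * eta δ t = max (hh δ t - 2 * kk δ t) 0 := by
  have h : (0 : ℝ) < 2 * 2 ^ m + 1 := by positivity
  refine ⟨le_max_right _ _, div_nonneg (le_max_right _ _) h.le, ?_⟩
  unfold eta
  field_simp

theorem ww_pos_iff (δ : ℝ) (t : Fin (m + 1) → ℝ) : 0 < ww δ t ↔ 0 < hh δ t := by
  obtain ⟨h1, h2, h3⟩ := eta_facts_TBasic δ t
  have h4 : (1 : ℝ) ≤ 2 ^ m := one_le_pow₀ (by norm_num)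
  unfold ww
  constructor
  · intro h
    linarith
  · intro h
    have h5 : max (hh δ t - 2 * kk δ t) 0 ≤ hh δ t := max_le (by linarith) h.le
    nlinarith [mul_nonneg (sub_nonneg.2 h4) h2]

theorem piece_ineq (δ : ℝ) (t : Fin (m + 1) → ℝ) :
    2 * ww δ t ≤ hh δ t ∧ hh δ t ≤ HH δ t ∧ HH δ t ≤ KK δ t ∧ 3 * ww δ t ≤ KK δ t ∧
      2 * ((2 : ℝ) ^ m - 1) * ww δ t + HH δ t = 2 ^ m * hh δ t := by
  obtain ⟨h1, h2, h3⟩ := eta_facts_TBasic δ t
  have h4 : (1 : ℝ) ≤ 2 ^ m := one_le_pow₀ (by norm_num)
  have h5 := le_max_left (hh δ t - 2 * kk δ t) 0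
  have h6 := mul_nonneg (sub_nonneg.2 h4) h2
  unfold KK HH ww
  refine ⟨by linarith, by linarith, by linarith, by nlinarith, by ring⟩

theorem PK_zero (δ : ℝ) :
    PK m δ 0 = {y | (∀ i, 0 < y i) ∧ 1 - δ < ∑ i, y i ∧ ∑ i, y i < 1} := by
  ext y
  simp only [PK, Set.mem_ofPred_eq, psum_zero, exc, Fintype.sum_option, tt, lt_irrefl, false_imp_iff,
    true_and, pow_zero, div_one]
  constructor
  · rintro ⟨h1, h2, h3⟩
    exact ⟨h1, by linarith, by linarith⟩
  · rintro ⟨h1, h2, h3⟩
    exact ⟨h1, by linarith, by linarith⟩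

end Vale.Agent.P209
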