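import Vale.Agent.P209.Game

/-! The target: polytopes obtained from the shell `{1 - δ < |y| < 1}` by shakes.
Coordinates: `none` = long coordinate, `some none` = second special coordinate,
`some (some r)` = parameters `t r`, `r : Fin (m + 1)`; the dimension is `n = m + 3`. -/

open scoped ContDiff Topology
open Set MeasureTheory

namespace Vale.Agent.P209

variable {m : ℕ}

def extd (t : Fin (m + 1) → ℝ) (r : ℕ) : ℝ := if h : r < m + 1 then t ⟨r, h⟩ else 0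

/-- excess of the removed ball over the height after `k` doublings (for `k = 0` the factor
`2 ^ 0 / (2 ^ 0 - 1)` is zero by the convention for division by zero). -/
noncomputable def exc (δ : ℝ) (t : Fin (m + 1) → ℝ) : ℕ → ℝ
  | 0 => -δ
  | k + 1 => (exc δ t k + extd t k) + max (exc δ t k + extd t k) 0 * (2 ^ k / (2 ^ k - 1))

noncomputable def xx (δ : ℝ) (t : Fin (m + 1) → ℝ) : ℝ := exc δ t m + t (Fin.last m)

noncomputable def hh (δ : ℝ) (t : Fin (m + 1) → ℝ) : ℝ :=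
  1 - 2 * ∑ r, t r - max (xx δ t) 0 / (2 ^ m - 1)

noncomputable def kk (δ : ℝ) (t : Fin (m + 1) → ℝ) : ℝ := max (-xx δ t) 0

noncomputable def eta (δ : ℝ) (t : Fin (m + 1) → ℝ) : ℝ :=
  max (hh δ t - 2 * kk δ t) 0 / (2 * 2 ^ m + 1)

noncomputable def ww (δ : ℝ) (t : Fin (m + 1) → ℝ) : ℝ := (hh δ t - eta δ t) / 2

noncomputable def HH (δ : ℝ) (t : Fin (m + 1) → ℝ) : ℝ := hh δ t + (2 ^ m - 1) * eta δ t

noncomputable def KK (δ : ℝ) (t : Fin (m + 1) → ℝ) : ℝ := HH δ t + kk δ t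

/-- stage `k` polytope: ellipsoid `E(1, …, 1, 2 ^ k)` of height `1 - 2 (t₀ + … + t_{k-1})` minus
a ball, over the parameters `t₀, …, t_{k-1}`. -/
def PK (m : ℕ) (δ : ℝ) (k : ℕ) : Set (Option (Option (Fin (m + 1))) → ℝ) :=
  {y | (∀ i, 0 < y i) ∧ (0 < k → tt y 0 < δ) ∧
    (∑ r, tt y r - psum (tt y) k) + y (some none) + y none / 2 ^ k < 1 - 2 * psum (tt y) k ∧
    1 - 2 * psum (tt y) k + exc δ (tt y) k <
      (∑ r, tt y r - psum (tt y) k) + y (some none) + y none}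

def Pfin (m : ℕ) (δ : ℝ) : Set (Option (Option (Fin (m + 1))) → ℝ) :=
  {y | (∀ i, 0 < y i) ∧ tt y 0 < δ ∧ y (some none) < hh δ (tt y) ∧
    y none < 2 ^ m * (1 - 2 * ∑ r, tt y r) ∧
    1 - 2 * ∑ r, tt y r + xx δ (tt y) < y (some none) + y none}

def Pgr (m : ℕ) (δ : ℝ) : Set (Option (Option (Fin (m + 1))) → ℝ) :=
  {y | (∀ i, 0 < y i) ∧ tt y 0 < δ ∧ y (some none) < hh δ (tt y) ∧
    y none < 2 ^ m * hh δ (tt y) ∧ y (some none) + y none < 2 ^ m * hh δ (tt y) + kk δ (tt y)}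

noncomputable def ellT (δ : ℝ) (y : Fin (m + 2) → ℝ) : ℝ :=
  ellW (2 ^ m) (hh δ (Fin.init y)) (ww δ (Fin.init y)) (HH δ (Fin.init y)) (KK δ (Fin.init y))
    (y (Fin.last (m + 1)))

noncomputable def gpT (δ : ℝ) (y : Fin (m + 2) → ℝ) : ℝ :=
  ww δ (Fin.init y) - y (Fin.last (m + 1))

end Vale.Agent.P209
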