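import Vale.Agent.P209.TBasic
import Vale.Agent.P209.Unshake
import Vale.Agent.P209.Slice

/-! The last shake. Plan: `a = some (some (last m))`, `b = some none`, `λ = 2 ^ m`,
`τ = 1 - 2 psum m`, `r = τ + exc m`. Chain: `b += a`, `none += λ a`, `unshake a`, `b -= a`,
`none -= λ a`. With `t = y a`, `P = y b + t`, `Q = y none + λ t` the fibre coordinate `z` ranges
over `max 0 (P + Q / λ - τ) < z < min P (min (Q / λ) ((P + Q - r) / λ))`; the six inequalities
`length > t` are the conditions of `Pfin` (the pair of the last two bounds gives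
`(λ - 1) y b < (λ - 1) (τ - 2 t) - xx`; for `m = 0` this is `t < δ`). -/

open scoped ContDiff Topology
open Set MeasureTheory

namespace Vale.Agent.P209

section
variable {ι : Type} [Fintype ι] [DecidableEq ι]

/-- preimage under a transvection -/
def tfin_pre (i j : ι) (c : ℤ) (S : Set (ι → ℝ)) : Set (ι → ℝ) :=
  {y | Function.update y j (y j + ((-c : ℤ) : ℝ) * y i) ∈ S}

omit [Fintype ι] in
theorem tfin_open (i j : ι) (c : ℤ) {S : Set (ι → ℝ)} (hS : IsOpen S) :
    IsOpen (tfin_pre i j c S) :=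
  hS.preimage (f := fun y : ι → ℝ => Function.update y j (y j + ((-c : ℤ) : ℝ) * y i))
    (continuous_id.update j (by fun_prop))

theorem tfin_in {i j : ι} (hij : i ≠ j) (c : ℤ) {S : Set (ι → ℝ)} (hS : IsOpen S) :
    TEmb S (tfin_pre i j c S) :=
  temb_transv hij c (tfin_open i j c hS) fun y hy => by
    simpa [tfin_pre, Function.update_of_ne hij] using hy

theorem tfin_out {i j : ι} (hij : i ≠ j) (c : ℤ) {S : Set (ι → ℝ)} (hS : IsOpen S) :
    TEmb (tfin_pre i j c S) S := temb_transv hij (-c) hS fun _ hy => hy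

theorem tfin_vol {i j : ι} (hij : i ≠ j) (c : ℤ) {S : Set (ι → ℝ)} (hS : IsOpen S) :
    volume (tfin_pre i j c S) = volume S := volume_transv hij _ hS.measurableSet

end

variable {m : ℕ}

/-- both transvections -/
def tfin_P (S : Set (Option (Option (Fin (m + 1))) → ℝ)) :
    Set (Option (Option (Fin (m + 1))) → ℝ) :=
  tfin_pre (some (some (Fin.last m))) none (2 ^ m)
    (tfin_pre (some (some (Fin.last m))) (some none) 1 S)

theorem tfin_mem (S : Set (Option (Option (Fin (m + 1))) → ℝ))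
    (y : Option (Option (Fin (m + 1))) → ℝ) (z : ℝ) :
    Function.update y (some (some (Fin.last m))) z ∈ tfin_P S ↔
      mk3 (y none - 2 ^ m * z) (y (some none) - z) (Function.update (tt y) (Fin.last m) z) ∈ S := by
  refine Iff.of_eq (congrArg (· ∈ S) (funext fun o => ?_))
  rcases o with _ | _ | r
  · simp [mk3, sub_eq_add_neg]
  · simp [mk3, sub_eq_add_neg]
  · by_cases hr : r = Fin.last m
    · simp [mk3, hr]
    · simp [mk3, hr, tt]

theorem tfin_psum (t : Fin (m + 1) → ℝ) (z : ℝ) :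
    psum (Function.update t (Fin.last m) z) m = psum t m :=
  psum_congr m fun r hr => Function.update_of_ne (fun h => by simp [h] at hr) _ _

theorem tfin_exc (δ : ℝ) (t : Fin (m + 1) → ℝ) (z : ℝ) :
    exc δ (Function.update t (Fin.last m) z) m = exc δ t m :=
  exc_congr δ m fun r hr => Function.update_of_ne (fun h => by simp [h] at hr) _ _

theorem tfin_sum (t : Fin (m + 1) → ℝ) (z : ℝ) :
    ∑ r, Function.update t (Fin.last m) z r = psum t m + z := by
  rw [← psum_of_le _ (le_refl (m + 1)), psum_succ, tfin_psum, extd, dif_pos m.lt_succ_self]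
  exact congrArg _ (Function.update_self ..)

theorem tfin_pos (u v z : ℝ) (t : Fin (m + 1) → ℝ) :
    (∀ i, 0 < mk3 u v (Function.update t (Fin.last m) z) i) ↔
      0 < u ∧ 0 < v ∧ 0 < z ∧ ∀ r, r ≠ Fin.last m → 0 < t r := by
  constructor
  · intro h
    refine ⟨h none, h (some none), by simpa [mk3] using h (some (some (Fin.last m))),
      fun r hr => by simpa [mk3, hr] using h (some (some r))⟩
  · rintro ⟨h1, h2, h3, h4⟩ (_ | _ | r)
    · exact h1
    · exact h2
    · by_cases hr : r = Fin.last m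
      · simpa [mk3, hr] using h3
      · simpa [mk3, hr] using h4 r hr

/-- conditions on the other parameters -/
def tfin_C (δ : ℝ) (y : Option (Option (Fin (m + 1))) → ℝ) : Prop :=
  (∀ r, r ≠ Fin.last m → 0 < tt y r) ∧ (0 < m → tt y 0 < δ)

/-- lower end -/
noncomputable def tfin_L (y : Option (Option (Fin (m + 1))) → ℝ) : ℝ :=
  max 0 (y (some none) + y none / 2 ^ m - (1 - 2 * psum (tt y) m))

/-- upper end -/
noncomputable def tfin_U (δ : ℝ) (y : Option (Option (Fin (m + 1))) → ℝ) : ℝ :=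
  min (y (some none)) (min (y none / 2 ^ m)
    ((y (some none) + y none - (1 - 2 * psum (tt y) m + exc δ (tt y) m)) / 2 ^ m))

theorem tfin_zero (hm : 0 < m) (t : Fin (m + 1) → ℝ) (z : ℝ) :
    Function.update t (Fin.last m) z 0 = t 0 :=
  Function.update_of_ne (fun h => by
    have := congrArg Fin.val h
    simp at this
    omega) _ _

theorem tfin_memB (δ : ℝ) (y : Option (Option (Fin (m + 1))) → ℝ) (z : ℝ) :
    Function.update y (some (some (Fin.last m))) z ∈ tfin_P (PK m δ m) ↔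
      tfin_C δ y ∧ tfin_L y < z ∧ z < tfin_U δ y := by
  have hl : (0 : ℝ) < 2 ^ m := by positivity
  rw [tfin_mem]
  change (∀ i, 0 < mk3 _ _ _ i) ∧ (0 < m → Function.update (tt y) (Fin.last m) z 0 < δ) ∧
    (∑ r, Function.update (tt y) (Fin.last m) z r - psum (Function.update (tt y) (Fin.last m) z) m)
      + (y (some none) - z) + (y none - 2 ^ m * z) / 2 ^ m <
      1 - 2 * psum (Function.update (tt y) (Fin.last m) z) m ∧
    1 - 2 * psum (Function.update (tt y) (Fin.last m) z) m +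
      exc δ (Function.update (tt y) (Fin.last m) z) m <
    (∑ r, Function.update (tt y) (Fin.last m) z r - psum (Function.update (tt y) (Fin.last m) z) m)
      + (y (some none) - z) + (y none - 2 ^ m * z) ↔ _
  rw [tfin_pos, tfin_sum, tfin_psum, tfin_exc, tfin_C, tfin_L, tfin_U, max_lt_iff, lt_min_iff,
    lt_min_iff, lt_div_iff₀ hl, lt_div_iff₀ hl, sub_div, mul_div_cancel_left₀ _ hl.ne']
  constructor
  · rintro ⟨⟨h1, h2, h3, h4⟩, h5, h6, h7⟩
    exact ⟨⟨h4, fun h => tfin_zero h (tt y) z ▸ h5 h⟩, ⟨h3, by linarith⟩, by linarith, by linarith,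
      by linarith⟩
  · rintro ⟨⟨h4, h5⟩, ⟨h3, h6⟩, h2, h1, h7⟩
    exact ⟨⟨by linarith, by linarith, h3, h4⟩, fun h => (tfin_zero h (tt y) z).symm ▸ h5 h,
      by linarith, by linarith⟩

theorem tfin_real {l P Q τ e z : ℝ} (hl : 0 < l) :
    z < min P (min (Q / l) ((P + Q - (τ + e)) / l)) - max 0 (P + Q / l - τ) ↔
      0 < Q - l * z ∧ 0 < P - z ∧ P - z < τ - 2 * z ∧ e + z < (l - 1) * (τ - 2 * z - (P - z)) ∧
        Q - l * z < l * (τ - 2 * z) ∧ τ - 2 * z + (e + z) < P - z + (Q - l * z) := by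
  obtain ⟨q, rfl⟩ : ∃ q, Q = q * l := ⟨Q / l, (div_mul_cancel₀ _ hl.ne').symm⟩
  rw [mul_div_cancel_right₀ _ hl.ne', lt_sub_iff_add_lt', ← max_add_add_right, lt_min_iff,
    lt_min_iff, lt_div_iff₀ hl, max_mul_of_nonneg _ _ hl.le]
  simp only [max_lt_iff]
  constructor
  · rintro ⟨⟨h1, h2⟩, ⟨h3, h4⟩, h5, h6⟩
    exact ⟨by nlinarith, by linarith, by linarith, by linarith, by nlinarith, by linarith⟩
  · rintro ⟨h1, h2, h3, h4, h5, h6⟩
    exact ⟨⟨by linarith, by nlinarith⟩, ⟨by nlinarith, by linarith⟩, by linarith, by linarith⟩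

theorem tfin_memA (δ : ℝ) (y : Option (Option (Fin (m + 1))) → ℝ) (z : ℝ) :
    Function.update y (some (some (Fin.last m))) z ∈ tfin_P (Pfin m δ) ↔
      tfin_C δ y ∧ 0 < z ∧ z < tfin_U δ y - tfin_L y := by
  have hl : (0 : ℝ) < 2 ^ m := by positivity
  rw [tfin_mem]
  change (∀ i, 0 < mk3 _ _ _ i) ∧ Function.update (tt y) (Fin.last m) z 0 < δ ∧
    y (some none) - z < hh δ (Function.update (tt y) (Fin.last m) z) ∧
    y none - 2 ^ m * z < 2 ^ m * (1 - 2 * ∑ r, Function.update (tt y) (Fin.last m) z r) ∧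
    1 - 2 * ∑ r, Function.update (tt y) (Fin.last m) z r +
      xx δ (Function.update (tt y) (Fin.last m) z) < y (some none) - z + (y none - 2 ^ m * z) ↔ _
  rw [tfin_pos, hh, xx, tfin_sum, tfin_exc, Function.update_self, tfin_C, tfin_L, tfin_U,
    tfin_real hl]
  rcases Nat.eq_zero_or_pos m with rfl | hm
  · have e : Function.update (tt y) (Fin.last 0) z 0 = z := Function.update_self ..
    have e' : exc δ (tt y) 0 = -δ := rfl
    rw [e, e']
    simp only [pow_zero, sub_self, div_zero, sub_zero, zero_mul, lt_irrefl, false_imp_iff,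
      and_true]
    constructor
    · rintro ⟨⟨h1, h2, h3, h4⟩, h5, h6, h7, h8⟩
      exact ⟨h4, h3, h1, h2, by linarith, by linarith, by linarith, by linarith⟩
    · rintro ⟨h4, h3, h1, h2, h6, h5, h7, h8⟩
      exact ⟨⟨h1, h2, h3, h4⟩, by linarith, by linarith, by linarith, by linarith⟩
  · have h0 : (0 : ℝ) < 2 ^ m - 1 := sub_pos.2 (one_lt_pow₀ one_lt_two hm.ne')
    rw [tfin_zero hm, lt_sub_comm (c := _ / _), div_lt_iff₀ h0, max_lt_iff, mul_pos_iff_of_pos_right h0]
    constructor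
    · rintro ⟨⟨h1, h2, h3, h4⟩, h5, ⟨h6, h9⟩, h7, h8⟩
      exact ⟨⟨h4, fun _ => h5⟩, h3, h1, h2, by linarith, by linarith, by linarith, by linarith⟩
    · rintro ⟨⟨h4, h5⟩, h3, h1, h2, h6, h9, h7, h8⟩
      exact ⟨⟨h1, h2, h3, h4⟩, h5 hm, ⟨by linarith, by linarith⟩, by linarith, by linarith⟩

theorem tfin_openP {S : Set (Option (Option (Fin (m + 1))) → ℝ)} (hS : IsOpen S) :
    IsOpen (tfin_P S) := tfin_open _ _ _ (tfin_open _ _ _ hS)

theorem tfin_volP {S : Set (Option (Option (Fin (m + 1))) → ℝ)} (hS : IsOpen S) :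
    volume (tfin_P S) = volume S :=
  (tfin_vol (by simp) _ (tfin_open _ _ _ hS)).trans (tfin_vol (by simp) _ hS)

theorem temb_fin (m : ℕ) (δ : ℝ) : TEmb (Pfin m δ) (PK m δ m) := by
  have h1 : TEmb (Pfin m δ) (tfin_P (Pfin m δ)) :=
    (tfin_in (by simp) _ (isOpen_Pfin δ)).trans
      (tfin_in (by simp) _ (tfin_open _ _ _ (isOpen_Pfin δ)))
  have h2 : TEmb (tfin_P (PK m δ m)) (PK m δ m) :=
    (tfin_out (by simp) _ (tfin_open _ _ _ (isOpen_PK δ m))).trans
      (tfin_out (by simp) _ (isOpen_PK δ m))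
  refine h1.trans (TEmb.trans (unshake (some (some (Fin.last m))) (tfin_openP (isOpen_PK δ m))
    (fun y => ⟨fun s hs t ht r hr => ?_⟩) fun y hy => ?_) h2)
  · obtain ⟨a1, a2, -⟩ := (tfin_memB δ y s).1 hs
    obtain ⟨-, -, a3⟩ := (tfin_memB δ y t).1 ht
    exact (tfin_memB δ y r).2 ⟨a1, a2.trans_le hr.1, hr.2.trans_lt a3⟩
  · obtain ⟨a1, a2, a3⟩ := (tfin_memA δ y (y (some (some (Fin.last m))))).1
      (by rwa [Function.update_eq_self])
    refine ⟨a2, (tfin_L y + tfin_U δ y - y (some (some (Fin.last m)))) / 2, fun t ht =>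
      (tfin_memB δ y t).2 ⟨a1, by linarith [ht.1], by linarith [ht.2]⟩⟩

theorem volume_fin (m : ℕ) (δ : ℝ) : volume (PK m δ m) ≤ volume (Pfin m δ) := by
  rw [← tfin_volP (isOpen_PK δ m), ← tfin_volP (isOpen_Pfin δ)]
  refine volume_le_of_slices (some (some (Fin.last m))) (tfin_openP (isOpen_PK δ m)).measurableSet
    (tfin_openP (isOpen_Pfin δ)).measurableSet fun y => ?_
  simp only [tfin_memA, tfin_memB]
  by_cases hC : tfin_C δ y
  · simp only [hC, true_and]
    change volume (Ioo _ _) ≤ volume (Ioo _ _)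
    rw [Real.volume_Ioo, Real.volume_Ioo, sub_zero]
  · simp [hC]

end Vale.Agent.P209
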