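import Vale.Agent.P209.TBasic
import Vale.Agent.P209.Unshake
import Vale.Agent.P209.Slice

/-! Regrounding the polygons. Plan: with `h = hh`, `c = hh - kk`, `λ = 2 ^ m` let
`Q = {y > 0, t 0 < δ, y b < h, y none < λ h - max (c - y b) 0}` (`b = some none`).
`unshake none : Q → Pfin` (the slice of `Pfin` is `(max 0 (τ' + xx - y b), λ τ')`,
`τ' = 1 - 2 ∑ t`; cases `xx ≤ 0` and `xx > 0`, the latter forces `m > 0` because for `m = 0`
`xx = t 0 - δ < 0`), `unshake b : Pgr → Q` (slice `(max 0 (y none - λ h + c), h)`).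
Volumes by `volume_le_of_slices`. -/

open scoped ContDiff Topology
open Set MeasureTheory

namespace Vale.Agent.P209

theorem tgr_step {ι : Type} [Fintype ι] [DecidableEq ι] (i₀ : ι) {A B : Set (ι → ℝ)}
    (hA : IsOpen A) (hB : IsOpen B) (p : (ι → ℝ) → Prop) (L lo hi : (ι → ℝ) → ℝ)
    (h1 : ∀ y s, Function.update y i₀ s ∈ A ↔ p y ∧ 0 < s ∧ s < L y)
    (h2 : ∀ y s, Function.update y i₀ s ∈ B ↔ p y ∧ lo y < s ∧ s < hi y)
    (h3 : ∀ y, p y → hi y - lo y = L y) : TEmb A B ∧ volume B ≤ volume A := by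
  refine ⟨unshake i₀ hB (fun y => ⟨fun s hs s' hs' u hu => ?_⟩) fun y hy => ?_,
    volume_le_of_slices i₀ hB.measurableSet hA.measurableSet fun y => ?_⟩
  · obtain ⟨a1, a2, -⟩ := (h2 y s).1 hs
    obtain ⟨-, -, a3⟩ := (h2 y s').1 hs'
    exact (h2 y u).2 ⟨a1, a2.trans_le hu.1, hu.2.trans_lt a3⟩
  · obtain ⟨a1, a2, a3⟩ := (h1 y (y i₀)).1 (by rwa [Function.update_eq_self])
    have a4 := h3 y a1
    exact ⟨a2, lo y + (L y - y i₀) / 2, fun s hs =>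
      (h2 y s).2 ⟨a1, by linarith [hs.1], by linarith [hs.2]⟩⟩
  · simp only [h1, h2]
    by_cases hp : p y
    · simp only [hp, true_and]
      show volume (Ioo (lo y) (hi y)) ≤ volume (Ioo 0 (L y))
      rw [Real.volume_Ioo, Real.volume_Ioo, h3 y hp, sub_zero]
    · simp only [hp, false_and, le_refl]

/-- the intermediate polytope -/
def tgrQ (m : ℕ) (δ : ℝ) : Set (Option (Option (Fin (m + 1))) → ℝ) :=
  {y | (∀ i, 0 < y i) ∧ tt y 0 < δ ∧ y (some none) < hh δ (tt y) ∧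
    y none < 2 ^ m * hh δ (tt y) - max (hh δ (tt y) - kk δ (tt y) - y (some none)) 0}

theorem tgr_open (m : ℕ) (δ : ℝ) : IsOpen (tgrQ m δ) := by
  have ht : Continuous (tt : (Option (Option (Fin (m + 1))) → ℝ) → _) :=
    continuous_pi fun _ => continuous_apply _
  have h1 := (continuous_hh δ).comp ht
  have h2 := (continuous_kk δ).comp ht
  refine IsOpen.inter ?_ ((isOpen_lt ((continuous_apply 0).comp ht) continuous_const).inter
    ((isOpen_lt (continuous_apply _) h1).inter (isOpen_lt (continuous_apply _)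
      ((continuous_const.mul h1).sub (((h1.sub h2).sub (continuous_apply _)).max
        continuous_const)))))
  show IsOpen {y : Option (Option (Fin (m + 1))) → ℝ | ∀ i, 0 < y i}
  rw [Set.ofPred_forall]
  exact isOpen_iInter_of_finite fun i => isOpen_lt continuous_const (continuous_apply i)

theorem tgr_len {m : ℕ} {δ b : ℝ} {t : Fin (m + 1) → ℝ} (h0 : t 0 < δ) (hb : b < hh δ t) :
    2 ^ m * (1 - 2 * ∑ r, t r) - max (1 - 2 * ∑ r, t r + xx δ t - b) 0 =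
      2 ^ m * hh δ t - max (hh δ t - kk δ t - b) 0 := by
  unfold hh kk at *
  rcases le_or_gt (xx δ t) 0 with hx | hx
  · rw [max_eq_right hx, max_eq_left (neg_nonneg.2 hx), zero_div, sub_zero, sub_neg_eq_add]
  · have hm : m ≠ 0 := by
      rintro rfl
      have : xx δ t = -δ + t 0 := rfl
      linarith
    have h1 : (0 : ℝ) < 2 ^ m - 1 := sub_pos.2 (one_lt_pow₀ one_lt_two hm)
    rw [max_eq_left hx.le] at hb ⊢
    rw [max_eq_right (neg_nonpos.2 hx.le), sub_zero]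
    obtain ⟨e, he⟩ : ∃ e, e = xx δ t / (2 ^ m - 1) := ⟨_, rfl⟩
    have h2 : xx δ t = e * (2 ^ m - 1) := by rw [he, div_mul_cancel₀ _ h1.ne']
    have h3 : 0 < e := he ▸ div_pos hx h1
    rw [← he] at hb ⊢
    rw [max_eq_left (by linarith), max_eq_left (by linarith), h2]
    ring

theorem tgr_both (m : ℕ) (δ : ℝ) :
    TEmb (Pgr m δ) (Pfin m δ) ∧ volume (Pfin m δ) ≤ volume (Pgr m δ) := by
  have s1 := tgr_step (some none) (isOpen_Pgr (m := m) δ) (tgr_open m δ)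
    (fun y => 0 < y none ∧ (∀ r, 0 < tt y r) ∧ tt y 0 < δ ∧ y none < 2 ^ m * hh δ (tt y))
    (fun y => min (hh δ (tt y)) (2 ^ m * hh δ (tt y) + kk δ (tt y) - y none))
    (fun y => max 0 (y none - 2 ^ m * hh δ (tt y) + (hh δ (tt y) - kk δ (tt y))))
    (fun y => hh δ (tt y))
    (fun y s => by
      show (∀ i, 0 < Function.update y (some none) s i) ∧ tt y 0 < δ ∧ s < hh δ (tt y) ∧
        y none < 2 ^ m * hh δ (tt y) ∧ s + y none < 2 ^ m * hh δ (tt y) + kk δ (tt y) ↔ _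
      rw [Option.forall, Option.forall, lt_min_iff, lt_sub_iff_add_lt]
      exact ⟨fun ⟨⟨a1, a2, a3⟩, a4, a5, a6, a7⟩ => ⟨⟨a1, a3, a4, a6⟩, a2, a5, a7⟩,
        fun ⟨⟨a1, a3, a4, a6⟩, a2, a5, a7⟩ => ⟨⟨a1, a2, a3⟩, a4, a5, a6, a7⟩⟩)
    (fun y s => by
      show (∀ i, 0 < Function.update y (some none) s i) ∧ tt y 0 < δ ∧ s < hh δ (tt y) ∧
        y none < 2 ^ m * hh δ (tt y) - max (hh δ (tt y) - kk δ (tt y) - s) 0 ↔ _
      rw [Option.forall, Option.forall, max_lt_iff, lt_sub_comm, max_lt_iff]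
      exact ⟨fun ⟨⟨a1, a2, a3⟩, a4, a5, a6, a7⟩ =>
          ⟨⟨a1, a3, a4, sub_pos.1 a7⟩, ⟨a2, by linarith⟩, a5⟩,
        fun ⟨⟨a1, a3, a4, a7⟩, ⟨a2, a6⟩, a5⟩ =>
          ⟨⟨a1, a2, a3⟩, a4, a5, by linarith, sub_pos.2 a7⟩⟩)
    (fun y _ => by
      rw [← min_sub_sub_left, sub_zero]
      congr 1
      ring)
  have s2 := tgr_step none (tgr_open m δ) (isOpen_Pfin (m := m) δ)
    (fun y => 0 < y (some none) ∧ (∀ r, 0 < tt y r) ∧ tt y 0 < δ ∧ y (some none) < hh δ (tt y))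
    (fun y => 2 ^ m * hh δ (tt y) - max (hh δ (tt y) - kk δ (tt y) - y (some none)) 0)
    (fun y => max (1 - 2 * ∑ r, tt y r + xx δ (tt y) - y (some none)) 0)
    (fun y => 2 ^ m * (1 - 2 * ∑ r, tt y r))
    (fun y s => by
      show (∀ i, 0 < Function.update y none s i) ∧ tt y 0 < δ ∧ y (some none) < hh δ (tt y) ∧
        s < 2 ^ m * hh δ (tt y) - max (hh δ (tt y) - kk δ (tt y) - y (some none)) 0 ↔ _
      rw [Option.forall, Option.forall]
      exact ⟨fun ⟨⟨a1, a2, a3⟩, a4, a5, a6⟩ => ⟨⟨a2, a3, a4, a5⟩, a1, a6⟩,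
        fun ⟨⟨a2, a3, a4, a5⟩, a1, a6⟩ => ⟨⟨a1, a2, a3⟩, a4, a5, a6⟩⟩)
    (fun y s => by
      show (∀ i, 0 < Function.update y none s i) ∧ tt y 0 < δ ∧ y (some none) < hh δ (tt y) ∧
        s < 2 ^ m * (1 - 2 * ∑ r, tt y r) ∧
        1 - 2 * ∑ r, tt y r + xx δ (tt y) < y (some none) + s ↔ _
      rw [Option.forall, Option.forall, max_lt_iff, sub_lt_iff_lt_add']
      exact ⟨fun ⟨⟨a1, a2, a3⟩, a4, a5, a6, a7⟩ => ⟨⟨a2, a3, a4, a5⟩, ⟨a7, a1⟩, a6⟩,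
        fun ⟨⟨a2, a3, a4, a5⟩, ⟨a7, a1⟩, a6⟩ => ⟨⟨a1, a2, a3⟩, a4, a5, a6, a7⟩⟩)
    (fun y hy => tgr_len hy.2.2.1 hy.2.2.2)
  exact ⟨s1.1.trans s2.1, s2.2.trans s1.2⟩

theorem temb_gr (m : ℕ) (δ : ℝ) : TEmb (Pgr m δ) (Pfin m δ) := (tgr_both m δ).1

theorem volume_gr (m : ℕ) (δ : ℝ) : volume (Pfin m δ) ≤ volume (Pgr m δ) := (tgr_both m δ).2

end Vale.Agent.P209
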