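import Vale.Agent.P209.TBasic
import Vale.Agent.P209.Unshake
import Vale.Agent.P209.Slice

/-! The doubling shake. Plan: let `a = some (some ⟨k, _⟩)`, `λ = 2 ^ k`, `τ = 1 - 2 psum k`,
`r = τ + exc k`, `z'` the sum of the coordinates other than `a`, `none`, `t_{<k}`. Let `B` be the
set of `y` such that `(a ↦ y none - 2 y a, none ↦ y a)` lies in `PK k`, i.e. with `A = y none`,
`X = y a`: `max 0 ((A + z' - τ) / (2 - 1/λ)) < X < min (A / 2) (A + z' - r)` (plus conditions not
involving `a`). Chain: `temb_transv` (`none += 2 a`), `unshake a`, `temb_transv` (`none -= 2 a`),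
`temb_reindex (Equiv.swap a none)`. With `t = y a`, `A = X' + 2 t` the four inequalities
`length > t` are exactly the conditions of `PK (k+1)` (for `k = 0` one of them is `t < δ`, for
`k > 0` it is the second branch of `exc (k+1)`). Volumes: `volume_transv`, `volume_reindex`,
`volume_le_of_slices`. -/

open scoped ContDiff Topology
open Set MeasureTheory

namespace Vale.Agent.P209

theorem tstep_A {l A X z τ e : ℝ} (hl : 1 ≤ l) :
    (0 < A - 2 * X ∧ 0 < X ∧ z + (A - 2 * X) + X / l < τ ∧ τ + e < z + (A - 2 * X) + X) ↔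
      max 0 ((A + z - τ) / (2 - 1 / l)) < X ∧ X < min (A / 2) (A + z - (τ + e)) := by
  have h1 : 1 / l ≤ 1 := by rw [div_le_one (by linarith)]; exact hl
  rw [max_lt_iff, lt_min_iff, div_lt_iff₀ (by linarith : 0 < 2 - 1 / l), div_eq_mul_one_div X l]
  constructor
  · rintro ⟨a, b, c, d⟩
    exact ⟨⟨b, by linarith⟩, by linarith, by linarith⟩
  · rintro ⟨⟨a, b⟩, c, d⟩
    exact ⟨by linarith, a, by linarith, by linarith⟩

theorem tstep_B {k : ℕ} {l A t z τ e δ : ℝ} (h0 : k = 0 → l = 1 ∧ e = -δ) (h1 : k ≠ 0 → 1 < l) :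
    (0 < t ∧ 0 < A - 2 * t ∧ (k = 0 → t < δ) ∧ z + (A - 2 * t) / (l * 2) < τ - 2 * t ∧
      τ - 2 * t + (e + t + max (e + t) 0 * (l / (l - 1))) < z + (A - 2 * t)) ↔
      0 < t ∧ t < min (A / 2) (A + z - (τ + e)) - max 0 ((A + z - τ) / (2 - 1 / l)) := by
  have key : ∀ a b D : ℝ, t < min a b - max 0 D ↔
      (0 + t < a ∧ 0 + t < b) ∧ D + t < a ∧ D + t < b := by
    intro a b D
    rw [lt_sub_iff_add_lt', ← lt_sub_iff_add_lt, max_lt_iff, lt_sub_iff_add_lt, lt_sub_iff_add_lt,
      lt_min_iff, lt_min_iff]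
  rw [key]
  by_cases hk : k = 0
  · obtain ⟨rfl, rfl⟩ := h0 hk
    simp only [hk, sub_self, div_zero, mul_zero, add_zero, forall_const, div_one]
    norm_num
    intro _
    constructor
    · rintro ⟨a, b, c, d⟩
      exact ⟨⟨by linarith, by linarith⟩, by linarith, by linarith⟩
    · rintro ⟨⟨a, b⟩, c, d⟩
      exact ⟨by linarith, by linarith, by linarith, by linarith⟩
  have hl := h1 hk
  have hl0 : 0 < l := by linarith
  have hl1 : 0 < l - 1 := by linarith
  have hc : 0 < l / (l - 1) := div_pos hl0 hl1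
  have h2 : 0 < 2 - 1 / l := by
    have : 1 / l < 1 := by rw [div_lt_one hl0]; exact hl
    linarith
  have e3 : (A + z - τ) / (2 - 1 / l) + t < A / 2 ↔ z + (A - 2 * t) / (l * 2) < τ - 2 * t := by
    have : (A - 2 * t) / (l * 2) = (A / 2 - t) * (1 / l) := by field_simp
    rw [← lt_sub_iff_add_lt, div_lt_iff₀ h2, this]
    constructor <;> intro h <;> linarith
  have e4 : (A + z - τ) / (2 - 1 / l) + t < A + z - (τ + e) ↔
      e + t + (e + t) * (l / (l - 1)) < A + z - τ := by
    have a1 : 2 - 1 / l = (2 * l - 1) / l := by field_simp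
    rw [← lt_sub_iff_add_lt, a1, div_div_eq_mul_div, div_lt_iff₀ (by linarith), ← mul_div_assoc,
      ← lt_sub_iff_add_lt', div_lt_iff₀ hl1]
    constructor <;> intro h <;> linarith
  rw [e3, e4, max_mul_of_nonneg _ _ hc.le, zero_mul]
  simp only [hk, IsEmpty.forall_iff, true_and]
  constructor
  · rintro ⟨a, b, c, d⟩
    have d1 := le_max_left ((e + t) * (l / (l - 1))) 0
    have d2 := le_max_right ((e + t) * (l / (l - 1))) 0
    exact ⟨a, ⟨by linarith, by linarith⟩, c, by linarith⟩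
  · rintro ⟨a, ⟨b, c⟩, d, f⟩
    refine ⟨a, by linarith, d, ?_⟩
    rcases max_cases ((e + t) * (l / (l - 1))) 0 with h | h <;> rw [h.1] <;> linarith

section
variable {m : ℕ} (δ : ℝ) (κ : Fin (m + 1)) (y : Option (Option (Fin (m + 1))) → ℝ)

/-- the conditions that involve neither the shaken nor the long coordinate -/
def tstepC : Prop := (∀ i, i ≠ some (some κ) → i ≠ none → 0 < y i) ∧ (0 < (κ : ℕ) → tt y 0 < δ)

/-- sum of the remaining coordinates -/
noncomputable def tstepZ : ℝ := ∑ r, tt y r - psum (tt y) κ - tt y κ + y (some none)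

noncomputable def tstepL : ℝ :=
  max 0 ((y none + tstepZ κ y - (1 - 2 * psum (tt y) κ)) / (2 - 1 / 2 ^ (κ : ℕ)))

noncomputable def tstepU : ℝ :=
  min (y none / 2) (y none + tstepZ κ y - (1 - 2 * psum (tt y) κ + exc δ (tt y) κ))

/-- replace the shaken and the long coordinate -/
def tstepW (s v : ℝ) : Option (Option (Fin (m + 1))) → ℝ :=
  Function.update (Function.update y (some (some κ)) s) none v

theorem tstep_tt (s v : ℝ) : tt (tstepW κ y s v) = Function.update (tt y) κ s := by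
  funext r
  by_cases h : r = κ
  · simp [tt, tstepW, h]
  · simp [tt, tstepW, h]

theorem tstep_pos (s v : ℝ) : (∀ i, 0 < tstepW κ y s v i) ↔
    (∀ i, i ≠ some (some κ) → i ≠ none → 0 < y i) ∧ 0 < s ∧ 0 < v := by
  constructor
  · intro h
    refine ⟨fun i h1 h2 => ?_, ?_, ?_⟩
    · simpa [tstepW, h1, h2] using h i
    · simpa [tstepW] using h (some (some κ))
    · simpa [tstepW] using h none
  · rintro ⟨h1, h2, h3⟩ i
    by_cases a : i = none
    · simpa [tstepW, a] using h3
    by_cases b : i = some (some κ)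
    · simpa [tstepW, b] using h2
    · simpa [tstepW, a, b] using h1 i b a

theorem tstep_data (s : ℝ) : psum (Function.update (tt y) κ s) κ = psum (tt y) κ ∧
    exc δ (Function.update (tt y) κ s) κ = exc δ (tt y) κ ∧
    extd (Function.update (tt y) κ s) κ = s ∧
    ∑ r, Function.update (tt y) κ s r = ∑ r, tt y r - tt y κ + s := by
  have h : ∀ r : Fin (m + 1), (r : ℕ) < κ → Function.update (tt y) κ s r = tt y r := fun r hr =>
    Function.update_of_ne (fun e => by simp [e] at hr) _ _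
  refine ⟨psum_congr _ h, exc_congr δ _ h, by simp [extd, κ.2], ?_⟩
  rw [Finset.sum_update_of_mem (Finset.mem_univ κ), Finset.sdiff_singleton_eq_erase,
    Finset.sum_erase_eq_sub (Finset.mem_univ κ)]
  ring

theorem tstep_zero (s : ℝ) (h : 0 < (κ : ℕ)) : Function.update (tt y) κ s 0 = tt y 0 :=
  Function.update_of_ne (fun e => by simp [← e] at h) _ _

theorem tstep_memB (X : ℝ) : tstepW κ y (y none - 2 * X) X ∈ PK m δ κ ↔
    tstepC δ κ y ∧ tstepL κ y < X ∧ X < tstepU δ κ y := by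
  obtain ⟨h1, h2, -, h4⟩ := tstep_data δ κ y (y none - 2 * X)
  have a1 : tstepW κ y (y none - 2 * X) X none = X := by simp [tstepW]
  have a2 : tstepW κ y (y none - 2 * X) X (some none) = y (some none) := by simp [tstepW]
  unfold tstepL tstepU
  rw [← tstep_A (one_le_pow₀ one_le_two)]
  simp only [PK, mem_ofPred_eq, tstep_tt, tstep_pos, h1, h2, h4, a1, a2, tstepC, tstepZ]
  constructor
  · rintro ⟨⟨b1, b2, b3⟩, b4, b5, b6⟩
    exact ⟨⟨b1, fun h => tstep_zero κ y _ h ▸ b4 h⟩, b2, b3, by linarith, by linarith⟩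
  · rintro ⟨⟨b1, b4⟩, b2, b3, b5, b6⟩
    exact ⟨⟨b1, b2, b3⟩, fun h => (tstep_zero κ y _ h).symm ▸ b4 h, by linarith, by linarith⟩

theorem tstep_memA (t : ℝ) : tstepW κ y t (y none - 2 * t) ∈ PK m δ (κ + 1) ↔
    tstepC δ κ y ∧ 0 < t ∧ t < tstepU δ κ y - tstepL κ y := by
  obtain ⟨h1, h2, h3, h4⟩ := tstep_data δ κ y t
  have a1 : tstepW κ y t (y none - 2 * t) none = y none - 2 * t := by simp [tstepW]
  have a2 : tstepW κ y t (y none - 2 * t) (some none) = y (some none) := by simp [tstepW]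
  unfold tstepL tstepU
  rw [← tstep_B (k := κ) (δ := δ) (fun h => by rw [h]; exact ⟨pow_zero _, rfl⟩)
    (fun h => one_lt_pow₀ one_lt_two h)]
  simp only [PK, mem_ofPred_eq, tstep_tt, tstep_pos, psum_succ, exc, h1, h2, h3, h4, a1, a2, tstepC,
    tstepZ, pow_succ, Nat.zero_lt_succ, forall_const]
  have a3 : (κ : ℕ) = 0 → Function.update (tt y) κ t 0 = t := fun h => by
    rw [show κ = 0 from Fin.ext h, Function.update_self]
  constructor
  · rintro ⟨⟨b1, b2, b3⟩, b4, b5, b6⟩
    exact ⟨⟨b1, fun h => tstep_zero κ y _ h ▸ b4⟩, b2, b3, fun h => a3 h ▸ b4, by linarith,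
      by linarith⟩
  · rintro ⟨⟨b1, b4⟩, b2, b3, b7, b5, b6⟩
    refine ⟨⟨b1, b2, b3⟩, ?_, by linarith, by linarith⟩
    rcases Nat.eq_zero_or_pos κ with h | h
    · rw [a3 h]; exact b7 h
    · rw [tstep_zero κ y _ h]; exact b4 h

/-- `PK k` with the two coordinates exchanged -/
def tstepB2 : Set (Option (Option (Fin (m + 1))) → ℝ) :=
  {y | (fun i => y ((Equiv.swap (some (some κ)) none).symm i)) ∈ PK m δ κ}

/-- preimage under the transvection -/
def tstepPre (S : Set (Option (Option (Fin (m + 1))) → ℝ)) :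
    Set (Option (Option (Fin (m + 1))) → ℝ) :=
  {y | Function.update y none (y none + (-2 : ℝ) * y (some (some κ))) ∈ S}

theorem tstep_openPre {S : Set (Option (Option (Fin (m + 1))) → ℝ)} (hS : IsOpen S) :
    IsOpen (tstepPre κ S) :=
  hS.preimage (f := fun y : Option (Option (Fin (m + 1))) → ℝ =>
    Function.update y none (y none + (-2 : ℝ) * y (some (some κ)))) (by fun_prop)

theorem tstep_openB2 : IsOpen (tstepB2 δ κ) :=
  (isOpen_PK δ κ).preimage (f := fun y : Option (Option (Fin (m + 1))) → ℝ =>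
    fun i => y ((Equiv.swap (some (some κ)) none).symm i)) (by fun_prop)

theorem tstep_sliceB (X : ℝ) : Function.update y (some (some κ)) X ∈ tstepPre κ (tstepB2 δ κ) ↔
    tstepC δ κ y ∧ tstepL κ y < X ∧ X < tstepU δ κ y := by
  rw [← tstep_memB]
  refine Eq.to_iff (congrArg (fun w => w ∈ PK m δ κ) (funext fun i => ?_))
  by_cases a : i = none
  · simp [tstepW, a]
  by_cases b : i = some (some κ)
  · simp [tstepW, b, sub_eq_add_neg]
  · simp [tstepW, a, b, Equiv.swap_apply_of_ne_of_ne b a]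

theorem tstep_sliceA (t : ℝ) : Function.update y (some (some κ)) t ∈ tstepPre κ (PK m δ (κ + 1)) ↔
    tstepC δ κ y ∧ 0 < t ∧ t < tstepU δ κ y - tstepL κ y := by
  rw [← tstep_memA]
  refine Eq.to_iff (congrArg (fun w => w ∈ PK m δ (κ + 1)) ?_)
  simp [tstepW, sub_eq_add_neg]

theorem tstep_temb : TEmb (PK m δ (κ + 1)) (PK m δ κ) := by
  have h1 : TEmb (PK m δ (κ + 1)) (tstepPre κ (PK m δ (κ + 1))) := by
    refine temb_transv (i := some (some κ)) (j := none) (by simp) 2
      (tstep_openPre κ (isOpen_PK δ _)) fun y hy => ?_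
    simpa [tstepPre] using hy
  have h2 : TEmb (tstepPre κ (PK m δ (κ + 1))) (tstepPre κ (tstepB2 δ κ)) := by
    refine unshake (some (some κ)) (tstep_openPre κ (tstep_openB2 δ κ)) (fun y => ?_) fun y hy => ?_
    · simp only [tstep_sliceB]
      exact ⟨fun a ha b hb c hc => ⟨ha.1, ha.2.1.trans_le hc.1, hc.2.trans_lt hb.2.2⟩⟩
    · obtain ⟨a, b, c⟩ := (tstep_sliceA δ κ y (y (some (some κ)))).1 (by simpa using hy)
      refine ⟨b, (tstepL κ y + tstepU δ κ y - y (some (some κ))) / 2, fun t ht => ?_⟩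
      rw [tstep_sliceB]
      exact ⟨a, by linarith [ht.1], by linarith [ht.2]⟩
  have h3 : TEmb (tstepPre κ (tstepB2 δ κ)) (tstepB2 δ κ) := by
    refine temb_transv (i := some (some κ)) (j := none) (by simp) (-2) (tstep_openB2 δ κ)
      fun y hy => ?_
    simpa [tstepPre] using hy
  have h4 : TEmb (tstepB2 δ κ) (PK m δ κ) :=
    temb_reindex (Equiv.swap (some (some κ)) none) (isOpen_PK δ _) fun y hy => hy
  exact ((h1.trans h2).trans h3).trans h4

theorem tstep_vol : volume (PK m δ κ) ≤ volume (PK m δ (κ + 1)) := by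
  have h1 : volume (tstepPre κ (PK m δ (κ + 1))) = volume (PK m δ (κ + 1)) :=
    volume_transv (by simp) _ (isOpen_PK δ _).measurableSet
  have h3 : volume (tstepPre κ (tstepB2 δ κ)) = volume (tstepB2 δ κ) :=
    volume_transv (by simp) _ (tstep_openB2 δ κ).measurableSet
  have h4 : volume (tstepB2 δ κ) = volume (PK m δ κ) :=
    volume_reindex _ (isOpen_PK δ _).measurableSet
  rw [← h1, ← h4, ← h3]
  refine volume_le_of_slices (some (some κ)) (tstep_openPre κ (tstep_openB2 δ κ)).measurableSet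
    (tstep_openPre κ (isOpen_PK δ _)).measurableSet fun y => ?_
  simp only [tstep_sliceA, tstep_sliceB]
  by_cases hC : tstepC δ κ y
  · simp only [hC, true_and]
    change volume (Ioo (tstepL κ y) (tstepU δ κ y)) ≤ volume (Ioo 0 (tstepU δ κ y - tstepL κ y))
    rw [Real.volume_Ioo, Real.volume_Ioo, sub_zero]
  · simp [hC]

end

theorem temb_step {m k : ℕ} (hk : k < m) (δ : ℝ) : TEmb (PK m δ (k + 1)) (PK m δ k) :=
  tstep_temb δ ⟨k, Nat.lt_succ_of_lt hk⟩

theorem volume_step {m k : ℕ} (hk : k < m) (δ : ℝ) :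
    volume (PK m δ k) ≤ volume (PK m δ (k + 1)) :=
  tstep_vol δ ⟨k, Nat.lt_succ_of_lt hk⟩

end Vale.Agent.P209
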