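import Vale.Agent.P209.WMain
import Vale.Agent.P209.TStep
import Vale.Agent.P209.TFin
import Vale.Agent.P209.TGr
import Vale.Agent.P209.TArea

/-! The shell contains every cut of the window. Plan: reindex by
`Equiv.optionCongr finSuccEquivLast`, apply `window` with `lam = 2 ^ m`,
`O = {t > 0, t 0 < δ}` and `piece_ineq` (its polygons form `Pgr`), then `temb_gr`, `temb_fin`,
`temb_step` (induction down to `PK m δ 0`), `PK_zero`, and reindex to `Fin (m + 3)` by any
equivalence. Volumes: `volume_shell`, `volume_step`, `volume_fin`, `volume_gr`,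
`volume_Pgr_le`. -/

open scoped ContDiff Topology
open Set MeasureTheory

namespace Vale.Agent.P209

theorem tmain_down (m : ℕ) (δ : ℝ) : ∀ k, k ≤ m → TEmb (PK m δ k) (PK m δ 0)
  | 0, _ => TEmb.of_subset (isOpen_PK δ 0) subset_rfl
  | k + 1, hk => (temb_step (Nat.lt_of_succ_le hk) δ).trans
      (tmain_down m δ k (Nat.le_of_succ_le hk))

theorem tmain_vol (m : ℕ) (δ : ℝ) : ∀ k, k ≤ m → volume (PK m δ 0) ≤ volume (PK m δ k)
  | 0, _ => le_rfl
  | k + 1, hk => (tmain_vol m δ k (Nat.le_of_succ_le hk)).trans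
      (volume_step (Nat.lt_of_succ_le hk) δ)

theorem tmain_shell (m : ℕ) (δ : ℝ) : TEmb (PK m δ 0)
    {y : Fin (m + 3) → ℝ | (∀ i, 0 < y i) ∧ 1 - δ < ∑ i, y i ∧ ∑ i, y i < 1} := by
  let e : Option (Option (Fin (m + 1))) ≃ Fin (m + 3) := Fintype.equivFinOfCardEq (by simp)
  have hs : Continuous fun y : Fin (m + 3) → ℝ => ∑ i, y i := by fun_prop
  have h1 : IsOpen {y : Fin (m + 3) → ℝ | ∀ i, 0 < y i} := by
    rw [Set.ofPred_forall]
    exact isOpen_iInter_of_finite fun r => isOpen_lt continuous_const (continuous_apply r)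
  refine temb_reindex e (h1.inter ((isOpen_lt continuous_const hs).inter
    (isOpen_lt hs continuous_const))) fun y hy => ?_
  rw [PK_zero] at hy
  have e1 : ∑ k, y (e.symm k) = ∑ i, y i := Equiv.sum_comp e.symm y
  refine ⟨fun i => hy.1 _, ?_, ?_⟩
  · rw [e1]; exact hy.2.1
  · rw [e1]; exact hy.2.2

theorem target (m : ℕ) (δ : ℝ) {lc : (Fin (m + 2) → ℝ) → ℝ} (hlc : Continuous lc) :
    TEmb {z : Option (Fin (m + 2)) → ℝ | bb z ∈ WBase δ (gpT δ) ∧ lc (bb z) < z none ∧
      z none < lc (bb z) + ellT δ (bb z)}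
      {y : Fin (m + 3) → ℝ | (∀ i, 0 < y i) ∧ 1 - δ < ∑ i, y i ∧ ∑ i, y i < 1} := by
  let O : Set (Fin (m + 1) → ℝ) := {t | (∀ r, 0 < t r) ∧ t 0 < δ}
  have hO : IsOpen O := by
    refine IsOpen.inter ?_ (isOpen_lt (continuous_apply _) continuous_const)
    change IsOpen {y : Fin (m + 1) → ℝ | ∀ r, 0 < y r}
    rw [Set.ofPred_forall]
    exact isOpen_iInter_of_finite fun r => isOpen_lt continuous_const (continuous_apply r)
  let lc' : (Option (Fin (m + 1)) → ℝ) → ℝ := fun b => lc fun i => b (finSuccEquivLast i)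
  have hlc' : Continuous lc' := hlc.comp (continuous_pi fun i => continuous_apply _)
  have hW := window (lam := 2 ^ m) Nat.one_le_two_pow hO (continuous_hh δ).continuousOn
    (continuous_ww δ).continuousOn (continuous_HH δ).continuousOn (continuous_KK δ).continuousOn
    (fun t _ => by
      obtain ⟨a1, a2, a3, a4, -⟩ := piece_ineq δ t
      exact ⟨a1, a1.trans a2, a4, a2.trans a3⟩) hlc'
  have hP : polyV (2 ^ m) (hh δ) (ww δ) (HH δ) (KK δ) O ⊆ Pgr m δ := by
    rintro y ⟨b0, b1, b2, b3, b4, b5⟩
    obtain ⟨-, -, -, -, a5⟩ := piece_ineq δ (tt y)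
    push_cast at b4 b5
    refine ⟨fun i => ?_, b0.2, b2, by linarith, ?_⟩
    · match i with
      | none => exact b3
      | some none => exact b1
      | some (some r) => exact b0.1 r
    · unfold KK at b5
      linarith
  have ctt := continuous_tt_TBasic (m := m)
  have cbb : Continuous fun y : Option (Option (Fin (m + 1))) → ℝ => bb y :=
    continuous_pi fun r => continuous_apply _
  have cell : Continuous fun y : Option (Option (Fin (m + 1))) → ℝ =>
      ellW (2 ^ m) (hh δ (tt y)) (ww δ (tt y)) (HH δ (tt y)) (KK δ (tt y)) (y (some none)) := by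
    have c1 := (continuous_hh δ).comp ctt
    have c2 := (continuous_ww δ).comp ctt
    have c3 := (continuous_HH δ).comp ctt
    have c4 := (continuous_KK δ).comp ctt
    have c5 : Continuous fun y : Option (Option (Fin (m + 1))) → ℝ => y (some none) :=
      continuous_apply _
    unfold ellW
    exact ((((continuous_const.mul (((continuous_const.mul c1).add (continuous_const.mul c2)).sub
      (continuous_const.mul c5))).add ((c1.sub c5).min (c4.sub (continuous_const.mul c5)))).add
      ((c3.sub c5).min (c4.sub (continuous_const.mul c5)))).add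
      ((c4.sub c5).min ((c1.add c3).sub (continuous_const.mul c5)))).sub (continuous_const.mul c5)
  let e : Option (Fin (m + 2)) ≃ Option (Option (Fin (m + 1))) := finSuccEquivLast.optionCongr
  refine TEmb.trans (temb_reindex e ?_ fun z hz => ?_) ((hW.mono subset_rfl hP).trans
    ((temb_gr m δ).trans ((temb_fin m δ).trans ((tmain_down m δ m le_rfl).trans
      (tmain_shell m δ)))))
  · exact (hO.preimage ctt).inter ((isOpen_lt continuous_const (continuous_apply _)).inter
      ((isOpen_lt (continuous_apply _) ((continuous_ww δ).comp ctt)).inter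
      ((isOpen_lt (hlc'.comp cbb) (continuous_apply _)).inter
      (isOpen_lt (continuous_apply _) ((hlc'.comp cbb).add cell)))))
  · obtain ⟨⟨b1, b2, b3⟩, b4, b5⟩ := hz
    have es : ∀ o, e.symm (some o) = some (finSuccEquivLast.symm o) := fun o => rfl
    have e1 : tt (fun k => z (e.symm k)) = Fin.init (bb z) := by
      funext r
      simp [tt, bb, es, Fin.init]
    have e2 : z (e.symm (some none)) = bb z (Fin.last (m + 1)) := by simp [bb, es]
    have e3 : z (e.symm none) = z none := rfl
    have e4 : lc' (bb fun k => z (e.symm k)) = lc (bb z) := by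
      simp only [lc']
      congr 1
      funext i
      simp [bb, es]
    simp only [Set.mem_ofPred_eq, e1, e2, e3, e4]
    refine ⟨⟨fun r => b1 _, b2⟩, b1 _, ?_, b4, b5⟩
    unfold gpT at b3
    linarith

theorem target_vol (m : ℕ) {δ : ℝ} (h0 : 0 ≤ δ) (h1 : δ ≤ 1) :
    ENNReal.ofReal ((1 - (1 - δ) ^ (m + 3)) / (m + 3).factorial) ≤
      volume {z : Option (Fin (m + 2)) → ℝ | bb z ∈ WBase δ (gpT δ) ∧ 0 < z none ∧
        z none < ellT δ (bb z)} := by
  have h := volume_shell (ι := Option (Option (Fin (m + 1)))) (a := 1 - δ) (R := 1)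
    (by linarith) (by linarith) (by simp)
  have hc : Fintype.card (Option (Option (Fin (m + 1)))) = m + 3 := by simp
  rw [hc, one_pow, ← PK_zero] at h
  exact h.trans ((tmain_vol m δ m le_rfl).trans ((volume_fin m δ).trans ((volume_gr m δ).trans
    (volume_Pgr_le m δ))))

end Vale.Agent.P209
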