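import Vale.Agent.P209.Core

/-! The window: level curves of a pentagon (rectangle with a cut corner), rounded at the
vertices, and the chain of `lam` such pieces. Plane coordinates `(y₂, ŷ)`. -/

open scoped ContDiff Topology
open Set MeasureTheory

namespace Vale.Agent.P209

/-- geometry of the level curve at depth `u`. -/
structure Pc where
  ε : ℝ
  w : ℝ
  u : ℝ
  X : ℝ
  Y : ℝ
  Kc : ℝ
  q4 : ℝ
  q5 : ℝ

/-- the ten vertices. -/
def Pc.vtx (g : Pc) : ℕ → ℝ × ℝ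
  | 0 => (g.w - g.ε, g.u)
  | 1 => (g.X, g.u)
  | 2 => (g.X, g.Kc - g.X)
  | 3 => (g.Kc - g.Y, g.Y)
  | 4 => (g.q4, g.Y)
  | 5 => (g.q5, g.Y)
  | 6 => (g.u, g.Y)
  | 7 => (g.u, g.u)
  | 8 => (g.u + g.ε, g.u)
  | _ => (g.w - 2 * g.ε, g.u)

/-- lattice lengths of the ten edges. -/
def Pc.len (g : Pc) : ℕ → ℝ
  | 0 => g.X - g.w + g.ε
  | 1 => g.Kc - g.X - g.u
  | 2 => g.X + g.Y - g.Kc
  | 3 => g.Kc - g.Y - g.q4
  | 4 => g.q4 - g.q5
  | 5 => g.q5 - g.u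
  | 6 => g.Y - g.u
  | 7 => g.ε
  | 8 => g.w - 3 * g.ε - g.u
  | _ => g.ε

/-- primitive directions of the ten edges. -/
def dirn : ℕ → ℝ × ℝ
  | 0 => (1, 0)
  | 1 => (0, 1)
  | 2 => (-1, 1)
  | 3 => (-1, 0)
  | 4 => (-1, 0)
  | 5 => (-1, 0)
  | 6 => (0, -1)
  | _ => (1, 0)

/-- residue mod ten. -/
def ix (j : ℤ) : ℕ := (j % 10).toNat

/-- the rounded curve near the vertex `j`. -/
noncomputable def Pc.loc (ν : ℝ) (g : Pc) (j : ℤ) (M : ℝ) : ℝ × ℝ :=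
  g.vtx (ix j) + (ramp ν (M - j) * g.len (ix j)) • dirn (ix j) -
    (ramp ν (j - M) * g.len (ix (j - 1))) • dirn (ix (j - 1))

noncomputable def Pc.locW (ν : ℝ) (g : Pc) (j : ℤ) (M : ℝ) : ℝ :=
  rp ν (M - j) * g.len (ix j) + rp ν (j - M) * g.len (ix (j - 1))

/-- the rounded closed curve, period `10`. -/
noncomputable def Pc.pt (ν : ℝ) (g : Pc) (M : ℝ) : ℝ × ℝ := g.loc ν (round M) M

/-- its lattice speed. -/
noncomputable def Pc.wid (ν : ℝ) (g : Pc) (M : ℝ) : ℝ := g.locW ν (round M) M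

structure Pc.Good (A : ℝ) (g : Pc) : Prop where
  pos : 0 < g.ε
  lo : ∀ j, g.ε / 3 ≤ g.len j
  hi : ∀ j, g.len j ≤ A

/-- `g'` is a deeper level of the same piece. -/
structure Pc.Cmp (g g' : Pc) : Prop where
  he : g'.ε = g.ε
  hu : g.u ≤ g'.u
  hX : g'.u - g.u ≤ g.X - g'.X
  hY : g'.u - g.u ≤ g.Y - g'.Y
  hK : g'.u - g.u ≤ g.Kc - g'.Kc
  len : ∀ j, g'.len j ≤ g.len j ∧ g.len j - g'.len j ≤ 6 * (g'.u - g.u)
  vtx : ∀ j, |(g.vtx j).1 - (g'.vtx j).1| ≤ 6 * (g'.u - g.u) ∧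
    |(g.vtx j).2 - (g'.vtx j).2| ≤ 6 * (g'.u - g.u)

noncomputable def pKc (ε h H K u : ℝ) : ℝ := smin ε (K - u) (h + H - 2 * u - 3 * ε)
noncomputable def pX (ε h H K u : ℝ) : ℝ := smin ε (h - u) (pKc ε h H K u - u - ε)
noncomputable def pY (ε h H K u : ℝ) : ℝ := smin ε (H - u) (pKc ε h H K u - u - ε)

/-- rectangle `h × 2w`. -/
noncomputable def geoA (ε h w u : ℝ) : Pc :=
  ⟨ε, w, u, h - u, 2 * w - u, h + 2 * w - 2 * u - 3 * ε, w - ε, w - 2 * ε⟩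

/-- pentagon `h × H` cut by `y₂ + ŷ < K`. -/
noncomputable def geoB (ε h w H K u : ℝ) : Pc :=
  ⟨ε, w, u, pX ε h H K u, pY ε h H K u, pKc ε h H K u,
    u + 2 * (pKc ε h H K u - pY ε h H K u - u) / 3, u + (pKc ε h H K u - pY ε h H K u - u) / 3⟩

/-- numerical hypotheses on the data at one parameter value. -/
structure Dat (ε A h w H K : ℝ) : Prop where
  pos : 0 < ε
  hw : 20 * ε ≤ w
  hh : 2 * w ≤ h
  hH : 2 * w ≤ H
  hK : 3 * w ≤ K
  hhK : h ≤ K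
  hA : h + H ≤ A

variable {κ : Type}

/-- smooth data of a family of chains of pieces. -/
structure WData (κ : Type) where
  lam : ℕ
  ε : ℝ
  ν : ℝ
  h : (κ → ℝ) → ℝ
  w : (κ → ℝ) → ℝ
  H : (κ → ℝ) → ℝ
  K : (κ → ℝ) → ℝ

/-- standing hypotheses on the data over the open set `O`. -/
structure WData.Ok [Fintype κ] (D : WData κ) (O : Set (κ → ℝ)) (A κ₀ : ℝ) : Prop where
  lam_pos : 1 ≤ D.lam
  isOpen : IsOpen O
  sh : ContDiff ℝ ∞ D.h
  sw : ContDiff ℝ ∞ D.w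
  sH : ContDiff ℝ ∞ D.H
  sK : ContDiff ℝ ∞ D.K
  dat : ∀ t ∈ O, Dat D.ε A (D.h t) (D.w t) (D.H t) (D.K t)
  ε_pos : 0 < D.ε
  ν_pos : 0 < D.ν
  ν_le : D.ν ≤ 1 / 100
  νA : 1000 * D.ν * A ≤ D.ε
  κ_pos : 0 < κ₀
  κ_le : κ₀ ≤ 1 / 4
  νκ : 6 * D.ν ≤ κ₀

noncomputable def WData.geo (D : WData κ) (p : ℕ) (u : ℝ) (t : κ → ℝ) : Pc :=
  if p + 1 < D.lam then geoA D.ε (D.h t) (D.w t) u
  else geoB D.ε (D.h t) (D.w t) (D.H t) (D.K t) u

/-- base map of the piece `p`: `(M, u, t) ↦ (ŷ, y₂, t)`. -/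
noncomputable def WData.Yp (D : WData κ) (p : ℕ) (y : Option (Option κ) → ℝ) :
    Option (Option κ) → ℝ :=
  mk3 ((D.geo p (y (some none)) (tt y)).pt D.ν (y none)).2
    ((D.geo p (y (some none)) (tt y)).pt D.ν (y none)).1 (tt y)

/-- index of the piece visited at time `M`. -/
noncomputable def WData.pc (D : WData κ) (M : ℝ) : ℕ := (⌊(M + 1 / 8) / 10⌋ % (D.lam : ℤ)).toNat

noncomputable def WData.W (D : WData κ) (M : ℝ) (b : Option κ → ℝ) : ℝ :=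
  (D.geo (D.pc M) (b none) (bb b)).wid D.ν M

/-- base of the window. -/
def WData.Z (D : WData κ) (O : Set (κ → ℝ)) : Set (Option κ → ℝ) :=
  {b | bb b ∈ O ∧ 0 < b none ∧ b none < D.w (bb b) - 10 * D.ε}

/-- the family of polygons. -/
def polyV (lam : ℕ) (h w H K : (κ → ℝ) → ℝ) (O : Set (κ → ℝ)) : Set (Option (Option κ) → ℝ) :=
  {y | tt y ∈ O ∧ 0 < y (some none) ∧ y (some none) < h (tt y) ∧ 0 < y none ∧
    y none < 2 * ((lam : ℝ) - 1) * w (tt y) + H (tt y) ∧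
    y (some none) + y none < 2 * ((lam : ℝ) - 1) * w (tt y) + K (tt y)}

/-- maps permuting `N` lanes of width `w` while `y (some none)` crosses `[x₀, x₀ + s]`. -/
structure IsPerm [Fintype κ] [DecidableEq κ] (N : ℕ) (π : ℕ → ℕ) (w x₀ : (κ → ℝ) → ℝ)
    (s κ₀ : ℝ) (G : ℕ → Ph (Option (Option κ)) → Ph (Option (Option κ))) : Prop where
  symp : ∀ m, Symp (G m) univ
  keep : ∀ m z, (G m z).1 (some none) = z.1 (some none) ∧ tt (G m z).1 = tt z.1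
  before : ∀ m < N, ∀ z, z.1 (some none) ≤ x₀ (tt z.1) →
    G m z = Tr none (fun y => (m : ℝ) * w (tt y)) z
  after : ∀ m < N, ∀ z, x₀ (tt z.1) + s ≤ z.1 (some none) →
    G m z = Tr none (fun y => (π m : ℝ) * w (tt y)) z
  range : ∀ m < N, ∀ z, 0 < z.1 none → z.1 none < w (tt z.1) →
    0 < (G m z).1 none ∧ (G m z).1 none < N * w (tt z.1)
  sep : ∀ m < N, ∀ m' < N, ∀ (z z' : Ph (Option (Option κ))) (n n' : ℤ),
    0 < z.1 none → z.1 none < w (tt z.1) → 0 < z'.1 none → z'.1 none < w (tt z'.1) →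
    n + κ₀ < z.2 none → z.2 none < n + 1 - κ₀ → n' + κ₀ < z'.2 none → z'.2 none < n' + 1 - κ₀ →
    (m = m' → n = n') → LatEq (G m z) (G m' z') → m = m' ∧ LatEq z z'

/-- cyclic permutation of the even lanes. -/
def lanePerm (lam m : ℕ) : ℕ := if m % 2 = 0 then 2 * ((m / 2 + 1) % lam) else m

/-- the window map before the disc-to-rectangle map. -/
noncomputable def WData.E [Fintype κ] [DecidableEq κ] (D : WData κ)
    (G : ℕ → Ph (Option (Option κ)) → Ph (Option (Option κ))) (z : Ph (Option (Option κ))) :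
    Ph (Option (Option κ)) :=
  if z.1 none - 10 * (⌊(z.1 none + 1 / 8) / 10⌋ : ℝ) < 13 / 2 then
    (if D.pc (z.1 none) + 1 < D.lam then
      G (2 * D.pc (z.1 none) + 1)
        (Tr none (fun y => -D.w (tt y)) (liftF (D.Yp (D.pc (z.1 none))) (fun _ => 0) z))
    else Tr none (fun y => ((2 * D.pc (z.1 none) : ℕ) : ℝ) * D.w (tt y))
      (liftF (D.Yp (D.pc (z.1 none))) (fun _ => 0) z))
  else G (2 * D.pc (z.1 none)) (liftF (D.Yp (D.pc (z.1 none))) (fun _ => 0) z)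

/-- the angle conjugate to the depth lies in `(κ₀, 1 - κ₀)`. -/
def angS (κ : Type) (κ₀ : ℝ) : Set (Ph (Option (Option κ))) :=
  {z | κ₀ < z.2 (some none) ∧ z.2 (some none) < 1 - κ₀}

/-- lattice vector of the handle. -/
def handleV : Option (Option κ) → ℤ
  | none => -1
  | some none => 1
  | some (some _) => 0

end Vale.Agent.P209
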