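import Vale.Agent.P209.WDefs
import Vale.Agent.P209.Ramp

/-! The rounded loop. Plan: `vtx_succ` by cases on `ix j` (`omega`, `interval_cases`).
`pt_eq_loc`: `round M ∈ {j - 1, j, j + 1}`; if `round M = j + 1` then `M - j ≥ 1/2 ≥ ν` and
`j + 1 - M ≥ ν`, so both formulas give `vtx j + (M - j) len • dirn` (`ramp_of_ge`, `ramp_of_le`).
`integral_wid`: `wid` is the derivative of the arclength function; e.g. shift to `c = -1/2`
(`Function.Periodic.intervalIntegral_add_eq`), split into ten unit intervals, FTC with `ramp`.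
`pt_mem`: the point is a convex combination of three consecutive vertices
(`ramp x + ramp (-x) ≤ 1` for `|x| ≤ 1/2`). -/

open scoped ContDiff Topology
open Set MeasureTheory

namespace Vale.Agent.P209

variable {ν A : ℝ} {g : Pc}

/-- the polygon itself, piecewise linear parametrisation. -/
noncomputable def Pc.pl (g : Pc) (M : ℝ) : ℝ × ℝ :=
  g.vtx (ix ⌊M⌋) + (Int.fract M * g.len (ix ⌊M⌋)) • dirn (ix ⌊M⌋)

theorem ix_lt (j : ℤ) : ix j < 10 := by
  unfold ix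
  omega

theorem ix_add (j c : ℤ) : ix (j + 10 * c) = ix j := by
  unfold ix
  omega

theorem Pc.vtx_succ (g : Pc) (j : ℤ) :
    g.vtx (ix (j + 1)) = g.vtx (ix j) + g.len (ix j) • dirn (ix j) := by
  have h1 : ix (j + 1) = (ix j + 1) % 10 := by
    unfold ix
    omega
  have h2 := ix_lt j
  rw [h1]
  generalize ix j = i at h2
  interval_cases i <;> refine Prod.ext ?_ ?_ <;> simp [Pc.vtx, Pc.len, dirn] <;> ring

theorem wloop_right (h0 : 0 < ν) (g : Pc) (j : ℤ) {M : ℝ} (h : j + ν ≤ M) :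
    g.loc ν j M = g.vtx (ix j) + ((M - j) * g.len (ix j)) • dirn (ix j) ∧
      g.locW ν j M = g.len (ix j) := by
  unfold Pc.loc Pc.locW
  rw [ramp_of_ge h0 (x := M - j) (by linarith), ramp_of_le h0 (x := j - M) (by linarith),
    rp_of_ge h0 (x := M - j) (by linarith), rp_of_le h0 (x := j - M) (by linarith)]
  simp

theorem wloop_left (h0 : 0 < ν) (g : Pc) (j : ℤ) {M : ℝ} (h : M ≤ j + 1 - ν) :
    g.loc ν (j + 1) M = g.vtx (ix j) + ((M - j) * g.len (ix j)) • dirn (ix j) ∧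
      g.locW ν (j + 1) M = g.len (ix j) := by
  unfold Pc.loc Pc.locW
  push_cast
  rw [ramp_of_ge h0 (x := j + 1 - M) (by linarith), ramp_of_le h0 (x := M - (j + 1)) (by linarith),
    rp_of_ge h0 (x := j + 1 - M) (by linarith), rp_of_le h0 (x := M - (j + 1)) (by linarith),
    add_sub_cancel_right, g.vtx_succ]
  refine ⟨?_, by simp⟩
  module

theorem wloop_eq (h0 : 0 < ν) (h1 : ν ≤ 1 / 100) (g : Pc) (j : ℤ) {M : ℝ}
    (h : |M - j| ≤ 1 - ν) : g.pt ν M = g.loc ν j M ∧ g.wid ν M = g.locW ν j M := by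
  unfold Pc.pt Pc.wid
  have h2 := abs_le.1 (abs_sub_round M)
  have h3 := abs_le.1 h
  generalize round M = k at h2
  have h4 : (k : ℝ) < j + 2 := by linarith
  have h5 : (j : ℝ) < k + 2 := by linarith
  have h6 : k < j + 2 := by exact_mod_cast h4
  have h7 : j < k + 2 := by exact_mod_cast h5
  rcases (by omega : k = j ∨ k = j + 1 ∨ j = k + 1) with rfl | rfl | rfl
  · exact ⟨rfl, rfl⟩
  · push_cast at h2
    have a := wloop_right h0 g j (M := M) (by linarith)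
    have b := wloop_left h0 g j (M := M) (by linarith)
    exact ⟨b.1.trans a.1.symm, b.2.trans a.2.symm⟩
  · push_cast at h3
    have a := wloop_right h0 g k (M := M) (by linarith)
    have b := wloop_left h0 g k (M := M) (by linarith)
    exact ⟨a.1.trans b.1.symm, a.2.trans b.2.symm⟩

theorem wloop_add (g : Pc) (M : ℝ) (c : ℤ) :
    g.pt ν (M + 10 * c) = g.pt ν M ∧ g.wid ν (M + 10 * c) = g.wid ν M := by
  have h1 : round (M + 10 * c) = round M + 10 * c := by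
    rw [← round_add_intCast]
    push_cast
    rfl
  have h2 : ∀ k : ℤ, ix (k + 10 * c - 1) = ix (k - 1) := fun k => by
    unfold ix
    omega
  unfold Pc.pt Pc.wid Pc.loc Pc.locW
  rw [h1, h2, ix_add]
  push_cast
  rw [add_sub_add_right_eq_sub, add_sub_add_right_eq_sub]
  exact ⟨rfl, rfl⟩

theorem wloop_near (h1 : ν ≤ 1 / 100) (M₀ : ℝ) :
    ∀ᶠ M : ℝ in 𝓝 M₀, |M - (round M₀ : ℝ)| ≤ 1 - ν := by
  have h2 := abs_le.1 (abs_sub_round M₀)
  filter_upwards [Icc_mem_nhds (show M₀ - 1 / 4 < M₀ by linarith)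
    (show M₀ < M₀ + 1 / 4 by linarith)] with M hM
  exact abs_le.2 ⟨by linarith [hM.1], by linarith [hM.2]⟩

theorem Pc.pt_eq_loc (h0 : 0 < ν) (h1 : ν ≤ 1 / 100) (g : Pc) (j : ℤ) {M : ℝ}
    (h : |M - j| ≤ 1 - ν) : g.pt ν M = g.loc ν j M := (wloop_eq h0 h1 g j h).1

theorem Pc.wid_eq_locW (h0 : 0 < ν) (h1 : ν ≤ 1 / 100) (g : Pc) (j : ℤ) {M : ℝ}
    (h : |M - j| ≤ 1 - ν) : g.wid ν M = g.locW ν j M := (wloop_eq h0 h1 g j h).2

theorem Pc.pt_add (g : Pc) (M : ℝ) (c : ℤ) : g.pt ν (M + 10 * c) = g.pt ν M :=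
  (wloop_add g M c).1

theorem Pc.wid_add (g : Pc) (M : ℝ) (c : ℤ) : g.wid ν (M + 10 * c) = g.wid ν M :=
  (wloop_add g M c).2

theorem Pc.pt_pure (h0 : 0 < ν) (h1 : ν ≤ 1 / 100) (g : Pc) (j : ℤ) {M : ℝ} (h : j + ν ≤ M)
    (h' : M ≤ j + 1 - ν) :
    g.pt ν M = g.vtx (ix j) + ((M - j) * g.len (ix j)) • dirn (ix j) ∧
      g.wid ν M = g.len (ix j) := by
  have a := wloop_eq h0 h1 g j (M := M) (abs_le.2 ⟨by linarith, by linarith⟩)
  have b := wloop_right h0 g j h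
  exact ⟨a.1.trans b.1, a.2.trans b.2⟩

theorem Pc.wid_pos (h0 : 0 < ν) (hg : g.Good A) (M : ℝ) : 0 < g.wid ν M := by
  unfold Pc.wid Pc.locW
  have h1 := rp_add_neg h0 (M - round M)
  rw [neg_sub] at h1
  have h2 := mul_le_mul_of_nonneg_left (hg.lo (ix (round M))) (rp_nonneg ν (M - round M))
  have h3 := mul_le_mul_of_nonneg_left (hg.lo (ix (round M - 1))) (rp_nonneg ν (round M - M))
  have h4 : rp ν (M - round M) * (g.ε / 3) + rp ν (round M - M) * (g.ε / 3) = g.ε / 3 := by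
    rw [← add_mul, h1, one_mul]
  linarith [hg.pos]

theorem Pc.wid_anti {g' : Pc} (h : g.Cmp g') (M : ℝ) : g'.wid ν M ≤ g.wid ν M :=
  add_le_add (mul_le_mul_of_nonneg_left (h.len _).1 (rp_nonneg _ _))
    (mul_le_mul_of_nonneg_left (h.len _).1 (rp_nonneg _ _))

theorem Pc.continuous_wid (h0 : 0 < ν) (h1 : ν ≤ 1 / 100) (g : Pc) :
    Continuous (g.wid ν) := by
  refine continuous_iff_continuousAt.2 fun M₀ => ?_
  have hc := (contDiff_rp ν).continuous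
  have h2 : Continuous (g.locW ν (round M₀)) := by
    unfold Pc.locW
    fun_prop
  exact h2.continuousAt.congr
    ((wloop_near h1 M₀).mono fun M hM => (g.wid_eq_locW h0 h1 _ hM).symm)

theorem wloop_int (h0 : 0 < ν) (h1 : ν ≤ 1 / 100) (g : Pc) (j : ℤ) :
    ∫ M in ((j : ℝ) - 1 / 2)..((j : ℝ) + 1 / 2), g.wid ν M =
      (g.len (ix j) + g.len (ix (j - 1))) / 2 := by
  have hd : ∀ M ∈ uIcc ((j : ℝ) - 1 / 2) ((j : ℝ) + 1 / 2), HasDerivAt
      (fun M => ramp ν (M - j) * g.len (ix j) - ramp ν (j - M) * g.len (ix (j - 1)))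
      (g.wid ν M) M := fun M hM => by
    rw [uIcc_of_le (by linarith)] at hM
    rw [g.wid_eq_locW h0 h1 j (abs_le.2 ⟨by linarith [hM.1], by linarith [hM.2]⟩)]
    have a := ((hasDerivAt_ramp ν (M - j)).comp M ((hasDerivAt_id M).sub_const (j : ℝ))).mul_const
      (g.len (ix j))
    have b := ((hasDerivAt_ramp ν (j - M)).comp M ((hasDerivAt_id M).const_sub (j : ℝ))).mul_const
      (g.len (ix (j - 1)))
    exact (a.sub b).congr_deriv (by unfold Pc.locW; ring)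
  rw [intervalIntegral.integral_eq_sub_of_hasDerivAt hd
    ((g.continuous_wid h0 h1).intervalIntegrable _ _),
    ramp_of_ge h0 (x := j + 1 / 2 - j) (by linarith),
    ramp_of_le h0 (x := j - (j + 1 / 2)) (by linarith),
    ramp_of_le h0 (x := j - 1 / 2 - j) (by linarith),
    ramp_of_ge h0 (x := j - (j - 1 / 2)) (by linarith)]
  ring

theorem Pc.integral_wid (h0 : 0 < ν) (h1 : ν ≤ 1 / 100) (g : Pc) (c : ℝ) :
    ∫ M in c..c + 10, g.wid ν M = ∑ j ∈ Finset.range 10, g.len j := by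
  have hp : Function.Periodic (g.wid ν) 10 := fun M => by
    simpa using g.wid_add (ν := ν) M 1
  have h2 := intervalIntegral.sum_integral_adjacent_intervals (f := g.wid ν) (μ := volume)
    (a := fun k : ℕ => (k : ℝ) - 1 / 2) (n := 10)
    fun k _ => (g.continuous_wid h0 h1).intervalIntegrable _ _
  have h3 : ∀ k : ℕ, ∫ M in ((k : ℝ) - 1 / 2)..(((k + 1 : ℕ) : ℝ) - 1 / 2), g.wid ν M =
      (g.len (ix k) + g.len (ix (k - 1))) / 2 := fun k => by
    rw [← wloop_int h0 h1 g k]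
    push_cast
    rw [show (k : ℝ) + 1 - 1 / 2 = k + 1 / 2 by ring]
  rw [hp.intervalIntegral_add_eq c (((0 : ℕ) : ℝ) - 1 / 2),
    show ((0 : ℕ) : ℝ) - 1 / 2 + 10 = ((10 : ℕ) : ℝ) - 1 / 2 by norm_num, ← h2]
  simp only [h3, Finset.sum_range_succ, Finset.sum_range_zero]
  norm_num [ix, Int.toNat]
  ring

theorem wloop_vtx (hg : g.Good A) (i : ℕ) :
    g.u ≤ (g.vtx i).1 ∧ (g.vtx i).1 ≤ g.X ∧ g.u ≤ (g.vtx i).2 ∧ (g.vtx i).2 ≤ g.Y ∧
      (g.vtx i).1 + (g.vtx i).2 ≤ g.Kc := by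
  have e := hg.pos
  have a0 : g.ε / 3 ≤ g.X - g.w + g.ε := hg.lo 0
  have a1 : g.ε / 3 ≤ g.Kc - g.X - g.u := hg.lo 1
  have a2 : g.ε / 3 ≤ g.X + g.Y - g.Kc := hg.lo 2
  have a3 : g.ε / 3 ≤ g.Kc - g.Y - g.q4 := hg.lo 3
  have a4 : g.ε / 3 ≤ g.q4 - g.q5 := hg.lo 4
  have a5 : g.ε / 3 ≤ g.q5 - g.u := hg.lo 5
  have a6 : g.ε / 3 ≤ g.Y - g.u := hg.lo 6
  have a8 : g.ε / 3 ≤ g.w - 3 * g.ε - g.u := hg.lo 8
  rcases i with _ | _ | _ | _ | _ | _ | _ | _ | _ | i <;>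
    refine ⟨?_, ?_, ?_, ?_, ?_⟩ <;> simp only [Pc.vtx] <;> linarith

theorem wloop_dirn (i : ℕ) : |(dirn i).1| ≤ 1 ∧ |(dirn i).2| ≤ 1 := by
  rcases i with _ | _ | _ | _ | _ | _ | _ | i <;> simp [dirn]

theorem wloop_abs {r l l' d d' : ℝ} (r0 : 0 ≤ r) (r1 : r ≤ ν) (l0 : 0 ≤ l) (l1 : l ≤ A)
    (l0' : 0 ≤ l') (l1' : l' ≤ A) (hd : |d| ≤ 1) (hd' : |d'| ≤ 1) :
    |r * l * d - r * l' * d'| ≤ 2 * ν * A := by
  have key : ∀ {l d : ℝ}, 0 ≤ l → l ≤ A → |d| ≤ 1 → |r * l * d| ≤ ν * A := fun l0 l1 hd => by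
    rw [abs_mul, abs_of_nonneg (mul_nonneg r0 l0)]
    exact (mul_le_of_le_one_right (mul_nonneg r0 l0) hd).trans
      (mul_le_mul r1 l1 l0 (r0.trans r1))
  linarith [abs_sub (r * l * d) (r * l' * d'), key l0 l1 hd, key l0' l1' hd']

theorem Pc.pt_mem (h0 : 0 < ν) (h1 : ν ≤ 1 / 100) (hg : g.Good A) (M : ℝ) :
    g.u ≤ (g.pt ν M).1 ∧ (g.pt ν M).1 ≤ g.X ∧ g.u ≤ (g.pt ν M).2 ∧ (g.pt ν M).2 ≤ g.Y ∧
      (g.pt ν M).1 + (g.pt ν M).2 ≤ g.Kc := by
  have h2 := abs_le.1 (abs_sub_round M)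
  unfold Pc.pt Pc.loc
  generalize round M = k at h2
  have a0 := ramp_nonneg h0 (M - k)
  have b0 := ramp_nonneg h0 (k - M)
  have hab : ramp ν (M - k) + ramp ν (k - M) ≤ 1 := by
    have a1 := ramp_le_max h0 (M - k)
    have b1 := ramp_le_max h0 (k - M)
    rcases le_total M k with h | h
    · rw [max_eq_right (by linarith)] at a1
      rw [max_eq_left (by linarith)] at b1
      linarith
    · rw [max_eq_left (by linarith)] at a1
      rw [max_eq_right (by linarith)] at b1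
      linarith
  generalize ramp ν (M - k) = a at *
  generalize ramp ν (k - M) = b at *
  have e1 := g.vtx_succ k
  have e2 := g.vtx_succ (k - 1)
  rw [sub_add_cancel] at e2
  have e3 : g.vtx (ix k) + (a * g.len (ix k)) • dirn (ix k) -
      (b * g.len (ix (k - 1))) • dirn (ix (k - 1)) =
      (1 - a - b) • g.vtx (ix k) + a • g.vtx (ix (k + 1)) + b • g.vtx (ix (k - 1)) := by
    rw [e1, eq_sub_of_add_eq e2.symm]
    module
  have c0 : 0 ≤ 1 - a - b := by linarith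
  obtain ⟨p1, p2, p3, p4, p5⟩ := wloop_vtx hg (ix k)
  obtain ⟨q1, q2, q3, q4, q5⟩ := wloop_vtx hg (ix (k + 1))
  obtain ⟨r1, r2, r3, r4, r5⟩ := wloop_vtx hg (ix (k - 1))
  rw [e3]
  simp only [Prod.fst_add, Prod.snd_add, Prod.smul_fst, Prod.smul_snd, smul_eq_mul]
  refine ⟨?_, ?_, ?_, ?_, ?_⟩
  · linarith [mul_le_mul_of_nonneg_left p1 c0, mul_le_mul_of_nonneg_left q1 a0,
      mul_le_mul_of_nonneg_left r1 b0]
  · linarith [mul_le_mul_of_nonneg_left p2 c0, mul_le_mul_of_nonneg_left q2 a0,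
      mul_le_mul_of_nonneg_left r2 b0]
  · linarith [mul_le_mul_of_nonneg_left p3 c0, mul_le_mul_of_nonneg_left q3 a0,
      mul_le_mul_of_nonneg_left r3 b0]
  · linarith [mul_le_mul_of_nonneg_left p4 c0, mul_le_mul_of_nonneg_left q4 a0,
      mul_le_mul_of_nonneg_left r4 b0]
  · linarith [mul_le_mul_of_nonneg_left p5 c0, mul_le_mul_of_nonneg_left q5 a0,
      mul_le_mul_of_nonneg_left r5 b0]

theorem Pc.pt_sub_pl (h0 : 0 < ν) (h1 : ν ≤ 1 / 100) (hg : g.Good A) (M : ℝ) :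
    |(g.pt ν M).1 - (g.pl M).1| ≤ 2 * ν * A ∧ |(g.pt ν M).2 - (g.pl M).2| ≤ 2 * ν * A := by
  have f0 := Int.floor_le M
  have f1 := Int.lt_floor_add_one M
  have l0 : ∀ i, 0 ≤ g.len i := fun i => by linarith [hg.lo i, hg.pos]
  have key : ∃ (r : ℝ) (i i' : ℕ), 0 ≤ r ∧ r ≤ ν ∧
      g.pt ν M - g.pl M = (r * g.len i) • dirn i - (r * g.len i') • dirn i' := by
    unfold Pc.pl Int.fract
    generalize ⌊M⌋ = j at *
    rcases le_total (M - j) (1 / 2) with h | h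
    · refine ⟨ramp ν (j - M), ix j, ix (j - 1), ramp_nonneg h0 _,
        ramp_le_of_le h0 (by linarith), ?_⟩
      have e := ramp_sub h0 (M - j)
      rw [neg_sub] at e
      rw [g.pt_eq_loc h0 h1 j (abs_le.2 ⟨by linarith, by linarith⟩), Pc.loc,
        eq_add_of_sub_eq e]
      module
    · refine ⟨ramp ν (M - (j + 1)), ix (j + 1), ix j, ramp_nonneg h0 _,
        ramp_le_of_le h0 (by linarith), ?_⟩
      have e := ramp_sub h0 (j + 1 - M)
      rw [neg_sub] at e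
      rw [g.pt_eq_loc h0 h1 (j + 1) (abs_le.2 ⟨by push_cast; linarith, by push_cast; linarith⟩),
        Pc.loc, add_sub_cancel_right, g.vtx_succ]
      push_cast
      rw [eq_add_of_sub_eq e]
      module
  obtain ⟨r, i, i', r0, r1, e⟩ := key
  rw [← Prod.fst_sub, ← Prod.snd_sub, e]
  exact ⟨wloop_abs r0 r1 (l0 i) (hg.hi i) (l0 i') (hg.hi i') (wloop_dirn i).1 (wloop_dirn i').1,
    wloop_abs r0 r1 (l0 i) (hg.hi i) (l0 i') (hg.hi i') (wloop_dirn i).2 (wloop_dirn i').2⟩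

variable {κ : Type} [Fintype κ]

/-- joint smoothness of the loop for smoothly varying vertices and lengths. -/
theorem contDiff_pt {E : Type} [NormedAddCommGroup E] [NormedSpace ℝ E] (h0 : 0 < ν)
    (h1 : ν ≤ 1 / 100) (g : E → Pc) (hv : ∀ j, ContDiff ℝ ∞ (fun e => (g e).vtx j))
    (hl : ∀ j, ContDiff ℝ ∞ (fun e => (g e).len j)) :
    ContDiff ℝ ∞ (fun q : ℝ × E => (g q.2).pt ν q.1) ∧
      ContDiff ℝ ∞ (fun q : ℝ × E => (g q.2).wid ν q.1) := by
  have hn : ∀ q₀ : ℝ × E, ∀ᶠ q : ℝ × E in 𝓝 q₀, |q.1 - (round q₀.1 : ℝ)| ≤ 1 - ν := fun q₀ =>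
    continuous_fst.continuousAt.eventually (wloop_near h1 q₀.1)
  have a : ∀ (f : ℝ → ℝ) (c : ℝ) (i : ℕ), ContDiff ℝ ∞ f →
      ContDiff ℝ ∞ fun q : ℝ × E => f (q.1 - c) * (g q.2).len i := fun f c i hf =>
    (hf.comp (contDiff_fst.sub contDiff_const)).mul ((hl i).comp contDiff_snd)
  have b : ∀ (f : ℝ → ℝ) (c : ℝ) (i : ℕ), ContDiff ℝ ∞ f →
      ContDiff ℝ ∞ fun q : ℝ × E => f (c - q.1) * (g q.2).len i := fun f c i hf =>
    (hf.comp (contDiff_const.sub contDiff_fst)).mul ((hl i).comp contDiff_snd)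
  refine ⟨contDiff_iff_contDiffAt.2 fun q₀ => ?_, contDiff_iff_contDiffAt.2 fun q₀ => ?_⟩
  · have h2 : ContDiff ℝ ∞ fun q : ℝ × E => (g q.2).loc ν (round q₀.1) q.1 :=
      (((hv _).comp contDiff_snd).add ((a _ _ _ (contDiff_ramp ν)).smul contDiff_const)).sub
        ((b _ _ _ (contDiff_ramp ν)).smul contDiff_const)
    exact h2.contDiffAt.congr_of_eventuallyEq
      ((hn q₀).mono fun q hq => (g q.2).pt_eq_loc h0 h1 _ hq)
  · have h2 : ContDiff ℝ ∞ fun q : ℝ × E => (g q.2).locW ν (round q₀.1) q.1 :=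
      (a _ _ _ (contDiff_rp ν)).add (b _ _ _ (contDiff_rp ν))
    exact h2.contDiffAt.congr_of_eventuallyEq
      ((hn q₀).mono fun q hq => (g q.2).wid_eq_locW h0 h1 _ hq)

end Vale.Agent.P209
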