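import Vale.Agent.P209.WGeo
import Vale.Agent.P209.WLoop

/-! Derivative of the base map of a piece. Plan: near `y` the loop is `loc j`, `j = round M`,
`x = M - j`. `T = ∂_M = α d + β d'` with `d = dirn (ix (j-1))`, `d' = dirn (ix j)`,
`α = rp (-x) len (j-1)`, `β = rp x len j`, `α + β = wid > 0`;
`e = ∂_u = vtx' + ramp x len'_j d' - ramp (-x) len'_{j-1} d`. With the inner normals
`n = (-d.2, d.1)`, `n' = (-d'.2, d'.1)`: `n · vtx' ≥ 1`, `n' · vtx' ≥ 1` (`deriv_geoB`),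
`-6 ≤ len' ≤ 0`; if `α > 0` then `x < ν`, `ramp x ≤ ν`, so `n · e ≥ 1 - 6ν`, likewise for `β`.
`lattice` is pure algebra. Injectivity: the parameters are kept and
`det (T, e) = α n·e + β n'·e > 0`. -/

open scoped ContDiff Topology
open Set MeasureTheory

namespace Vale.Agent.P209

theorem wder_half {a b : ℤ} {t t' α β c : ℝ} (hc : 0 < c) (hα : 0 ≤ α) (hβ : 0 ≤ β)
    (h1 : 0 < α → c ≤ t) (h2 : 0 < β → c ≤ t') (h3 : t * b - t' * a < c)
    (h4 : α * a + β * b < α + β) (h5 : -(α + β) < α * a + β * b) : b ≤ 0 := by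
  by_contra hb
  have hb1 : (1 : ℝ) ≤ b := by exact_mod_cast (by omega : 1 ≤ b)
  have h6 : α * a < α := by nlinarith
  have h7 : 0 < α := by
    rcases hα.eq_or_lt with h | h
    · rw [← h] at h6
      simp at h6
    · exact h
  have h8 : a ≤ 0 := by
    have : (a : ℝ) < 1 := by nlinarith
    have : a < 1 := by exact_mod_cast this
    omega
  have h9 := h1 h7
  have h10 : 0 < t' * a := by nlinarith
  have h11 : a ≠ 0 := by
    rintro rfl
    simp at h10
  have h12 : (a : ℝ) ≤ -1 := by exact_mod_cast (by omega : a ≤ -1)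
  rcases hβ.eq_or_lt with h | h
  · rw [← h] at h5
    nlinarith
  · have := h2 h
    nlinarith

theorem wder_core {a b : ℤ} {t t' α β c : ℝ} (hα : 0 ≤ α) (hβ : 0 ≤ β)
    (h1 : 0 < α → c ≤ t) (h2 : 0 < β → c ≤ t') (h3 : |t * b - t' * a| < c)
    (h4 : |α * a + β * b| < α + β) : a = 0 ∧ b = 0 := by
  have hc : 0 < c := (abs_nonneg _).trans_lt h3
  obtain ⟨h5, h6⟩ := abs_lt.1 h3
  obtain ⟨h7, h8⟩ := abs_lt.1 h4
  have e1 := wder_half hc hα hβ h1 h2 h6 h8 h7
  have e2 := wder_half (a := -a) (b := -b) hc hα hβ h1 h2 (by push_cast; linarith)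
    (by push_cast; linarith) (by push_cast; linarith)
  have e3 := wder_half (a := b) (b := a) hc hβ hα h2 h1 (by linarith) (by linarith) (by linarith)
  have e4 := wder_half (a := -b) (b := -a) hc hβ hα h2 h1 (by push_cast; linarith)
    (by push_cast; linarith) (by push_cast; linarith)
  omega

theorem wder_basis {d d' : ℤ × ℤ} {α β c : ℝ} {e : ℝ × ℝ} (hd : d.1 * d'.2 - d.2 * d'.1 = 1)
    (hα : 0 ≤ α) (hβ : 0 ≤ β)
    (h1 : 0 < α → c ≤ -d.2 * e.1 + d.1 * e.2) (h2 : 0 < β → c ≤ -d'.2 * e.1 + d'.1 * e.2)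
    (m : ℤ × ℤ) (hm1 : |m.1 * e.1 + m.2 * e.2| < c)
    (hm2 : |m.1 * (α * d.1 + β * d'.1) + m.2 * (α * d.2 + β * d'.2)| < α + β) : m = 0 := by
  have hd' : (d.1 : ℝ) * d'.2 - d.2 * d'.1 = 1 := by exact_mod_cast hd
  obtain ⟨ha, hb⟩ := wder_core (a := m.1 * d.1 + m.2 * d.2) (b := m.1 * d'.1 + m.2 * d'.2) hα hβ
    h1 h2 (by
      refine lt_of_eq_of_lt (congrArg abs ?_) hm1
      push_cast
      linear_combination (m.1 * e.1 + m.2 * e.2) * hd') (by
      refine lt_of_eq_of_lt (congrArg abs ?_) hm2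
      push_cast
      ring)
  refine Prod.ext ?_ ?_
  · change m.1 = 0
    linear_combination d'.2 * ha - d.2 * hb - m.1 * hd
  · change m.2 = 0
    linear_combination d.1 * hb - d'.1 * ha - m.2 * hd

/-- lattice lemma: `d, d'` equal (and part of a basis) or a positive basis of `ℤ²`. -/
theorem lattice {d d' : ℤ × ℤ} {α β c : ℝ} {e : ℝ × ℝ}
    (hd : d.1 * d'.2 - d.2 * d'.1 = 1 ∨ (d = d' ∧ ∃ f : ℤ × ℤ, d.1 * f.2 - d.2 * f.1 = 1))
    (hα : 0 ≤ α) (hβ : 0 ≤ β) (hs : 0 < α + β)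
    (h1 : 0 < α → c ≤ -d.2 * e.1 + d.1 * e.2) (h2 : 0 < β → c ≤ -d'.2 * e.1 + d'.1 * e.2)
    (m : ℤ × ℤ) (hm1 : |m.1 * e.1 + m.2 * e.2| < c)
    (hm2 : |m.1 * (α * d.1 + β * d'.1) + m.2 * (α * d.2 + β * d'.2)| < α + β) : m = 0 := by
  rcases hd with hd | ⟨rfl, f, hf⟩
  · exact wder_basis hd hα hβ h1 h2 m hm1 hm2
  · refine wder_basis (α := α + β) (β := 0) hf hs.le le_rfl (fun _ => ?_)
      (fun h => absurd h (lt_irrefl _)) m hm1 ?_
    · rcases hα.eq_or_lt with h | h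
      · exact h2 (by linarith)
      · exact h1 h
    · rw [add_zero]
      refine lt_of_eq_of_lt (congrArg abs ?_) hm2
      ring

variable {κ : Type} [Fintype κ] [DecidableEq κ] {D : WData κ} {O : Set (κ → ℝ)} {A κ₀ : ℝ}

/-- integral directions -/
def wderDir : ℕ → ℤ × ℤ
  | 0 => (1, 0)
  | 1 => (0, 1)
  | 2 => (-1, 1)
  | 3 => (-1, 0)
  | 4 => (-1, 0)
  | 5 => (-1, 0)
  | 6 => (0, -1)
  | _ => (1, 0)

theorem wder_dirn (i : ℕ) : dirn i = (((wderDir i).1 : ℝ), ((wderDir i).2 : ℝ)) := by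
  match i with
  | 0 | 1 | 2 | 3 | 4 | 5 | 6 | (n + 7) => simp [dirn, wderDir]

theorem wder_ix (j : ℤ) : ∃ i < 10, ix j = i ∧ ix (j - 1) = (i + 9) % 10 :=
  ⟨ix j, by unfold ix; omega, rfl, by unfold ix; omega⟩

theorem wder_det (j : ℤ) :
    (wderDir (ix (j - 1))).1 * (wderDir (ix j)).2 - (wderDir (ix (j - 1))).2 * (wderDir (ix j)).1 = 1 ∨
    (wderDir (ix (j - 1)) = wderDir (ix j) ∧
      ∃ f : ℤ × ℤ, (wderDir (ix (j - 1))).1 * f.2 - (wderDir (ix (j - 1))).2 * f.1 = 1) := by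
  obtain ⟨i, hi, e1, e2⟩ := wder_ix j
  rw [e1, e2]
  interval_cases i
  all_goals first
    | exact Or.inl (by decide)
    | exact Or.inr ⟨by decide, (0, 1), by decide⟩
    | exact Or.inr ⟨by decide, (0, -1), by decide⟩

theorem wder_fields {g : ℝ → Pc} {g' : Pc} {u : ℝ} (h1 : HasDerivAt (fun s => (g s).ε) g'.ε u)
    (h2 : HasDerivAt (fun s => (g s).w) g'.w u) (h3 : HasDerivAt (fun s => (g s).u) g'.u u)
    (h4 : HasDerivAt (fun s => (g s).X) g'.X u) (h5 : HasDerivAt (fun s => (g s).Y) g'.Y u)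
    (h6 : HasDerivAt (fun s => (g s).Kc) g'.Kc u) (h7 : HasDerivAt (fun s => (g s).q4) g'.q4 u)
    (h8 : HasDerivAt (fun s => (g s).q5) g'.q5 u) (i : ℕ) :
    HasDerivAt (fun s => (g s).vtx i) (g'.vtx i) u ∧
      HasDerivAt (fun s => (g s).len i) (g'.len i) u := by
  match i with
  | 0 => exact ⟨(h2.sub h1).prodMk h3, (h4.sub h2).add h1⟩
  | 1 => exact ⟨h4.prodMk h3, (h6.sub h4).sub h3⟩
  | 2 => exact ⟨h4.prodMk (h6.sub h4), (h4.add h5).sub h6⟩
  | 3 => exact ⟨(h6.sub h5).prodMk h5, (h6.sub h5).sub h7⟩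
  | 4 => exact ⟨h7.prodMk h5, h7.sub h8⟩
  | 5 => exact ⟨h8.prodMk h5, h8.sub h3⟩
  | 6 => exact ⟨h3.prodMk h5, h5.sub h3⟩
  | 7 => exact ⟨h3.prodMk h3, h1⟩
  | 8 => exact ⟨(h3.add h1).prodMk h3, (h2.sub (h1.const_mul 3)).sub h3⟩
  | (n + 9) => exact ⟨(h2.sub (h1.const_mul 2)).prodMk h3, h1⟩

omit [Fintype κ] [DecidableEq κ] in
theorem wder_geo (D : WData κ) (p : ℕ) (t : κ → ℝ) (u : ℝ) : ∃ g' : Pc,
    (∀ i, HasDerivAt (fun s => (D.geo p s t).vtx i) (g'.vtx i) u ∧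
      HasDerivAt (fun s => (D.geo p s t).len i) (g'.len i) u) ∧
    g'.u = 1 ∧ g'.X ≤ -1 ∧ g'.Y ≤ -1 ∧ g'.Kc ≤ -1 ∧ ∀ i, -6 ≤ g'.len i ∧ g'.len i ≤ 0 := by
  by_cases hp : p + 1 < D.lam
  · simp only [WData.geo, if_pos hp]
    refine ⟨⟨0, 0, 1, -1, -1, -(2 * 1), 0, 0⟩, wder_fields (hasDerivAt_const _ _)
      (hasDerivAt_const _ _) (hasDerivAt_id' u) ((hasDerivAt_id' u).const_sub _)
      ((hasDerivAt_id' u).const_sub _)
      ((((hasDerivAt_id' u).const_mul 2).const_sub _).sub_const _) (hasDerivAt_const _ _)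
      (hasDerivAt_const _ _), rfl, le_rfl, le_rfl, by norm_num, fun i => ?_⟩
    match i with
    | 0 | 1 | 2 | 3 | 4 | 5 | 6 | 7 | 8 | (n + 9) =>
      simp only [Pc.len]
      norm_num
  · simp only [WData.geo, if_neg hp]
    obtain ⟨X', Y', K', hX, hY, hK, b1, b2, b3, b4, b5, b6⟩ :=
      deriv_geoB D.ε (D.h t) (D.H t) (D.K t) u
    have h := (hK.sub hY).sub (hasDerivAt_id' u)
    refine ⟨⟨0, 0, 1, X', Y', K', 1 + 2 * (K' - Y' - 1) / 3, 1 + (K' - Y' - 1) / 3⟩,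
      wder_fields (hasDerivAt_const _ _) (hasDerivAt_const _ _) (hasDerivAt_id' u) hX hY hK
      ((hasDerivAt_id' u).add ((h.const_mul 2).div_const 3))
      ((hasDerivAt_id' u).add (h.div_const 3)), rfl, b4, b6, b2, fun i => ?_⟩
    match i with
    | 0 | 1 | 2 | 3 | 4 | 5 | 6 | 7 | 8 | (n + 9) =>
      simp only [Pc.len]
      constructor <;> linarith

theorem wder_nrm {g : Pc} (h1 : g.u = 1) (h2 : g.X ≤ -1) (h3 : g.Y ≤ -1) (h4 : g.Kc ≤ -1) (j : ℤ) :
    1 ≤ -(dirn (ix (j - 1))).2 * (g.vtx (ix j)).1 + (dirn (ix (j - 1))).1 * (g.vtx (ix j)).2 ∧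
      1 ≤ -(dirn (ix j)).2 * (g.vtx (ix j)).1 + (dirn (ix j)).1 * (g.vtx (ix j)).2 ∧
      0 ≤ (dirn (ix (j - 1))).1 * (dirn (ix j)).2 - (dirn (ix (j - 1))).2 * (dirn (ix j)).1 ∧
      (dirn (ix (j - 1))).1 * (dirn (ix j)).2 - (dirn (ix (j - 1))).2 * (dirn (ix j)).1 ≤ 1 := by
  obtain ⟨i, hi, e1, e2⟩ := wder_ix j
  rw [e1, e2]
  interval_cases i
  all_goals
    simp only [Nat.reduceAdd, Nat.reduceMod, dirn, Pc.vtx]
    refine ⟨?_, ?_, ?_, ?_⟩ <;> linarith

theorem wder_dM {ν : ℝ} (h0 : 0 < ν) (h1 : ν ≤ 1 / 100) (g : Pc) (M : ℝ) :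
    HasDerivAt (g.pt ν) ((rp ν (round M - M) * g.len (ix (round M - 1))) • dirn (ix (round M - 1)) +
      (rp ν (M - round M) * g.len (ix (round M))) • dirn (ix (round M))) M := by
  have e1 := (((hasDerivAt_ramp ν (M - round M)).comp_sub_const M (round M : ℝ)).mul_const
    (g.len (ix (round M)))).smul_const (dirn (ix (round M)))
  have e2 := (((hasDerivAt_ramp ν (round M - M)).comp_const_sub (round M : ℝ) M).mul_const
    (g.len (ix (round M - 1)))).smul_const (dirn (ix (round M - 1)))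
  have e3 := (e1.const_add (g.vtx (ix (round M)))).sub e2
  rw [neg_mul, neg_smul, sub_neg_eq_add, add_comm (_ • dirn (ix (round M)))] at e3
  refine HasDerivAt.congr_of_eventuallyEq e3 ?_
  have ho : IsOpen {s : ℝ | |s - round M| < 1 - ν} :=
    isOpen_lt (by fun_prop) continuous_const
  have hM : |M - round M| < 1 - ν := (abs_sub_round M).trans_lt (by linarith)
  filter_upwards [ho.mem_nhds hM] with s hs
  exact Pc.pt_eq_loc h0 h1 g (round M) (le_of_lt hs)

theorem contDiff_Yp (hD : D.Ok O A κ₀) (p : ℕ) : ContDiff ℝ ∞ (D.Yp p) := by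
  have h1 := (contDiff_pt hD.ν_pos hD.ν_le (fun q : ℝ × (κ → ℝ) => D.geo p q.1 q.2)
    (contDiff_geo_vtx hD p) (contDiff_geo_len hD p)).1
  have h2 : ContDiff ℝ ∞ fun y : Option (Option κ) → ℝ => (y none, y (some none), tt y) :=
    (contDiff_apply ℝ ℝ none).prodMk ((contDiff_apply ℝ ℝ (some none)).prodMk
      (contDiff_pi.2 fun r => contDiff_apply ℝ ℝ (some (some r))))
  have h3 := h1.comp h2
  refine contDiff_pi.2 fun i => ?_
  match i with
  | none => exact h3.snd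
  | some none => exact h3.fst
  | some (some r) => exact contDiff_apply ℝ ℝ (some (some r))

theorem Yp_fderiv_param (hD : D.Ok O A κ₀) (p : ℕ) (y v : Option (Option κ) → ℝ) (r : κ) :
    fderiv ℝ (D.Yp p) y v (some (some r)) = v (some (some r)) := by
  have h1 := ((contDiff_Yp hD p).differentiable (by simp) y).hasFDerivAt
  have h2 := (hasFDerivAt_pi'.1 h1 (some (some r))).unique (hasFDerivAt_apply (some (some r)) y)
  exact congrArg (fun L : (Option (Option κ) → ℝ) →L[ℝ] ℝ => L v) h2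

theorem wder_dir (hD : D.Ok O A κ₀) (p : ℕ) (y : Option (Option κ) → ℝ) (i : Option (Option κ))
    {e : ℝ × ℝ} (h : HasDerivAt (fun s => (D.geo p (Function.update y i s (some none))
      (tt (Function.update y i s))).pt D.ν (Function.update y i s none)) e (y i)) :
    fderiv ℝ (D.Yp p) y (Pi.single i 1) (some none) = e.1 ∧
      fderiv ℝ (D.Yp p) y (Pi.single i 1) none = e.2 := by
  have h1 := ((contDiff_Yp hD p).differentiable (by simp) y).hasFDerivAt
  have h2 := h1.comp_hasDerivAt_of_eq (y i) (hasDerivAt_update y i (y i))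
    (Function.update_eq_self i y).symm
  exact ⟨(hasDerivAt_pi.1 h2 (some none)).unique h.fst, (hasDerivAt_pi.1 h2 none).unique h.snd⟩

theorem wder_main (hD : D.Ok O A κ₀) (p : ℕ) {y : Option (Option κ) → ℝ} (hy : bb y ∈ D.Z O) :
    ∃ (d d' : ℤ × ℤ) (α β : ℝ) (e : ℝ × ℝ),
      (d.1 * d'.2 - d.2 * d'.1 = 1 ∨ (d = d' ∧ ∃ f : ℤ × ℤ, d.1 * f.2 - d.2 * f.1 = 1)) ∧
      0 ≤ α ∧ 0 ≤ β ∧ 0 < α + β ∧ (D.geo p (y (some none)) (tt y)).wid D.ν (y none) = α + β ∧
      (0 < α → 1 - 6 * D.ν ≤ -d.2 * e.1 + d.1 * e.2) ∧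
      (0 < β → 1 - 6 * D.ν ≤ -d'.2 * e.1 + d'.1 * e.2) ∧
      fderiv ℝ (D.Yp p) y (Pi.single (some none) 1) (some none) = e.1 ∧
      fderiv ℝ (D.Yp p) y (Pi.single (some none) 1) none = e.2 ∧
      fderiv ℝ (D.Yp p) y (Pi.single none 1) (some none) = α * d.1 + β * d'.1 ∧
      fderiv ℝ (D.Yp p) y (Pi.single none 1) none = α * d.2 + β * d'.2 := by
  have hν := hD.ν_pos
  have hg : (D.geo p (y (some none)) (tt y)).Good A := good_geo hD p hy
  have hl : ∀ i, 0 ≤ (D.geo p (y (some none)) (tt y)).len i := fun i =>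
    le_trans (by linarith [hg.pos]) (hg.lo i)
  have hw := Pc.wid_pos hν hg (y none)
  obtain ⟨g', hg', u1, u2, u3, u4, u5⟩ := wder_geo D p (tt y) (y (some none))
  obtain ⟨n1, n2, n3, n4⟩ := wder_nrm u1 u2 u3 u4 (round (y none))
  obtain ⟨t1, t2⟩ := wder_dir hD p y none (wder_dM hν hD.ν_le (D.geo p (y (some none)) (tt y))
    (y none))
  have hu := ((hg' (ix (round (y none)))).1.add
    (((hg' (ix (round (y none)))).2.const_mul (ramp D.ν (y none - round (y none)))).smul_const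
      (dirn (ix (round (y none)))))).sub
    (((hg' (ix (round (y none) - 1))).2.const_mul (ramp D.ν (round (y none) - y none))).smul_const
      (dirn (ix (round (y none) - 1))))
  obtain ⟨s1, s2⟩ := wder_dir hD p y (some none) hu
  have hwid : (D.geo p (y (some none)) (tt y)).wid D.ν (y none) =
      rp D.ν (round (y none) - y none) * (D.geo p (y (some none)) (tt y)).len (ix (round (y none) - 1)) +
      rp D.ν (y none - round (y none)) * (D.geo p (y (some none)) (tt y)).len (ix (round (y none))) :=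
    add_comm _ _
  have key : ∀ x L δ : ℝ, 0 < rp D.ν (-x) → -6 ≤ L → L ≤ 0 → 0 ≤ δ → δ ≤ 1 →
      -(6 * D.ν) ≤ ramp D.ν x * L * δ := by
    intro x L δ a1 a2 a3 a4 a5
    have a6 : x ≤ D.ν := by
      by_contra h
      rw [rp_of_le hν (by linarith)] at a1
      exact lt_irrefl _ a1
    have a7 := ramp_le_of_le hν a6
    have a8 := ramp_nonneg hν x
    have a9 : ramp D.ν x * δ ≤ D.ν := by nlinarith
    have a10 : 0 ≤ ramp D.ν x * δ := mul_nonneg a8 a4
    nlinarith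
  refine ⟨wderDir (ix (round (y none) - 1)), wderDir (ix (round (y none))), _, _, _, wder_det _,
    mul_nonneg (rp_nonneg _ _) (hl _), mul_nonneg (rp_nonneg _ _) (hl _), hwid ▸ hw, hwid,
    fun h => ?_, fun h => ?_, s1, s2, ?_, ?_⟩
  · have a1 := key (y none - round (y none)) _ _
      (by rw [neg_sub]; exact (lt_of_le_of_ne (rp_nonneg _ _) fun h0 => by rw [← h0, zero_mul] at h; exact lt_irrefl _ h))
      (u5 (ix (round (y none)))).1 (u5 _).2 n3 n4
    simp only [wder_dirn, Prod.fst_add, Prod.snd_add, Prod.fst_sub, Prod.snd_sub, Prod.smul_fst,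
      Prod.smul_snd, smul_eq_mul] at n1 a1 ⊢
    linarith
  · have a1 := key (round (y none) - y none) _ _
      (by rw [neg_sub]; exact (lt_of_le_of_ne (rp_nonneg _ _) fun h0 => by rw [← h0, zero_mul] at h; exact lt_irrefl _ h))
      (u5 (ix (round (y none) - 1))).1 (u5 _).2 n3 n4
    simp only [wder_dirn, Prod.fst_add, Prod.snd_add, Prod.fst_sub, Prod.snd_sub, Prod.smul_fst,
      Prod.smul_snd, smul_eq_mul] at n2 a1 ⊢
    linarith
  · rw [t1]
    simp only [wder_dirn, Prod.fst_add, Prod.smul_fst, smul_eq_mul]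
  · rw [t2]
    simp only [wder_dirn, Prod.snd_add, Prod.smul_snd, smul_eq_mul]

theorem Yp_fderiv_inj (hD : D.Ok O A κ₀) (p : ℕ) {y : Option (Option κ) → ℝ}
    (hy : bb y ∈ D.Z O) : Function.Injective (fderiv ℝ (D.Yp p) y) := by
  obtain ⟨d, d', α, β, e, -, hα, hβ, hs, -, h1, h2, s1, s2, t1, t2⟩ := wder_main hD p hy
  have hc : 0 < 1 - 6 * D.ν := by linarith [hD.ν_le]
  have hdet : 0 < (α * d.1 + β * d'.1) * e.2 - (α * d.2 + β * d'.2) * e.1 := by
    have a1 : α * (1 - 6 * D.ν) ≤ α * (-d.2 * e.1 + d.1 * e.2) := by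
      rcases hα.eq_or_lt with h | h
      · rw [← h, zero_mul, zero_mul]
      · exact mul_le_mul_of_nonneg_left (h1 h) hα
    have a2 : β * (1 - 6 * D.ν) ≤ β * (-d'.2 * e.1 + d'.1 * e.2) := by
      rcases hβ.eq_or_lt with h | h
      · rw [← h, zero_mul, zero_mul]
      · exact mul_le_mul_of_nonneg_left (h2 h) hβ
    have a3 := mul_pos hs hc
    linarith
  refine (injective_iff_map_eq_zero _).2 fun v hv => ?_
  have hv1 : v = v none • Pi.single none (1 : ℝ) + v (some none) • Pi.single (some none) (1 : ℝ) := by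
    funext i
    match i with
    | none => simp
    | some none => simp
    | some (some r) =>
      rw [← Yp_fderiv_param hD p y v r, hv]
      simp
  have hv2 := hv
  rw [hv1, map_add, map_smul, map_smul] at hv2
  have a1 := congrFun hv2 (some none)
  have a2 := congrFun hv2 none
  simp only [Pi.add_apply, Pi.smul_apply, smul_eq_mul, Pi.zero_apply, s1, s2, t1, t2] at a1 a2
  have a3 : v none = 0 := by
    refine (mul_eq_zero.1 ?_).resolve_right hdet.ne'
    linear_combination e.2 * a1 - e.1 * a2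
  have a4 : v (some none) = 0 := by
    refine (mul_eq_zero.1 ?_).resolve_right hdet.ne'
    linear_combination (α * d.1 + β * d'.1) * a2 - (α * d.2 + β * d'.2) * a1
  rw [hv1, a3, a4, zero_smul, zero_smul, add_zero]

theorem Yp_lattice (hD : D.Ok O A κ₀) (p : ℕ) {y : Option (Option κ) → ℝ} (hy : bb y ∈ D.Z O)
    (m₂ m₃ : ℤ)
    (h1 : |m₂ * fderiv ℝ (D.Yp p) y (Pi.single (some none) 1) (some none) +
      m₃ * fderiv ℝ (D.Yp p) y (Pi.single (some none) 1) none| < 1 - 2 * κ₀)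
    (h2 : |m₂ * fderiv ℝ (D.Yp p) y (Pi.single none 1) (some none) +
      m₃ * fderiv ℝ (D.Yp p) y (Pi.single none 1) none| <
      (D.geo p (y (some none)) (tt y)).wid D.ν (y none)) : m₂ = 0 ∧ m₃ = 0 := by
  obtain ⟨d, d', α, β, e, hd, hα, hβ, hs, hw, a1, a2, s1, s2, t1, t2⟩ := wder_main hD p hy
  rw [s1, s2] at h1
  rw [t1, t2, hw] at h2
  have := lattice hd hα hβ hs a1 a2 (m₂, m₃) (h1.trans_le (by linarith [hD.νκ, hD.κ_pos])) h2
  exact ⟨congrArg Prod.fst this, congrArg Prod.snd this⟩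

theorem Yp_shift (D : WData κ) (p : ℕ) (y : Option (Option κ) → ℝ) (c : ℤ) :
    D.Yp p (Function.update y none (y none + 10 * c)) = D.Yp p y ∧
      fderiv ℝ (D.Yp p) (Function.update y none (y none + 10 * c)) = fderiv ℝ (D.Yp p) y := by
  have h1 : ∀ y : Option (Option κ) → ℝ,
      D.Yp p (Function.update y none (y none + 10 * c)) = D.Yp p y := fun y => by
    have : D.Yp p (Function.update y none (y none + 10 * c)) =
        mk3 ((D.geo p (y (some none)) (tt y)).pt D.ν (y none + 10 * c)).2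
          ((D.geo p (y (some none)) (tt y)).pt D.ν (y none + 10 * c)).1 (tt y) := rfl
    rw [this, Pc.pt_add]
    rfl
  have h2 : ∀ y : Option (Option κ) → ℝ, Function.update y none (y none + 10 * c) =
      y + Pi.single none (10 * c : ℝ) := fun y => by
    funext i
    match i with
    | none => simp
    | some i => simp
  refine ⟨h1 y, ?_⟩
  rw [h2, ← fderiv_comp_add_right]
  congr 1
  funext z
  rw [← h2, h1]

end Vale.Agent.P209
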