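import Vale.Agent.P209.WLoop

/-! Which parts of the loop meet the strip `w - 7ε/4 ≤ y₂ ≤ w - 5ε/4`, and separation of the
polygon. Plan for the zone lemmas: reduce to `j = round M ∈ {0,…,9}` by periodicity,
`pt = vtx j + ρ₂ len • dirn - ρ₁ len • dirn` with `0 ≤ ρ₁, ρ₂ ≤ 1/2`, and either `ρ₁ = 0`,
`ρ₂ = M - j`, or `ρ₂ = 0`, `ρ₁ = j - M`, or both `≤ ν` (then `ρ len ≤ ν A ≤ ε / 1000`);
ten cases, `linarith`/`nlinarith`. `pl_sep`: with `P = fract M * len`, `Q = fract M' * len`,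
a hundred linear cases show: same edge and `|P - Q| < ε/12`, or consecutive edges with
`len - P < ε/12`, `Q < ε/12` (or symmetric); divide by `len ≥ ε/3`. -/

open scoped ContDiff Topology
open Set MeasureTheory

namespace Vale.Agent.P209

variable {ν A : ℝ} {g : Pc}

theorem wz_cases (g : Pc) {j : ℕ} (hj : j < 10) {P L x y : ℝ} (hL : L = g.len j)
    (hx : x = (g.vtx j + P • dirn j).1) (hy : y = (g.vtx j + P • dirn j).2) :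
    (j = 0 ∧ L = g.X - g.w + g.ε ∧ x = g.w - g.ε + P ∧ y = g.u) ∨
    (j = 1 ∧ L = g.Kc - g.X - g.u ∧ x = g.X ∧ y = g.u + P) ∨
    (j = 2 ∧ L = g.X + g.Y - g.Kc ∧ x = g.X - P ∧ y = g.Kc - g.X + P) ∨
    (j = 3 ∧ L = g.Kc - g.Y - g.q4 ∧ x = g.Kc - g.Y - P ∧ y = g.Y) ∨
    (j = 4 ∧ L = g.q4 - g.q5 ∧ x = g.q4 - P ∧ y = g.Y) ∨
    (j = 5 ∧ L = g.q5 - g.u ∧ x = g.q5 - P ∧ y = g.Y) ∨
    (j = 6 ∧ L = g.Y - g.u ∧ x = g.u ∧ y = g.Y - P) ∨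
    (j = 7 ∧ L = g.ε ∧ x = g.u + P ∧ y = g.u) ∨
    (j = 8 ∧ L = g.w - 3 * g.ε - g.u ∧ x = g.u + g.ε + P ∧ y = g.u) ∨
    (j = 9 ∧ L = g.ε ∧ x = g.w - 2 * g.ε + P ∧ y = g.u) := by
  subst hL hx hy
  interval_cases j <;> simp [Pc.vtx, Pc.len, dirn, sub_eq_add_neg]

theorem wz_lo (hg : g.Good A) :
    g.ε ≤ 3 * (g.X - g.w + g.ε) ∧ g.ε ≤ 3 * (g.Kc - g.X - g.u) ∧ g.ε ≤ 3 * (g.X + g.Y - g.Kc) ∧
      g.ε ≤ 3 * (g.Kc - g.Y - g.q4) ∧ g.ε ≤ 3 * (g.q4 - g.q5) ∧ g.ε ≤ 3 * (g.q5 - g.u) ∧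
      g.ε ≤ 3 * (g.Y - g.u) ∧ g.ε ≤ 3 * (g.w - 3 * g.ε - g.u) := by
  have h : ∀ j, g.ε ≤ 3 * g.len j := fun j => by linarith [hg.lo j]
  exact ⟨h 0, h 1, h 2, h 3, h 4, h 5, h 6, h 8⟩

theorem wz_pl (g : Pc) (M : ℝ) : ∃ (c : ℤ) (j : ℕ) (f : ℝ), j < 10 ∧ 0 ≤ f ∧ f < 1 ∧
    M - 10 * c = j + f ∧ ix ⌊M⌋ = j ∧ Int.fract M = f ∧
    g.pl M = g.vtx j + (f * g.len j) • dirn j := by
  refine ⟨⌊M⌋ / 10, ix ⌊M⌋, Int.fract M, ix_lt _, Int.fract_nonneg _, Int.fract_lt_one _, ?_,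
    rfl, rfl, rfl⟩
  have h1 : ((ix ⌊M⌋ : ℕ) : ℤ) = ⌊M⌋ - 10 * (⌊M⌋ / 10) := by
    unfold ix
    omega
  have h2 : ((ix ⌊M⌋ : ℕ) : ℝ) = (⌊M⌋ : ℝ) - 10 * ((⌊M⌋ / 10 : ℤ) : ℝ) := by
    exact_mod_cast h1
  rw [h2, Int.fract]
  ring

theorem wz_setup (h0 : 0 < ν) (h1 : ν ≤ 1 / 100) (hA : 1000 * ν * A ≤ g.ε) (hg : g.Good A)
    (M : ℝ) : ∃ (c : ℤ) (j : ℕ) (f P L x y : ℝ), j < 10 ∧ 0 ≤ f ∧ f < 1 ∧ M - 10 * c = j + f ∧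
      P = f * L ∧ 0 ≤ P ∧ P ≤ L ∧ L = g.len j ∧ x = (g.vtx j + P • dirn j).1 ∧
      y = (g.vtx j + P • dirn j).2 ∧
      500 * (g.pt ν M).1 ≤ 500 * x + g.ε ∧ 500 * x - g.ε ≤ 500 * (g.pt ν M).1 ∧
      500 * y - g.ε ≤ 500 * (g.pt ν M).2 ∧
      (1 / 100 ≤ f → f ≤ 99 / 100 → (g.pt ν M).1 = x) := by
  obtain ⟨c, j, f, hj, hf0, hf1, hM, hi, hf, hp⟩ := wz_pl g M
  have hL : 0 ≤ g.len j := le_trans (by linarith [hg.pos]) (hg.lo j)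
  obtain ⟨a1, a2⟩ := Pc.pt_sub_pl h0 h1 hg M
  rw [hp, abs_le] at a1 a2
  refine ⟨c, j, f, f * g.len j, g.len j, _, _, hj, hf0, hf1, hM, rfl, mul_nonneg hf0 hL,
    mul_le_of_le_one_left hL hf1.le, rfl, rfl, rfl, by linarith [a1.2], by linarith [a1.1], by linarith [a2.1],
    fun b1 b2 => ?_⟩
  have e : M - (⌊M⌋ : ℝ) = f := hf
  rw [(Pc.pt_pure h0 h1 g ⌊M⌋ (by linarith) (by linarith)).1, hi, e]

theorem wz_mid {ε f a x : ℝ} (hε : 0 < ε) (b1 : x ≤ a + f * ε + ε / 500)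
    (b2 : a + f * ε - ε / 500 ≤ x) (he : 1 / 100 ≤ f → f ≤ 99 / 100 → x = a + f * ε)
    (hl : a + ε / 4 ≤ x) (hr : x ≤ a + 3 / 4 * ε) : 1 / 4 ≤ f ∧ f ≤ 3 / 4 := by
  have c1 : 1 / 100 ≤ f := by
    by_contra hc
    nlinarith [not_le.1 hc]
  have c2 : f ≤ 99 / 100 := by
    by_contra hc
    nlinarith [not_le.1 hc]
  have := he c1 c2
  constructor
  · by_contra hc
    nlinarith [not_le.1 hc]
  · by_contra hc
    nlinarith [not_le.1 hc]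

theorem wz_one {ε a b L : ℝ} (hε : 0 < ε) (hL : ε / 3 ≤ L) (h : 12 * (a * L - b * L) < ε) :
    a - b < 1 / 2 := by
  by_contra hc
  nlinarith [not_lt.1 hc]

theorem wz_two {ε a b La Lb : ℝ} (hε : 0 < ε) (ha : a < 1) (hb : 0 ≤ b) (hLa : ε / 3 ≤ La)
    (hLb : ε / 3 ≤ Lb) (h : 6 * (La - a * La + b * Lb) < ε) : 1 - a + b < 1 / 2 := by
  by_contra hc
  nlinarith [not_lt.1 hc, mul_nonneg (sub_nonneg.2 ha.le) (sub_nonneg.2 hLa),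
    mul_nonneg hb (sub_nonneg.2 hLb)]

/-- conclusion of the separation lemma. -/
def wzR (ε : ℝ) (j j' : ℕ) (P L Q L' : ℝ) : Prop :=
  (j = j' ∧ 12 * (P - Q) < ε ∧ 12 * (Q - P) < ε) ∨ (j' = (j + 1) % 10 ∧ 6 * (L - P + Q) < ε) ∨
    (j = (j' + 1) % 10 ∧ 6 * (L' - Q + P) < ε)

/-- hypotheses on the second point. -/
def wzH (g : Pc) (j' : ℕ) (x y Q L' : ℝ) : Prop :=
  j' < 10 ∧ 0 ≤ Q ∧ Q ≤ L' ∧ L' = g.len j' ∧
    |12 * (x - (g.vtx j' + Q • dirn j').1)| < g.ε ∧ |12 * (y - (g.vtx j' + Q • dirn j').2)| < g.ε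

theorem wz_sep0 (hg : g.Good A) {j' : ℕ} {P Q L' : ℝ} (p0 : 0 ≤ P) (p1 : P ≤ g.X - g.w + g.ε)
    (h : wzH g j' (g.w - g.ε + P) (g.u) Q L') : wzR g.ε 0 j' P (g.X - g.w + g.ε) Q L' := by
  obtain ⟨l0, l1, l2, l3, l4, l5, l6, l8⟩ := wz_lo hg
  have hε := hg.pos
  obtain ⟨hj', q0, q1, hL', h1, h2⟩ := h
  obtain ⟨a1, a2⟩ := abs_lt.1 h1
  obtain ⟨a3, a4⟩ := abs_lt.1 h2
  rcases wz_cases g hj' hL' rfl rfl with h | h | h | h | h | h | h | h | h | h <;>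
  obtain ⟨rfl, e1, e2, e3⟩ := h <;> rw [e2] at a1 a2 <;> rw [e3] at a3 a4 <;>
  clear e2 e3 h1 h2 hL' <;>
  first
    | exact Or.inl ⟨rfl, by linarith, by linarith⟩
    | exact Or.inr (Or.inl ⟨rfl, by linarith⟩)
    | exact Or.inr (Or.inr ⟨rfl, by linarith⟩)
    | (exfalso; linarith)

theorem wz_sep1 (hg : g.Good A) {j' : ℕ} {P Q L' : ℝ} (p0 : 0 ≤ P) (p1 : P ≤ g.Kc - g.X - g.u)
    (h : wzH g j' (g.X) (g.u + P) Q L') : wzR g.ε 1 j' P (g.Kc - g.X - g.u) Q L' := by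
  obtain ⟨l0, l1, l2, l3, l4, l5, l6, l8⟩ := wz_lo hg
  have hε := hg.pos
  obtain ⟨hj', q0, q1, hL', h1, h2⟩ := h
  obtain ⟨a1, a2⟩ := abs_lt.1 h1
  obtain ⟨a3, a4⟩ := abs_lt.1 h2
  rcases wz_cases g hj' hL' rfl rfl with h | h | h | h | h | h | h | h | h | h <;>
  obtain ⟨rfl, e1, e2, e3⟩ := h <;> rw [e2] at a1 a2 <;> rw [e3] at a3 a4 <;>
  clear e2 e3 h1 h2 hL' <;>
  first
    | exact Or.inl ⟨rfl, by linarith, by linarith⟩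
    | exact Or.inr (Or.inl ⟨rfl, by linarith⟩)
    | exact Or.inr (Or.inr ⟨rfl, by linarith⟩)
    | (exfalso; linarith)

theorem wz_sep2 (hg : g.Good A) {j' : ℕ} {P Q L' : ℝ} (p0 : 0 ≤ P) (p1 : P ≤ g.X + g.Y - g.Kc)
    (h : wzH g j' (g.X - P) (g.Kc - g.X + P) Q L') : wzR g.ε 2 j' P (g.X + g.Y - g.Kc) Q L' := by
  obtain ⟨l0, l1, l2, l3, l4, l5, l6, l8⟩ := wz_lo hg
  have hε := hg.pos
  obtain ⟨hj', q0, q1, hL', h1, h2⟩ := h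
  obtain ⟨a1, a2⟩ := abs_lt.1 h1
  obtain ⟨a3, a4⟩ := abs_lt.1 h2
  rcases wz_cases g hj' hL' rfl rfl with h | h | h | h | h | h | h | h | h | h <;>
  obtain ⟨rfl, e1, e2, e3⟩ := h <;> rw [e2] at a1 a2 <;> rw [e3] at a3 a4 <;>
  clear e2 e3 h1 h2 hL' <;>
  first
    | exact Or.inl ⟨rfl, by linarith, by linarith⟩
    | exact Or.inr (Or.inl ⟨rfl, by linarith⟩)
    | exact Or.inr (Or.inr ⟨rfl, by linarith⟩)
    | (exfalso; linarith)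

theorem wz_sep3 (hg : g.Good A) {j' : ℕ} {P Q L' : ℝ} (p0 : 0 ≤ P) (p1 : P ≤ g.Kc - g.Y - g.q4)
    (h : wzH g j' (g.Kc - g.Y - P) (g.Y) Q L') : wzR g.ε 3 j' P (g.Kc - g.Y - g.q4) Q L' := by
  obtain ⟨l0, l1, l2, l3, l4, l5, l6, l8⟩ := wz_lo hg
  have hε := hg.pos
  obtain ⟨hj', q0, q1, hL', h1, h2⟩ := h
  obtain ⟨a1, a2⟩ := abs_lt.1 h1
  obtain ⟨a3, a4⟩ := abs_lt.1 h2
  rcases wz_cases g hj' hL' rfl rfl with h | h | h | h | h | h | h | h | h | h <;>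
  obtain ⟨rfl, e1, e2, e3⟩ := h <;> rw [e2] at a1 a2 <;> rw [e3] at a3 a4 <;>
  clear e2 e3 h1 h2 hL' <;>
  first
    | exact Or.inl ⟨rfl, by linarith, by linarith⟩
    | exact Or.inr (Or.inl ⟨rfl, by linarith⟩)
    | exact Or.inr (Or.inr ⟨rfl, by linarith⟩)
    | (exfalso; linarith)

theorem wz_sep4 (hg : g.Good A) {j' : ℕ} {P Q L' : ℝ} (p0 : 0 ≤ P) (p1 : P ≤ g.q4 - g.q5)
    (h : wzH g j' (g.q4 - P) (g.Y) Q L') : wzR g.ε 4 j' P (g.q4 - g.q5) Q L' := by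
  obtain ⟨l0, l1, l2, l3, l4, l5, l6, l8⟩ := wz_lo hg
  have hε := hg.pos
  obtain ⟨hj', q0, q1, hL', h1, h2⟩ := h
  obtain ⟨a1, a2⟩ := abs_lt.1 h1
  obtain ⟨a3, a4⟩ := abs_lt.1 h2
  rcases wz_cases g hj' hL' rfl rfl with h | h | h | h | h | h | h | h | h | h <;>
  obtain ⟨rfl, e1, e2, e3⟩ := h <;> rw [e2] at a1 a2 <;> rw [e3] at a3 a4 <;>
  clear e2 e3 h1 h2 hL' <;>
  first
    | exact Or.inl ⟨rfl, by linarith, by linarith⟩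
    | exact Or.inr (Or.inl ⟨rfl, by linarith⟩)
    | exact Or.inr (Or.inr ⟨rfl, by linarith⟩)
    | (exfalso; linarith)

theorem wz_sep5 (hg : g.Good A) {j' : ℕ} {P Q L' : ℝ} (p0 : 0 ≤ P) (p1 : P ≤ g.q5 - g.u)
    (h : wzH g j' (g.q5 - P) (g.Y) Q L') : wzR g.ε 5 j' P (g.q5 - g.u) Q L' := by
  obtain ⟨l0, l1, l2, l3, l4, l5, l6, l8⟩ := wz_lo hg
  have hε := hg.pos
  obtain ⟨hj', q0, q1, hL', h1, h2⟩ := h
  obtain ⟨a1, a2⟩ := abs_lt.1 h1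
  obtain ⟨a3, a4⟩ := abs_lt.1 h2
  rcases wz_cases g hj' hL' rfl rfl with h | h | h | h | h | h | h | h | h | h <;>
  obtain ⟨rfl, e1, e2, e3⟩ := h <;> rw [e2] at a1 a2 <;> rw [e3] at a3 a4 <;>
  clear e2 e3 h1 h2 hL' <;>
  first
    | exact Or.inl ⟨rfl, by linarith, by linarith⟩
    | exact Or.inr (Or.inl ⟨rfl, by linarith⟩)
    | exact Or.inr (Or.inr ⟨rfl, by linarith⟩)
    | (exfalso; linarith)

theorem wz_sep6 (hg : g.Good A) {j' : ℕ} {P Q L' : ℝ} (p0 : 0 ≤ P) (p1 : P ≤ g.Y - g.u)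
    (h : wzH g j' (g.u) (g.Y - P) Q L') : wzR g.ε 6 j' P (g.Y - g.u) Q L' := by
  obtain ⟨l0, l1, l2, l3, l4, l5, l6, l8⟩ := wz_lo hg
  have hε := hg.pos
  obtain ⟨hj', q0, q1, hL', h1, h2⟩ := h
  obtain ⟨a1, a2⟩ := abs_lt.1 h1
  obtain ⟨a3, a4⟩ := abs_lt.1 h2
  rcases wz_cases g hj' hL' rfl rfl with h | h | h | h | h | h | h | h | h | h <;>
  obtain ⟨rfl, e1, e2, e3⟩ := h <;> rw [e2] at a1 a2 <;> rw [e3] at a3 a4 <;>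
  clear e2 e3 h1 h2 hL' <;>
  first
    | exact Or.inl ⟨rfl, by linarith, by linarith⟩
    | exact Or.inr (Or.inl ⟨rfl, by linarith⟩)
    | exact Or.inr (Or.inr ⟨rfl, by linarith⟩)
    | (exfalso; linarith)

theorem wz_sep7 (hg : g.Good A) {j' : ℕ} {P Q L' : ℝ} (p0 : 0 ≤ P) (p1 : P ≤ g.ε)
    (h : wzH g j' (g.u + P) (g.u) Q L') : wzR g.ε 7 j' P (g.ε) Q L' := by
  obtain ⟨l0, l1, l2, l3, l4, l5, l6, l8⟩ := wz_lo hg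
  have hε := hg.pos
  obtain ⟨hj', q0, q1, hL', h1, h2⟩ := h
  obtain ⟨a1, a2⟩ := abs_lt.1 h1
  obtain ⟨a3, a4⟩ := abs_lt.1 h2
  rcases wz_cases g hj' hL' rfl rfl with h | h | h | h | h | h | h | h | h | h <;>
  obtain ⟨rfl, e1, e2, e3⟩ := h <;> rw [e2] at a1 a2 <;> rw [e3] at a3 a4 <;>
  clear e2 e3 h1 h2 hL' <;>
  first
    | exact Or.inl ⟨rfl, by linarith, by linarith⟩
    | exact Or.inr (Or.inl ⟨rfl, by linarith⟩)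
    | exact Or.inr (Or.inr ⟨rfl, by linarith⟩)
    | (exfalso; linarith)

theorem wz_sep8 (hg : g.Good A) {j' : ℕ} {P Q L' : ℝ} (p0 : 0 ≤ P) (p1 : P ≤ g.w - 3 * g.ε - g.u)
    (h : wzH g j' (g.u + g.ε + P) (g.u) Q L') : wzR g.ε 8 j' P (g.w - 3 * g.ε - g.u) Q L' := by
  obtain ⟨l0, l1, l2, l3, l4, l5, l6, l8⟩ := wz_lo hg
  have hε := hg.pos
  obtain ⟨hj', q0, q1, hL', h1, h2⟩ := h
  obtain ⟨a1, a2⟩ := abs_lt.1 h1
  obtain ⟨a3, a4⟩ := abs_lt.1 h2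
  rcases wz_cases g hj' hL' rfl rfl with h | h | h | h | h | h | h | h | h | h <;>
  obtain ⟨rfl, e1, e2, e3⟩ := h <;> rw [e2] at a1 a2 <;> rw [e3] at a3 a4 <;>
  clear e2 e3 h1 h2 hL' <;>
  first
    | exact Or.inl ⟨rfl, by linarith, by linarith⟩
    | exact Or.inr (Or.inl ⟨rfl, by linarith⟩)
    | exact Or.inr (Or.inr ⟨rfl, by linarith⟩)
    | (exfalso; linarith)

theorem wz_sep9 (hg : g.Good A) {j' : ℕ} {P Q L' : ℝ} (p0 : 0 ≤ P) (p1 : P ≤ g.ε)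
    (h : wzH g j' (g.w - 2 * g.ε + P) (g.u) Q L') : wzR g.ε 9 j' P (g.ε) Q L' := by
  obtain ⟨l0, l1, l2, l3, l4, l5, l6, l8⟩ := wz_lo hg
  have hε := hg.pos
  obtain ⟨hj', q0, q1, hL', h1, h2⟩ := h
  obtain ⟨a1, a2⟩ := abs_lt.1 h1
  obtain ⟨a3, a4⟩ := abs_lt.1 h2
  rcases wz_cases g hj' hL' rfl rfl with h | h | h | h | h | h | h | h | h | h <;>
  obtain ⟨rfl, e1, e2, e3⟩ := h <;> rw [e2] at a1 a2 <;> rw [e3] at a3 a4 <;>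
  clear e2 e3 h1 h2 hL' <;>
  first
    | exact Or.inl ⟨rfl, by linarith, by linarith⟩
    | exact Or.inr (Or.inl ⟨rfl, by linarith⟩)
    | exact Or.inr (Or.inr ⟨rfl, by linarith⟩)
    | (exfalso; linarith)

theorem wz_sep (hg : g.Good A) {j j' : ℕ} (hj : j < 10) {P L x y Q L' : ℝ} (p0 : 0 ≤ P)
    (p1 : P ≤ L) (hL : L = g.len j) (hx : x = (g.vtx j + P • dirn j).1)
    (hy : y = (g.vtx j + P • dirn j).2) (h : wzH g j' x y Q L') : wzR g.ε j j' P L Q L' := by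
  have c1 := wz_cases g hj hL hx hy
  clear hL hx hy
  rcases c1 with ⟨rfl, rfl, rfl, rfl⟩ | ⟨rfl, rfl, rfl, rfl⟩ | ⟨rfl, rfl, rfl, rfl⟩ |
    ⟨rfl, rfl, rfl, rfl⟩ | ⟨rfl, rfl, rfl, rfl⟩ | ⟨rfl, rfl, rfl, rfl⟩ | ⟨rfl, rfl, rfl, rfl⟩ |
    ⟨rfl, rfl, rfl, rfl⟩ | ⟨rfl, rfl, rfl, rfl⟩ | ⟨rfl, rfl, rfl, rfl⟩
  exacts [wz_sep0 hg p0 p1 h, wz_sep1 hg p0 p1 h, wz_sep2 hg p0 p1 h, wz_sep3 hg p0 p1 h,
    wz_sep4 hg p0 p1 h, wz_sep5 hg p0 p1 h, wz_sep6 hg p0 p1 h, wz_sep7 hg p0 p1 h,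
    wz_sep8 hg p0 p1 h, wz_sep9 hg p0 p1 h]

theorem Pc.zoneA (h0 : 0 < ν) (h1 : ν ≤ 1 / 100) (hA : 1000 * ν * A ≤ g.ε) (hg : g.Good A)
    (hu : g.u ≤ g.w - 10 * g.ε) (h4 : g.q4 = g.w - g.ε) (h5 : g.q5 = g.w - 2 * g.ε) {M : ℝ}
    (hl : g.w - 7 / 4 * g.ε ≤ (g.pt ν M).1) (hr : (g.pt ν M).1 ≤ g.w - 5 / 4 * g.ε) :
    ∃ c : ℤ, M - 10 * c ∈ Icc (37 / 4 : ℝ) (39 / 4) ∨ M - 10 * c ∈ Icc (17 / 4 : ℝ) (19 / 4) := by
  obtain ⟨c, j, f, P, L, x, y, hj, f0, f1, hM, hP, p0, p1, hL, hx, hy, b1, b2, b3, he⟩ :=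
    wz_setup h0 h1 hA hg M
  obtain ⟨l0, l1, l2, l3, l4, l5, l6, l8⟩ := wz_lo hg
  have hε := hg.pos
  have c1 := wz_cases g hj hL hx hy
  clear hL hx hy h0 h1 hA
  replace hl : 4 * g.w - 7 * g.ε ≤ 4 * (g.pt ν M).1 := by linarith
  replace hr : 4 * (g.pt ν M).1 ≤ 4 * g.w - 5 * g.ε := by linarith
  refine ⟨c, ?_⟩
  rw [hM]
  rcases c1 with ⟨rfl, rfl, rfl, rfl⟩ | ⟨rfl, rfl, rfl, rfl⟩ | ⟨rfl, rfl, rfl, rfl⟩ |
    ⟨rfl, rfl, rfl, rfl⟩ | ⟨rfl, rfl, rfl, rfl⟩ | ⟨rfl, rfl, rfl, rfl⟩ | ⟨rfl, rfl, rfl, rfl⟩ |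
    ⟨rfl, rfl, rfl, rfl⟩ | ⟨rfl, rfl, rfl, rfl⟩ | ⟨rfl, rfl, rfl, rfl⟩
  · exfalso; linarith
  · exfalso; linarith
  · exfalso; linarith
  · exfalso; linarith
  · have e : P = f * g.ε := by rw [hP, h4, h5]; ring
    have := wz_mid (ε := g.ε) (f := f) (a := -g.q4) (x := -(g.pt ν M).1) hε (by linarith)
      (by linarith) (fun d1 d2 => by linarith [he d1 d2]) (by linarith) (by linarith)
    exact Or.inr ⟨by push_cast; linarith [this.1], by push_cast; linarith [this.2]⟩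
  · exfalso; linarith
  · exfalso; linarith
  · exfalso; linarith
  · exfalso; linarith
  · have := wz_mid (ε := g.ε) (f := f) (a := g.w - 2 * g.ε) (x := (g.pt ν M).1) hε (by linarith)
      (by linarith) (fun d1 d2 => by linarith [he d1 d2]) (by linarith) (by linarith)
    exact Or.inl ⟨by push_cast; linarith [this.1], by push_cast; linarith [this.2]⟩

theorem Pc.zoneB (h0 : 0 < ν) (h1 : ν ≤ 1 / 100) (hA : 1000 * ν * A ≤ g.ε) (hg : g.Good A)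
    (hu : g.u ≤ g.w - 10 * g.ε) (hX : g.w + 9 * g.ε ≤ g.X) (hY : g.w + 9 * g.ε ≤ g.Y)
    (hK : 2 * g.w + 9 * g.ε ≤ g.Kc) {M : ℝ}
    (hl : g.w - 7 / 4 * g.ε ≤ (g.pt ν M).1) (hr : (g.pt ν M).1 ≤ g.w - 5 / 4 * g.ε) :
    (∃ c : ℤ, M - 10 * c ∈ Icc (37 / 4 : ℝ) (39 / 4)) ∨
      (g.w ≤ (g.pt ν M).2 ∧ ∃ c : ℤ, M - 10 * c ∈ Icc (1 : ℝ) (25 / 4)) := by
  obtain ⟨c, j, f, P, L, x, y, hj, f0, f1, hM, hP, p0, p1, hL, hx, hy, b1, b2, b3, he⟩ :=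
    wz_setup h0 h1 hA hg M
  obtain ⟨l0, l1, l2, l3, l4, l5, l6, l8⟩ := wz_lo hg
  have hε := hg.pos
  have c1 := wz_cases g hj hL hx hy
  clear hL hx hy h0 h1 hA
  replace hl : 4 * g.w - 7 * g.ε ≤ 4 * (g.pt ν M).1 := by linarith
  replace hr : 4 * (g.pt ν M).1 ≤ 4 * g.w - 5 * g.ε := by linarith
  rcases c1 with ⟨rfl, rfl, rfl, rfl⟩ | ⟨rfl, rfl, rfl, rfl⟩ | ⟨rfl, rfl, rfl, rfl⟩ |
    ⟨rfl, rfl, rfl, rfl⟩ | ⟨rfl, rfl, rfl, rfl⟩ | ⟨rfl, rfl, rfl, rfl⟩ | ⟨rfl, rfl, rfl, rfl⟩ |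
    ⟨rfl, rfl, rfl, rfl⟩ | ⟨rfl, rfl, rfl, rfl⟩ | ⟨rfl, rfl, rfl, rfl⟩
  · exfalso; linarith
  · exfalso; linarith
  · exact Or.inr ⟨by linarith, c, by rw [hM]; push_cast; linarith, by rw [hM]; push_cast; linarith⟩
  · exact Or.inr ⟨by linarith, c, by rw [hM]; push_cast; linarith, by rw [hM]; push_cast; linarith⟩
  · exact Or.inr ⟨by linarith, c, by rw [hM]; push_cast; linarith, by rw [hM]; push_cast; linarith⟩
  · exact Or.inr ⟨by linarith, c, by rw [hM]; push_cast; linarith, by rw [hM]; push_cast; linarith⟩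
  · exfalso; linarith
  · exfalso; linarith
  · exfalso; linarith
  · have := wz_mid (ε := g.ε) (f := f) (a := g.w - 2 * g.ε) (x := (g.pt ν M).1) hε (by linarith)
      (by linarith) (fun d1 d2 => by linarith [he d1 d2]) (by linarith) (by linarith)
    exact Or.inl ⟨c, by rw [hM]; push_cast; linarith [this.1],
      by rw [hM]; push_cast; linarith [this.2]⟩

/-- position relative to the strip on the second half of the loop. -/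
theorem Pc.second_half (h0 : 0 < ν) (h1 : ν ≤ 1 / 100) (hA : 1000 * ν * A ≤ g.ε)
    (hg : g.Good A) (hu : g.u ≤ g.w - 10 * g.ε) {M : ℝ} :
    (25 / 4 ≤ M → M < 37 / 4 → (g.pt ν M).1 < g.w - 7 / 4 * g.ε) ∧
      (39 / 4 < M → M ≤ 11 → g.w - 5 / 4 * g.ε < (g.pt ν M).1) := by
  obtain ⟨c, j, f, P, L, x, y, hj, f0, f1, hM, hP, p0, p1, hL, hx, hy, b1, b2, b3, he⟩ :=
    wz_setup h0 h1 hA hg M
  obtain ⟨l0, l1, l2, l3, l4, l5, l6, l8⟩ := wz_lo hg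
  have hε := hg.pos
  have c1 := wz_cases g hj hL hx hy
  clear hL hx hy h0 h1 hA
  have hj' : (j : ℝ) ≤ 9 := by exact_mod_cast Nat.lt_succ_iff.1 hj
  have hj0 : (0 : ℝ) ≤ j := Nat.cast_nonneg j
  constructor
  · intro m1 m2
    have k1 : c < 1 := by
      have : (c : ℝ) < 1 := by linarith
      exact_mod_cast this
    have k2 : -1 < c := by
      have : (-1 : ℝ) < c := by linarith
      exact_mod_cast this
    obtain rfl : c = 0 := by omega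
    rcases c1 with ⟨rfl, rfl, rfl, rfl⟩ | ⟨rfl, rfl, rfl, rfl⟩ | ⟨rfl, rfl, rfl, rfl⟩ |
    ⟨rfl, rfl, rfl, rfl⟩ | ⟨rfl, rfl, rfl, rfl⟩ | ⟨rfl, rfl, rfl, rfl⟩ | ⟨rfl, rfl, rfl, rfl⟩ |
    ⟨rfl, rfl, rfl, rfl⟩ | ⟨rfl, rfl, rfl, rfl⟩ | ⟨rfl, rfl, rfl, rfl⟩ <;> push_cast at hM
    · linarith
    · linarith
    · linarith
    · linarith
    · linarith
    · linarith
    · linarith
    · linarith
    · linarith
    · rcases le_total (1 / 100) f with d | d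
      · have := he d (by linarith)
        have : f * g.ε < 1 / 4 * g.ε := mul_lt_mul_of_pos_right (by linarith) hε
        linarith
      · have := mul_le_mul_of_nonneg_right d hε.le
        linarith
  · intro m1 m2
    have k1 : c < 2 := by
      have : (c : ℝ) < 2 := by linarith
      exact_mod_cast this
    have k2 : -1 < c := by
      have : (-1 : ℝ) < c := by linarith
      exact_mod_cast this
    obtain rfl | rfl : c = 0 ∨ c = 1 := by omega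
    · rcases c1 with ⟨rfl, rfl, rfl, rfl⟩ | ⟨rfl, rfl, rfl, rfl⟩ | ⟨rfl, rfl, rfl, rfl⟩ |
    ⟨rfl, rfl, rfl, rfl⟩ | ⟨rfl, rfl, rfl, rfl⟩ | ⟨rfl, rfl, rfl, rfl⟩ | ⟨rfl, rfl, rfl, rfl⟩ |
    ⟨rfl, rfl, rfl, rfl⟩ | ⟨rfl, rfl, rfl, rfl⟩ | ⟨rfl, rfl, rfl, rfl⟩ <;> push_cast at hM
      · linarith
      · linarith
      · linarith
      · linarith
      · linarith
      · linarith
      · linarith
      · linarith
      · linarith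
      · rcases le_total f (99 / 100) with d | d
        · have := he (by linarith) d
          have : 3 / 4 * g.ε < f * g.ε := mul_lt_mul_of_pos_right (by linarith) hε
          linarith
        · have := mul_le_mul_of_nonneg_right d hε.le
          linarith
    · rcases c1 with ⟨rfl, rfl, rfl, rfl⟩ | ⟨rfl, rfl, rfl, rfl⟩ | ⟨rfl, rfl, rfl, rfl⟩ |
    ⟨rfl, rfl, rfl, rfl⟩ | ⟨rfl, rfl, rfl, rfl⟩ | ⟨rfl, rfl, rfl, rfl⟩ | ⟨rfl, rfl, rfl, rfl⟩ |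
    ⟨rfl, rfl, rfl, rfl⟩ | ⟨rfl, rfl, rfl, rfl⟩ | ⟨rfl, rfl, rfl, rfl⟩ <;> push_cast at hM <;> linarith

theorem Pc.pl_sep (hg : g.Good A) {M M' : ℝ} (h1 : |(g.pl M).1 - (g.pl M').1| < g.ε / 12)
    (h2 : |(g.pl M).2 - (g.pl M').2| < g.ε / 12) : ∃ c : ℤ, |M' - M - 10 * c| < 1 / 2 := by
  obtain ⟨c, j, f, hj, f0, f1, hM, -, -, hp⟩ := wz_pl g M
  obtain ⟨c', j', f', hj', f0', f1', hM', -, -, hp'⟩ := wz_pl g M'
  have hε := hg.pos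
  have hL := hg.lo j
  have hL' := hg.lo j'
  have p0 : 0 ≤ f * g.len j := mul_nonneg f0 (by linarith)
  have p1 : f * g.len j ≤ g.len j := mul_le_of_le_one_left (by linarith) f1.le
  have q0 : 0 ≤ f' * g.len j' := mul_nonneg f0' (by linarith)
  have q1 : f' * g.len j' ≤ g.len j' := mul_le_of_le_one_left (by linarith) f1'.le
  rw [hp, hp'] at h1 h2
  have key := wz_sep hg hj (P := f * g.len j) (Q := f' * g.len j') (L' := g.len j') (j' := j')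
    p0 p1 rfl rfl rfl
    ⟨hj', q0, q1, rfl, by rw [abs_mul, Nat.abs_ofNat]; linarith,
      by rw [abs_mul, Nat.abs_ofNat]; linarith⟩
  clear h1 h2 hp hp' p0 p1 q0 q1
  rcases key with ⟨rfl, k1, k2⟩ | ⟨k0, k1⟩ | ⟨k0, k1⟩
  · refine ⟨c' - c, ?_⟩
    have e : M' - M - 10 * ((c' - c : ℤ) : ℝ) = f' - f := by push_cast; linarith
    rw [e, abs_lt]
    exact ⟨by linarith [wz_one hε hL k1], wz_one hε hL k2⟩
  · have k2 := wz_two hε f1 f0' hL hL' k1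
    have k3 : (j' : ℤ) = j + 1 - 10 * ((j + 1) / 10) := by omega
    have k4 : (j' : ℝ) = j + 1 - 10 * ((((j : ℤ) + 1) / 10 : ℤ) : ℝ) := by exact_mod_cast k3
    refine ⟨c' - c - ((j : ℤ) + 1) / 10, ?_⟩
    have e : M' - M - 10 * ((c' - c - ((j : ℤ) + 1) / 10 : ℤ) : ℝ) = 1 - f + f' := by
      rw [Int.cast_sub, Int.cast_sub]; linarith
    rw [e, abs_lt]
    constructor <;> linarith
  · have k2 := wz_two hε f1' f0 hL' hL k1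
    have k3 : (j : ℤ) = j' + 1 - 10 * ((j' + 1) / 10) := by omega
    have k4 : (j : ℝ) = j' + 1 - 10 * ((((j' : ℤ) + 1) / 10 : ℤ) : ℝ) := by exact_mod_cast k3
    refine ⟨c' - c + ((j' : ℤ) + 1) / 10, ?_⟩
    have e : M' - M - 10 * ((c' - c + ((j' : ℤ) + 1) / 10 : ℤ) : ℝ) = -(1 - f' + f) := by
      rw [Int.cast_add, Int.cast_sub]; linarith
    rw [e, abs_lt]
    constructor <;> linarith

end Vale.Agent.P209
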