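import Vale.Agent.P209.WWid
import Vale.Agent.P209.WDer
import Vale.Agent.P209.WZone
import Vale.Agent.P209.Lift

/-! Normal forms of the window map. Write `ζ = liftF (D.Yp p) 0 z`, `M = z.1 none`,
`x = ζ.1 (some none)`, `w = D.w t`. Plan: `lift_pure*`: on a pure zone `Yp` is locally the
explicit map given by `Pc.pt_pure`; compute with `liftF_pair` on the basis vectors.
`E_cases`: with `k = ⌊(M + 1/8)/10⌋`, `r = M - 10 k ∈ [-1/8, 79/8)`, `p = pc M`.
If `x < x₀` or `x > x₀ + s` use `before`/`after` and `Tr_Tr` (odd lanes are fixed by `lanePerm`;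
on the second half `x > x₀ + s` means `r > 39/4` (`second_half`), there replace `p` by
`(p + 1) % lam` with `Yp_junction`, `liftF_congr`). Otherwise use `zoneA`, `zoneB`. -/

open scoped ContDiff Topology
open Set MeasureTheory

namespace Vale.Agent.P209

variable {κ : Type} [Fintype κ] [DecidableEq κ] {D : WData κ} {O : Set (κ → ℝ)} {A κ₀ : ℝ}
  {G : ℕ → Ph (Option (Option κ)) → Ph (Option (Option κ))}

/-- the piece whose wall carries the point at time `M` outside the permutation strip. -/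
noncomputable def WData.pc' (D : WData κ) (M : ℝ) : ℕ :=
  (⌊(M + 1 / 4) / 10⌋ % (D.lam : ℤ)).toNat

theorem wform_lift {Y : (Option (Option κ) → ℝ) → Option (Option κ) → ℝ}
    {z : Ph (Option (Option κ))} {a b e : ℝ} (ha : a ≠ 0) (he : e ≠ 0) {F H : (κ → ℝ) → ℝ}
    (hF : Differentiable ℝ F) (hH : Differentiable ℝ H)
    (hY : Y =ᶠ[𝓝 z.1] fun y => mk3 (a * y (some none) + F (tt y))
      (b * y (some none) + e * y none + H (tt y)) (tt y)) :
    (liftF Y (fun _ => 0) z).2 none * a + (liftF Y (fun _ => 0) z).2 (some none) * b =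
        z.2 (some none) ∧ (liftF Y (fun _ => 0) z).2 (some none) * e = z.2 none ∧
      ∀ r, (liftF Y (fun _ => 0) z).2 none * fderiv ℝ F (tt z.1) (Pi.single r 1) +
        (liftF Y (fun _ => 0) z).2 (some none) * fderiv ℝ H (tt z.1) (Pi.single r 1) +
        (liftF Y (fun _ => 0) z).2 (some (some r)) = z.2 (some (some r)) := by
  obtain ⟨tL, htL⟩ : ∃ tL : (Option (Option κ) → ℝ) →L[ℝ] (κ → ℝ), ∀ y, tL y = tt y :=
    ⟨ContinuousLinearMap.pi fun r => ContinuousLinearMap.proj (some (some r)), fun _ => rfl⟩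
  have dt : HasFDerivAt tt tL z.1 := by
    have := tL.hasFDerivAt (x := z.1)
    rwa [show (tL : (Option (Option κ) → ℝ) → κ → ℝ) = tt from funext htL] at this
  have dp : ∀ i, HasFDerivAt (fun y : Option (Option κ) → ℝ => y i)
      (ContinuousLinearMap.proj (R := ℝ) (φ := fun _ : Option (Option κ) => ℝ) i) z.1 :=
    fun i => hasFDerivAt_apply i z.1
  have d1 := ((dp (some none)).const_mul a).add ((hF (tt z.1)).hasFDerivAt.comp z.1 dt)
  have d2 := (((dp (some none)).const_mul b).add ((dp none).const_mul e)).add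
    ((hH (tt z.1)).hasFDerivAt.comp z.1 dt)
  have dd : DifferentiableAt ℝ (fun y : Option (Option κ) → ℝ => mk3 (a * y (some none) + F (tt y))
      (b * y (some none) + e * y none + H (tt y)) (tt y)) z.1 := by
    refine differentiableAt_pi.2 fun i => ?_
    rcases i with _ | _ | r
    · exact d1.differentiableAt
    · exact d2.differentiableAt
    · exact (dp (some (some r))).differentiableAt
  have dY := (hY.differentiableAt_iff.2 dd).hasFDerivAt
  have dY' := dY.congr_of_eventuallyEq hY.symm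
  have c1 : ∀ v, fderiv ℝ Y z.1 v none = a * v (some none) + fderiv ℝ F (tt z.1) (tt v) := fun v => by
    have := congrArg (fun L => L v) ((hasFDerivAt_pi'.1 dY' none).unique d1)
    simpa [htL] using this
  have c2 : ∀ v, fderiv ℝ Y z.1 v (some none) =
      b * v (some none) + e * v none + fderiv ℝ H (tt z.1) (tt v) := fun v => by
    have := congrArg (fun L => L v) ((hasFDerivAt_pi'.1 dY' (some none)).unique d2)
    simpa [htL] using this
  have c3 : ∀ v r, fderiv ℝ Y z.1 v (some (some r)) = v (some (some r)) := fun v r => by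
    have := congrArg (fun L => L v)
      ((hasFDerivAt_pi'.1 dY' (some (some r))).unique (dp (some (some r))))
    simpa using this
  have inj : Function.Injective (fderiv ℝ Y z.1) := by
    refine (injective_iff_map_eq_zero _).2 fun v hv => ?_
    have a3 : ∀ r, v (some (some r)) = 0 := fun r => by rw [← c3 v r, hv]; rfl
    have a4 : tt v = 0 := funext a3
    have a1 := c1 v
    have a2 := c2 v
    rw [hv, a4, map_zero, add_zero, Pi.zero_apply] at a1 a2
    have b1 : v (some none) = 0 := (mul_eq_zero.1 a1.symm).resolve_left ha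
    rw [b1, mul_zero, zero_add] at a2
    have b2 : v none = 0 := (mul_eq_zero.1 a2.symm).resolve_left he
    funext i
    rcases i with _ | _ | r
    exacts [b2, b1, a3 r]
  have key := liftF_pair (K := fun _ => 0) z inj
  simp only [Fintype.sum_option, c1, c2, c3] at key
  have t1 : tt (Pi.single (some none) 1 : Option (Option κ) → ℝ) = 0 := by
    funext r; simp [tt]
  have t2 : tt (Pi.single none 1 : Option (Option κ) → ℝ) = 0 := by
    funext r; simp [tt]
  have t3 : ∀ r, tt (Pi.single (some (some r)) 1 : Option (Option κ) → ℝ) = Pi.single r 1 := by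
    intro r; funext r'; simp [tt, Pi.single_apply]
  refine ⟨?_, ?_, fun r => ?_⟩
  · simpa [t1] using key (Pi.single (some none) 1)
  · simpa [t2] using key (Pi.single none 1)
  · have := key (Pi.single (some (some r)) 1)
    simp [t3, Pi.single_apply] at this
    linarith

theorem wform_geo (D : WData κ) (p : ℕ) (u : ℝ) (t : κ → ℝ) :
    (D.geo p u t).ε = D.ε ∧ (D.geo p u t).w = D.w t ∧ (D.geo p u t).u = u := by
  unfold WData.geo
  split_ifs <;> exact ⟨rfl, rfl, rfl⟩

theorem wform_nhds (a b : ℝ) {y : Option (Option κ) → ℝ} (h1 : a < y none) (h2 : y none < b) :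
    ∀ᶠ y' in 𝓝 y, a < y' none ∧ y' none < b :=
  (continuous_apply none).continuousAt.eventually (Ioo_mem_nhds h1 h2)

theorem wform_nine (hD : D.Ok O A κ₀) (p : ℕ) (u : ℝ) (t : κ → ℝ) (c : ℤ) {M : ℝ}
    (h1 : 9 + 10 * c + D.ν ≤ M) (h2 : M ≤ 10 + 10 * c - D.ν) :
    (D.geo p u t).pt D.ν M = (D.w t - 2 * D.ε + (M - (9 + 10 * c)) * D.ε, u) := by
  obtain ⟨g1, g2, g3⟩ := wform_geo D p u t
  rw [((D.geo p u t).pt_pure hD.ν_pos hD.ν_le (9 + 10 * c) (by push_cast; linarith)
    (by push_cast; linarith)).1, ix_add]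
  change ((D.geo p u t).w - 2 * (D.geo p u t).ε, (D.geo p u t).u) +
    ((M - ((9 + 10 * c : ℤ) : ℝ)) * (D.geo p u t).ε) • ((1 : ℝ), (0 : ℝ)) = _
  rw [g1, g2, g3]
  simp

theorem lift_handle (hD : D.Ok O A κ₀) (p : ℕ) {z : Ph (Option (Option κ))}
    (hM : z.1 none ∈ Ioo (7 + D.ν) (8 - D.ν)) :
    liftF (D.Yp p) (fun _ => 0) z =
      (mk3 (z.1 (some none)) (z.1 (some none) + (z.1 none - 7) * D.ε) (tt z.1),
        mk3 (z.2 (some none) - z.2 none / D.ε) (z.2 none / D.ε) (tt z.2)) := by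
  have hε := hD.ε_pos
  have hY : D.Yp p =ᶠ[𝓝 z.1] fun y => mk3 (1 * y (some none) + (fun _ => 0) (tt y))
      (1 * y (some none) + D.ε * y none + (fun _ => -(7 * D.ε)) (tt y)) (tt y) := by
    filter_upwards [wform_nhds _ _ hM.1 hM.2] with y hy
    obtain ⟨g1, g2, g3⟩ := wform_geo D p (y (some none)) (tt y)
    unfold WData.Yp
    rw [((D.geo p (y (some none)) (tt y)).pt_pure hD.ν_pos hD.ν_le 7 (by push_cast; linarith)
      (by push_cast; linarith)).1]
    change mk3 ((D.geo p (y (some none)) (tt y)).u + ((y none - ((7 : ℤ) : ℝ)) *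
      (D.geo p (y (some none)) (tt y)).ε) * 0) ((D.geo p (y (some none)) (tt y)).u +
      ((y none - ((7 : ℤ) : ℝ)) * (D.geo p (y (some none)) (tt y)).ε) * 1) (tt y) = _
    rw [g1, g3]
    congr 1 <;> push_cast <;> ring
  obtain ⟨a1, a2, a3⟩ := wform_lift one_ne_zero hε.ne' (differentiable_const _)
    (differentiable_const _) hY
  have a4 : (liftF (D.Yp p) (fun _ => 0) z).2 (some none) = z.2 none / D.ε := by
    rw [eq_div_iff hε.ne', a2]
  refine Prod.ext ?_ (funext fun i => ?_)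
  · change D.Yp p z.1 = _
    rw [hY.eq_of_nhds]
    dsimp only
    congr 1 <;> ring
  · rcases i with _ | _ | r
    · change _ = z.2 (some none) - z.2 none / D.ε
      linarith
    · exact a4
    · change _ = z.2 (some (some r))
      simpa using a3 r

theorem lift_low (hD : D.Ok O A κ₀) (p : ℕ) {z : Ph (Option (Option κ))} (c : ℤ)
    (hM : z.1 none - 10 * c ∈ Icc (37 / 4 : ℝ) (39 / 4)) :
    (liftF (D.Yp p) (fun _ => 0) z).1 none = z.1 (some none) ∧
      (liftF (D.Yp p) (fun _ => 0) z).2 none = z.2 (some none) := by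
  have hε := hD.ε_pos
  have hν := hD.ν_le
  have hY : D.Yp p =ᶠ[𝓝 z.1] fun y => mk3 (1 * y (some none) + (fun _ => 0) (tt y))
      (0 * y (some none) + D.ε * y none + (fun t => D.w t - (11 + 10 * c) * D.ε) (tt y)) (tt y) := by
    filter_upwards [wform_nhds (9 + 10 * c + D.ν) (10 + 10 * c - D.ν) (y := z.1)
      (by linarith [hM.1]) (by linarith [hM.2])] with y hy
    unfold WData.Yp
    rw [wform_nine hD p _ _ c hy.1.le hy.2.le]
    dsimp only
    congr 1 <;> ring
  obtain ⟨a1, -, -⟩ := wform_lift one_ne_zero hε.ne' (differentiable_const _)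
    ((hD.sw.differentiable (by simp)).sub_const _) hY
  refine ⟨?_, by linarith⟩
  change D.Yp p z.1 none = _
  rw [hY.eq_of_nhds]
  simp [mk3]

theorem lift_up (hD : D.Ok O A κ₀) {p : ℕ} (hp : p + 1 < D.lam) {z : Ph (Option (Option κ))}
    (c : ℤ) (hM : z.1 none - 10 * c ∈ Icc (17 / 4 : ℝ) (19 / 4)) :
    (liftF (D.Yp p) (fun _ => 0) z).1 none = 2 * D.w (tt z.1) - z.1 (some none) ∧
      (liftF (D.Yp p) (fun _ => 0) z).2 none = -z.2 (some none) := by
  have hε := hD.ε_pos
  have hν := hD.ν_le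
  have hY : D.Yp p =ᶠ[𝓝 z.1] fun y => mk3 (-1 * y (some none) + (fun t => 2 * D.w t) (tt y))
      (0 * y (some none) + -D.ε * y none + (fun t => D.w t + (3 + 10 * c) * D.ε) (tt y)) (tt y) := by
    filter_upwards [wform_nhds (4 + 10 * c + D.ν) (5 + 10 * c - D.ν) (y := z.1)
      (by linarith [hM.1]) (by linarith [hM.2])] with y hy
    unfold WData.Yp WData.geo
    rw [if_pos hp, (Pc.pt_pure hD.ν_pos hD.ν_le _ (4 + 10 * c) (by push_cast; linarith)
      (by push_cast; linarith)).1, ix_add]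
    change mk3 (2 * D.w (tt y) - y (some none) + ((y none - ((4 + 10 * c : ℤ) : ℝ)) *
      (D.w (tt y) - D.ε - (D.w (tt y) - 2 * D.ε))) * 0) (D.w (tt y) - D.ε +
      ((y none - ((4 + 10 * c : ℤ) : ℝ)) * (D.w (tt y) - D.ε - (D.w (tt y) - 2 * D.ε))) * -1)
      (tt y) = _
    congr 1 <;> push_cast <;> ring
  obtain ⟨a1, -, -⟩ := wform_lift (by norm_num) (neg_ne_zero.2 hε.ne')
    ((hD.sw.differentiable (by simp)).const_mul _)
    ((hD.sw.differentiable (by simp)).add_const _) hY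
  refine ⟨?_, by linarith⟩
  change D.Yp p z.1 none = _
  rw [hY.eq_of_nhds]
  simp only [mk3]
  ring

theorem wform_sm (hD : D.Ok O A κ₀) (c : ℝ) :
    ContDiff ℝ ∞ (fun y : Option (Option κ) → ℝ => c * D.w (tt y)) ∧
      ∀ (y : Option (Option κ) → ℝ) (s : ℝ),
        c * D.w (tt (Function.update y none s)) = c * D.w (tt y) :=
  ⟨contDiff_const.mul (hD.sw.comp (contDiff_pi.2 fun r => contDiff_apply ℝ ℝ (some (some r)))),
    fun _ _ => rfl⟩

theorem wform_odd (hD : D.Ok O A κ₀) (p : ℕ) (ζ : Ph (Option (Option κ))) :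
    Tr none (fun y => ((2 * p + 1 : ℕ) : ℝ) * D.w (tt y)) (Tr none (fun y => -D.w (tt y)) ζ) =
      Tr none (fun y => ((2 * p : ℕ) : ℝ) * D.w (tt y)) ζ := by
  have e : (fun y : Option (Option κ) → ℝ => -D.w (tt y)) = fun y => -1 * D.w (tt y) := by
    funext y; ring
  rw [e, Tr_Tr none (wform_sm hD _).1 (wform_sm hD _).1 (wform_sm hD _).2 (wform_sm hD _).2]
  congr 1
  funext y
  push_cast
  ring

theorem wform_succ {lam : ℕ} (h : 1 ≤ lam) (k : ℤ) :
    ((k + 1) % (lam : ℤ)).toNat = ((k % (lam : ℤ)).toNat + 1) % lam := by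
  have h0 : (lam : ℤ) ≠ 0 := by omega
  have a1 := Int.emod_nonneg k h0
  have a2 := Int.emod_nonneg (k + 1) h0
  zify
  rw [Int.toNat_of_nonneg a1, Int.toNat_of_nonneg a2, Int.emod_add_emod]

theorem E_cases (hD : D.Ok O A κ₀)
    (hG : IsPerm (2 * D.lam - 1) (lanePerm D.lam) D.w (fun t => D.w t - 7 / 4 * D.ε) (D.ε / 2)
      κ₀ G) {z : Ph (Option (Option κ))} (hz : bb z.1 ∈ D.Z O) :
    (D.E G z = Tr none (fun y => ((2 * D.pc' (z.1 none) : ℕ) : ℝ) * D.w (tt y))
        (liftF (D.Yp (D.pc' (z.1 none))) (fun _ => 0) z) ∧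
      ((D.E G z).1 (some none) < D.w (tt z.1) - 7 / 4 * D.ε ∨
        D.w (tt z.1) - 5 / 4 * D.ε < (D.E G z).1 (some none) ∨
        (2 * (D.lam : ℝ) - 1) * D.w (tt z.1) ≤ (D.E G z).1 none)) ∨
    (D.w (tt z.1) - 7 / 4 * D.ε ≤ (D.E G z).1 (some none) ∧
      (D.E G z).1 (some none) ≤ D.w (tt z.1) - 5 / 4 * D.ε ∧
      (((∃ c : ℤ, z.1 none - 10 * c ∈ Icc (37 / 4 : ℝ) (39 / 4)) ∧
          D.E G z = G (2 * D.pc (z.1 none)) (liftF (D.Yp (D.pc (z.1 none))) (fun _ => 0) z)) ∨
        ((∃ c : ℤ, z.1 none - 10 * c ∈ Icc (17 / 4 : ℝ) (19 / 4)) ∧ D.pc (z.1 none) + 1 < D.lam ∧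
          D.E G z = G (2 * D.pc (z.1 none) + 1) (Tr none (fun y => -D.w (tt y))
            (liftF (D.Yp (D.pc (z.1 none))) (fun _ => 0) z))))) := by
  have hε := hD.ε_pos
  have hν := hD.ν_le
  have hν0 := hD.ν_pos
  have hp := D.pc_lt hD.lam_pos (z.1 none)
  obtain ⟨k, hk⟩ : ∃ k, k = ⌊(z.1 none + 1 / 8) / 10⌋ := ⟨_, rfl⟩
  have k1 : (k : ℝ) ≤ (z.1 none + 1 / 8) / 10 := hk ▸ Int.floor_le _
  have k2 : (z.1 none + 1 / 8) / 10 < k + 1 := hk ▸ Int.lt_floor_add_one _
  have q1 : z.1 none - 10 * k < 39 / 4 → D.pc' (z.1 none) = D.pc (z.1 none) := fun h => by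
    unfold WData.pc' WData.pc
    rw [← hk, (Int.floor_eq_iff (z := k)).2 ⟨by linarith, by linarith⟩]
  have q2 : 39 / 4 < z.1 none - 10 * k → D.pc' (z.1 none) = (D.pc (z.1 none) + 1) % D.lam :=
    fun h => by
      unfold WData.pc' WData.pc
      rw [← hk, (Int.floor_eq_iff (z := k + 1)).2 ⟨by push_cast; linarith, by push_cast; linarith⟩,
        wform_succ hD.lam_pos]
  have hE : D.E G z = if z.1 none - 10 * (k : ℝ) < 13 / 2 then
      (if D.pc (z.1 none) + 1 < D.lam then G (2 * D.pc (z.1 none) + 1)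
        (Tr none (fun y => -D.w (tt y)) (liftF (D.Yp (D.pc (z.1 none))) (fun _ => 0) z))
      else Tr none (fun y => ((2 * D.pc (z.1 none) : ℕ) : ℝ) * D.w (tt y))
        (liftF (D.Yp (D.pc (z.1 none))) (fun _ => 0) z))
      else G (2 * D.pc (z.1 none)) (liftF (D.Yp (D.pc (z.1 none))) (fun _ => 0) z) := by
    rw [hk]; rfl
  generalize D.E G z = Ez at hE ⊢
  generalize D.pc (z.1 none) = p at hp q1 q2 hE ⊢
  have hj := fun h : 39 / 4 < z.1 none - 10 * k => liftF_congr (K := fun _ => 0) z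
    (Yp_junction hD p ((p + 1) % D.lam) (k + 1) (y := z.1) (by push_cast; linarith)
      (by push_cast; linarith)) (Filter.EventuallyEq.refl _ _)
  have good : (D.geo p (z.1 (some none)) (tt z.1)).Good A := good_geo hD p hz
  have u0 : 0 < z.1 (some none) := hz.2.1
  have u1 : z.1 (some none) < D.w (tt z.1) - 10 * D.ε := hz.2.2
  obtain ⟨g1, g2, g3⟩ := wform_geo D p (z.1 (some none)) (tt z.1)
  have hA : 1000 * D.ν * A ≤ (D.geo p (z.1 (some none)) (tt z.1)).ε := g1.symm ▸ hD.νA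
  have hu : (D.geo p (z.1 (some none)) (tt z.1)).u ≤ (D.geo p (z.1 (some none)) (tt z.1)).w -
      10 * (D.geo p (z.1 (some none)) (tt z.1)).ε := by rw [g1, g2, g3]; exact u1.le
  have sh := Pc.second_half hν0 hν hA good hu (M := z.1 none - 10 * k)
  have pe := (D.geo p (z.1 (some none)) (tt z.1)).pt_add (ν := D.ν) (z.1 none - 10 * k) k
  rw [sub_add_cancel] at pe
  rw [← pe, g1, g2] at sh
  have n9 := fun (h1 : 37 / 4 ≤ z.1 none - 10 * k) (h2 : z.1 none - 10 * k ≤ 39 / 4) =>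
    congrArg Prod.fst (wform_nine hD p (z.1 (some none)) (tt z.1) k (M := z.1 none)
      (by linarith) (by linarith))
  have zA := fun h4 h5 => Pc.zoneA hν0 hν hA good hu h4 h5 (M := z.1 none)
  have zB := fun h4 h5 h6 => Pc.zoneB hν0 hν hA good hu h4 h5 h6 (M := z.1 none)
  have z1 : (liftF (D.Yp p) (fun _ => 0) z).1 (some none) =
      ((D.geo p (z.1 (some none)) (tt z.1)).pt D.ν (z.1 none)).1 := rfl
  have z2 : (liftF (D.Yp p) (fun _ => 0) z).1 none =
      ((D.geo p (z.1 (some none)) (tt z.1)).pt D.ν (z.1 none)).2 := rfl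
  have z3 : tt (liftF (D.Yp p) (fun _ => 0) z).1 = tt z.1 := rfl
  rw [← z1] at sh n9 zA zB
  rw [← z2] at zB
  rw [g1, g2] at zA zB
  have nc : z.1 none - 10 * (k : ℝ) < 13 / 2 →
      ¬ ∃ c : ℤ, z.1 none - 10 * c ∈ Icc (37 / 4 : ℝ) (39 / 4) := by
    rintro h ⟨c, c1, c2⟩
    have a1 : (c : ℝ) < k := by linarith
    have a2 : (k : ℝ) < c + 1 := by linarith
    have a3 : c < k := by exact_mod_cast a1
    have a4 : k < c + 1 := by exact_mod_cast a2
    omega
  generalize hζ : liftF (D.Yp p) (fun _ => 0) z = ζ at hE hj sh n9 zA zB z3 ⊢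
  have T1 : ∀ f, (Tr none f ζ).1 (some none) = ζ.1 (some none) := fun _ => rfl
  have T2 : ∀ f, tt (Tr none f ζ).1 = tt z.1 := fun _ => z3
  split_ifs at hE with h1 h2
  · have m1 : 2 * p + 1 < 2 * D.lam - 1 := by omega
    have x1 : Ez.1 (some none) = ζ.1 (some none) := by rw [hE, (hG.keep _ _).1, T1]
    rw [x1, q1 (by linarith), hζ]
    rcases lt_or_ge (ζ.1 (some none)) (D.w (tt z.1) - 7 / 4 * D.ε) with x2 | x2
    · refine Or.inl ⟨?_, Or.inl x2⟩
      rw [hE, hG.before _ m1 _ (by rw [T1, T2]; exact x2.le), wform_odd hD]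
    rcases lt_or_ge (D.w (tt z.1) - 5 / 4 * D.ε) (ζ.1 (some none)) with x3 | x3
    · refine Or.inl ⟨?_, Or.inr (Or.inl x3)⟩
      have e : lanePerm D.lam (2 * p + 1) = 2 * p + 1 := if_neg (by omega)
      rw [hE, hG.after _ m1 _ (by rw [T1, T2]; linarith), e, wform_odd hD]
    obtain ⟨c, hc⟩ := zA (by unfold WData.geo; rw [if_pos h2]; rfl)
      (by unfold WData.geo; rw [if_pos h2]; rfl) x2 x3
    exact Or.inr ⟨x2, x3, Or.inr ⟨⟨c, hc.resolve_left fun h => nc h1 ⟨c, h⟩⟩, h2, hE⟩⟩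
  · rw [q1 (by linarith), hζ]
    refine Or.inl ⟨hE, ?_⟩
    rw [hE, T1]
    by_contra hn
    push Not at hn
    obtain ⟨b1, -, b3, -, b5, -⟩ := geoB_bounds (hD.dat _ hz.1) u0 u1
    have a1 := ((zB (by unfold WData.geo; rw [if_neg h2]; exact b1)
      (by unfold WData.geo; rw [if_neg h2]; exact b3)
      (by unfold WData.geo; rw [if_neg h2]; exact b5) hn.1 hn.2.1).resolve_left (nc h1)).1
    have a2 := hn.2.2
    have a3 : (Tr none (fun y => ((2 * p : ℕ) : ℝ) * D.w (tt y)) ζ).1 none =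
        ζ.1 none + ((2 * p : ℕ) : ℝ) * D.w (tt ζ.1) := rfl
    have a4 : (D.lam : ℝ) = p + 1 := by exact_mod_cast (by omega : D.lam = p + 1)
    rw [a3, z3, a4] at a2
    push_cast at a2
    linarith
  · have m1 : 2 * p < 2 * D.lam - 1 := by omega
    have x1 : Ez.1 (some none) = ζ.1 (some none) := by rw [hE, (hG.keep _ _).1]
    rw [x1]
    rcases lt_or_ge (ζ.1 (some none)) (D.w (tt z.1) - 7 / 4 * D.ε) with x2 | x2
    · have r1 : z.1 none - 10 * k < 39 / 4 := by
        by_contra hn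
        rcases (not_lt.1 hn).eq_or_lt with e | e
        · have := n9 (by linarith) e.ge
          dsimp only at this
          nlinarith
        · linarith [sh.2 e (by linarith)]
      rw [q1 r1, hζ]
      exact Or.inl ⟨by rw [hE, hG.before _ m1 _ (by rw [z3]; exact x2.le)], Or.inl x2⟩
    have r1 : 37 / 4 ≤ z.1 none - 10 * k := by
      by_contra hn
      linarith [sh.1 (by linarith) (not_le.1 hn)]
    rcases lt_or_ge (D.w (tt z.1) - 5 / 4 * D.ε) (ζ.1 (some none)) with x3 | x3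
    · have r2 : 39 / 4 < z.1 none - 10 * k := by
        by_contra hn
        have := n9 r1 (not_lt.1 hn)
        dsimp only at this
        nlinarith [not_lt.1 hn]
      have e : lanePerm D.lam (2 * p) = 2 * ((p + 1) % D.lam) := by
        unfold lanePerm
        rw [if_pos (by omega), Nat.mul_div_cancel_left _ two_pos]
      rw [q2 r2, ← hj r2]
      exact Or.inl ⟨by rw [hE, hG.after _ m1 _ (by rw [z3]; linarith), e], Or.inr (Or.inl x3)⟩
    have r2 : z.1 none - 10 * k ≤ 39 / 4 := by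
      by_contra hn
      linarith [sh.2 (not_le.1 hn) (by linarith)]
    exact Or.inr ⟨x2, x3, Or.inl ⟨⟨k, r1, r2⟩, hE⟩⟩

end Vale.Agent.P209
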