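import Vale.Agent.P209.WDefs
import Vale.Agent.P209.Ramp

/-! Numerical facts on the pieces. Plan: `smin_le`, `le_smin`, `smin_sub_le` (also applied with
the two levels exchanged), `hasDerivAt_smin`; `match j with | 0 | 1 … | (n+9)` and `linarith`.
Useful: for `u ≤ u'`, `Δ = u' - u`: `Δ ≤ Kc - Kc' ≤ 2Δ`, `Δ ≤ X - X' ≤ Kc - Kc' + Δ`, same for `Y`. -/

open scoped ContDiff Topology
open Set MeasureTheory

namespace Vale.Agent.P209

variable {ε A h w H K u u' : ℝ}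

theorem sum_len (g : Pc) : ∑ j ∈ Finset.range 10, g.len j = g.X + g.Y + g.Kc - 4 * g.u := by
  simp only [Finset.sum_range_succ, Finset.sum_range_zero, Pc.len]
  ring

theorem wgeo_up (hε : 0 < ε) (a b : ℝ) : smin ε a b ≤ a ∧ smin ε a b ≤ b :=
  le_min_iff.1 (smin_le hε a b)

theorem wgeo_lo (hε : 0 < ε) (a b : ℝ) : a - ε ≤ smin ε a b ∨ b - ε ≤ smin ε a b := by
  have := le_smin hε a b
  rcases min_choice a b with e | e <;> rw [e] at this
  exacts [Or.inl this, Or.inr this]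

theorem wgeo_facts (hε : 0 < ε) (h H K u : ℝ) :
    (pKc ε h H K u ≤ K - u ∧ pKc ε h H K u ≤ h + H - 2 * u - 3 * ε) ∧
    (pX ε h H K u ≤ h - u ∧ pX ε h H K u ≤ pKc ε h H K u - u - ε) ∧
    (pY ε h H K u ≤ H - u ∧ pY ε h H K u ≤ pKc ε h H K u - u - ε) ∧
    (K - u - ε ≤ pKc ε h H K u ∨ h + H - 2 * u - 3 * ε - ε ≤ pKc ε h H K u) ∧
    (h - u - ε ≤ pX ε h H K u ∨ pKc ε h H K u - u - ε - ε ≤ pX ε h H K u) ∧
    (H - u - ε ≤ pY ε h H K u ∨ pKc ε h H K u - u - ε - ε ≤ pY ε h H K u) :=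
  ⟨wgeo_up hε _ _, wgeo_up hε _ _, wgeo_up hε _ _, wgeo_lo hε _ _, wgeo_lo hε _ _,
    wgeo_lo hε _ _⟩

theorem geoB_bounds (hD : Dat ε A h w H K) (h0 : 0 < u) (h1 : u < w - 10 * ε) :
    w + 9 * ε ≤ pX ε h H K u ∧ pX ε h H K u ≤ h - u ∧ w + 9 * ε ≤ pY ε h H K u ∧
      pY ε h H K u ≤ H - u ∧ 2 * w + 9 * ε ≤ pKc ε h H K u ∧ pKc ε h H K u ≤ K - u := by
  obtain ⟨hε, a1, a2, a3, a4, a5, a6⟩ := hD
  obtain ⟨⟨k1, k2⟩, ⟨x1, x2⟩, ⟨y1, y2⟩, k3, x3, y3⟩ := wgeo_facts hε h H K u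
  refine ⟨?_, x1, ?_, y1, ?_, k1⟩
  · rcases k3 with k3 | k3 <;> rcases x3 with x3 | x3 <;> linarith
  · rcases k3 with k3 | k3 <;> rcases y3 with y3 | y3 <;> linarith
  · rcases k3 with k3 | k3 <;> linarith

theorem good_geoA (hD : Dat ε A h w H K) (h0 : 0 < u) (h1 : u < w - 10 * ε) :
    (geoA ε h w u).Good A := by
  obtain ⟨hε, a1, a2, a3, a4, a5, a6⟩ := hD
  refine ⟨hε, fun j => ?_, fun j => ?_⟩ <;>
    rcases j with _ | _ | _ | _ | _ | _ | _ | _ | _ | j <;> simp only [Pc.len, geoA] <;> linarith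

theorem good_geoB (hD : Dat ε A h w H K) (h0 : 0 < u) (h1 : u < w - 10 * ε) :
    (geoB ε h w H K u).Good A := by
  obtain ⟨b1, b2, b3, b4, b5, b6⟩ := geoB_bounds hD h0 h1
  obtain ⟨hε, a1, a2, a3, a4, a5, a6⟩ := hD
  obtain ⟨⟨k1, k2⟩, ⟨x1, x2⟩, ⟨y1, y2⟩, -, x3, y3⟩ := wgeo_facts hε h H K u
  have e : ε / 3 ≤ pX ε h H K u + pY ε h H K u - pKc ε h H K u := by
    rcases x3 with x3 | x3 <;> rcases y3 with y3 | y3 <;> linarith
  refine ⟨hε, fun j => ?_, fun j => ?_⟩ <;>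
    rcases j with _ | _ | _ | _ | _ | _ | _ | _ | _ | j <;> simp only [Pc.len, geoB] <;> linarith

theorem cmp_geoA (huu : u ≤ u') : (geoA ε h w u).Cmp (geoA ε h w u') := by
  refine ⟨rfl, huu, ?_, ?_, ?_, fun j => ?_, fun j => ?_⟩
  · simp only [geoA]
    linarith
  · simp only [geoA]
    linarith
  · simp only [geoA]
    linarith
  · rcases j with _ | _ | _ | _ | _ | _ | _ | _ | _ | j <;> simp only [Pc.len, geoA] <;>
      constructor <;> linarith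
  · rcases j with _ | _ | _ | _ | _ | _ | _ | _ | _ | j <;> simp only [Pc.vtx, geoA, abs_le] <;>
      refine ⟨⟨?_, ?_⟩, ?_, ?_⟩ <;> linarith

theorem cmp_geoB (huu : u ≤ u') : (geoB ε h w H K u).Cmp (geoB ε h w H K u') := by
  have k1 : pKc ε h H K u' - pKc ε h H K u ≤ -(u' - u) :=
    smin_sub_le ε (by linarith) (by linarith)
  have k2 : pKc ε h H K u - pKc ε h H K u' ≤ 2 * (u' - u) :=
    smin_sub_le ε (by linarith) (by linarith)
  have x1 : pX ε h H K u' - pX ε h H K u ≤ -(u' - u) :=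
    smin_sub_le ε (by linarith) (by linarith)
  have x2 : pX ε h H K u - pX ε h H K u' ≤ pKc ε h H K u - pKc ε h H K u' + (u' - u) :=
    smin_sub_le ε (by linarith) (by linarith)
  have y1 : pY ε h H K u' - pY ε h H K u ≤ -(u' - u) :=
    smin_sub_le ε (by linarith) (by linarith)
  have y2 : pY ε h H K u - pY ε h H K u' ≤ pKc ε h H K u - pKc ε h H K u' + (u' - u) :=
    smin_sub_le ε (by linarith) (by linarith)
  refine ⟨rfl, huu, ?_, ?_, ?_, fun j => ?_, fun j => ?_⟩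
  · simp only [geoB]
    linarith
  · simp only [geoB]
    linarith
  · simp only [geoB]
    linarith
  · rcases j with _ | _ | _ | _ | _ | _ | _ | _ | _ | j <;> simp only [Pc.len, geoB] <;>
      constructor <;> linarith
  · rcases j with _ | _ | _ | _ | _ | _ | _ | _ | _ | j <;> simp only [Pc.vtx, geoB, abs_le] <;>
      refine ⟨⟨?_, ?_⟩, ?_, ?_⟩ <;> linarith

theorem sum_geoB (hD : Dat ε A h w H K) (h0 : 0 < u) (h1 : u < w - 10 * ε) :
    min (h - u) (K - 2 * u) + min (H - u) (K - 2 * u) + min (K - u) (h + H - 2 * u) - 16 * ε ≤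
      pX ε h H K u + pY ε h H K u + pKc ε h H K u := by
  obtain ⟨hε, a1, a2, a3, a4, a5, a6⟩ := hD
  obtain ⟨-, -, -, k3, x3, y3⟩ := wgeo_facts hε h H K u
  have m1 := min_le_left (h - u) (K - 2 * u)
  have m2 := min_le_right (h - u) (K - 2 * u)
  have m3 := min_le_left (H - u) (K - 2 * u)
  have m4 := min_le_right (H - u) (K - 2 * u)
  have m5 := min_le_left (K - u) (h + H - 2 * u)
  have m6 := min_le_right (K - u) (h + H - 2 * u)
  rcases k3 with k3 | k3 <;> rcases x3 with x3 | x3 <;> rcases y3 with y3 | y3 <;> linarith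

theorem deriv_geoB (ε h H K u : ℝ) : ∃ X' Y' K' : ℝ, HasDerivAt (pX ε h H K) X' u ∧
    HasDerivAt (pY ε h H K) Y' u ∧ HasDerivAt (pKc ε h H K) K' u ∧ -2 ≤ K' ∧ K' ≤ -1 ∧
    K' - 1 ≤ X' ∧ X' ≤ -1 ∧ K' - 1 ≤ Y' ∧ Y' ≤ -1 := by
  have d1 : ∀ c : ℝ, HasDerivAt (fun y : ℝ => c - y) (-1) u := fun c =>
    (hasDerivAt_id' u).const_sub c
  have d2 : HasDerivAt (fun y : ℝ => h + H - 2 * y - 3 * ε) (-(2 * 1)) u :=
    (((hasDerivAt_id' u).const_mul 2).const_sub (h + H)).sub_const _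
  have dK : HasDerivAt (pKc ε h H K) _ u := hasDerivAt_smin ε (d1 K) d2
  have d3 : HasDerivAt (fun y : ℝ => pKc ε h H K y - y - ε) _ u :=
    (dK.fun_sub (hasDerivAt_id' u)).sub_const ε
  have dX : HasDerivAt (pX ε h H K) _ u := hasDerivAt_smin ε (d1 h) d3
  have dY : HasDerivAt (pY ε h H K) _ u := hasDerivAt_smin ε (d1 H) d3
  refine ⟨_, _, _, dX, dY, dK, ?_⟩
  have a1 := rp_nonneg ε (K - u - (h + H - 2 * u - 3 * ε))
  have a2 := rp_le_one ε (K - u - (h + H - 2 * u - 3 * ε))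
  have b1 := rp_nonneg ε (h - u - (pKc ε h H K u - u - ε))
  have b2 := rp_le_one ε (h - u - (pKc ε h H K u - u - ε))
  have c1 := rp_nonneg ε (H - u - (pKc ε h H K u - u - ε))
  have c2 := rp_le_one ε (H - u - (pKc ε h H K u - u - ε))
  refine ⟨?_, ?_, ?_, ?_, ?_, ?_⟩ <;> nlinarith

variable {κ : Type} [Fintype κ] {D : WData κ} {O : Set (κ → ℝ)} {κ₀ : ℝ}

theorem wgeo_smooth (hD : D.Ok O A κ₀) :
    ContDiff ℝ ∞ (fun q : ℝ × (κ → ℝ) => pKc D.ε (D.h q.2) (D.H q.2) (D.K q.2) q.1) ∧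
    ContDiff ℝ ∞ (fun q : ℝ × (κ → ℝ) => pX D.ε (D.h q.2) (D.H q.2) (D.K q.2) q.1) ∧
    ContDiff ℝ ∞ (fun q : ℝ × (κ → ℝ) => pY D.ε (D.h q.2) (D.H q.2) (D.K q.2) q.1) := by
  have sh := hD.sh
  have sH := hD.sH
  have sK := hD.sK
  have hs : ∀ {a b : ℝ × (κ → ℝ) → ℝ}, ContDiff ℝ ∞ a → ContDiff ℝ ∞ b →
      ContDiff ℝ ∞ fun q => smin D.ε (a q) (b q) := fun ha hb =>
    (contDiff_smin D.ε).comp (ha.prodMk hb)
  have h1 : ContDiff ℝ ∞ (fun q : ℝ × (κ → ℝ) => pKc D.ε (D.h q.2) (D.H q.2) (D.K q.2) q.1) :=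
    hs (by fun_prop) (by fun_prop)
  have h2 : ContDiff ℝ ∞
      (fun q : ℝ × (κ → ℝ) => pKc D.ε (D.h q.2) (D.H q.2) (D.K q.2) q.1 - q.1 - D.ε) :=
    (h1.sub contDiff_fst).sub contDiff_const
  exact ⟨h1, hs (by fun_prop) h2, hs (by fun_prop) h2⟩

theorem contDiff_geo_vtx (hD : D.Ok O A κ₀) (p j : ℕ) :
    ContDiff ℝ ∞ (fun q : ℝ × (κ → ℝ) => (D.geo p q.1 q.2).vtx j) := by
  have sh := hD.sh
  have sw := hD.sw
  obtain ⟨h1, h2, h3⟩ := wgeo_smooth hD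
  unfold WData.geo
  by_cases hp : p + 1 < D.lam
  · simp only [if_pos hp]
    rcases j with _ | _ | _ | _ | _ | _ | _ | _ | _ | j <;> simp only [Pc.vtx, geoA] <;> fun_prop
  · simp only [if_neg hp]
    rcases j with _ | _ | _ | _ | _ | _ | _ | _ | _ | j <;> simp only [Pc.vtx, geoB] <;> fun_prop

theorem contDiff_geo_len (hD : D.Ok O A κ₀) (p j : ℕ) :
    ContDiff ℝ ∞ (fun q : ℝ × (κ → ℝ) => (D.geo p q.1 q.2).len j) := by
  have sh := hD.sh
  have sw := hD.sw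
  obtain ⟨h1, h2, h3⟩ := wgeo_smooth hD
  unfold WData.geo
  by_cases hp : p + 1 < D.lam
  · simp only [if_pos hp]
    rcases j with _ | _ | _ | _ | _ | _ | _ | _ | _ | j <;> simp only [Pc.len, geoA] <;> fun_prop
  · simp only [if_neg hp]
    rcases j with _ | _ | _ | _ | _ | _ | _ | _ | _ | j <;> simp only [Pc.len, geoB] <;> fun_prop

theorem good_geo (hD : D.Ok O A κ₀) (p : ℕ) {b : Option κ → ℝ} (hb : b ∈ D.Z O) :
    (D.geo p (b none) (bb b)).Good A := by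
  unfold WData.geo
  split_ifs
  · exact good_geoA (hD.dat _ hb.1) hb.2.1 hb.2.2
  · exact good_geoB (hD.dat _ hb.1) hb.2.1 hb.2.2

omit [Fintype κ] in
theorem cmp_geo (D : WData κ) (p : ℕ) (t : κ → ℝ) (huu : u ≤ u') :
    (D.geo p u t).Cmp (D.geo p u' t) := by
  unfold WData.geo
  split_ifs
  · exact cmp_geoA huu
  · exact cmp_geoB huu

end Vale.Agent.P209
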