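import Vale.Agent.P209.WZone

/-! The level curves of one piece are disjoint and simple. Plan: `Δ = g'.u - g.u ≥ 0`.
Step 1: `Δ ≤ ν A`: with `j = round M`, `x = M - j`, the point `g.pt M` lies on the edge line `j`
or `j - 1`, or within `ν A` of one of them (one of the five affine functions `y₂ - u`, `ŷ - u`,
`X - y₂`, `Y - ŷ`, `Kc - y₂ - ŷ` is `≤ ν A` at it), while `g'.pt M'` satisfies `pt_mem` for `g'`.
Step 2: `g'.pl M` and `g'.pl M'` are within `ε/12` (`pt_sub_pl`, `Cmp.vtx`, `Cmp.len`), so by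
`pl_sep` and periodicity we may assume `|M' - M| < 1/2`; let `j = round ((M + M')/2)`, both
points are given by `loc j` (`|M - j| ≤ 3/4`). Step 3: flat vertex (`ix j ∈ {4,5,8,9,0}`): the
normal coordinate gives `Δ = 0`, then `ramp x * len j - ramp (-x) * len (j-1)` is strictly
increasing. Corner (`ix j ∈ {1,2,3,6,7}`): pairing with the two inner normals gives
`ramp x' * len' j + Δ₁ = ramp x * len j`, `ramp (-x') * len' (j-1) + Δ₂ = ramp (-x) * len (j-1)`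
with `Δ₁, Δ₂ ≥ Δ`. If `Δ > 0`: both right sides are positive so `|x| < ν`; if `x ≤ x'` the first
gives `Δ ≤ ν * 6 Δ`, otherwise the second does; contradiction. If `Δ = 0` (so `g' = g` in all
vertices and lengths) `ramp x = ramp x'`, `ramp (-x) = ramp (-x')`, subtract (`ramp_sub`). -/

open scoped ContDiff Topology
open Set MeasureTheory

namespace Vale.Agent.P209

/-- affine function vanishing on the line of the edge `i`. -/
def Pc.winjAff (g : Pc) : ℕ → ℝ × ℝ → ℝ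
  | 1, P => g.X - P.1
  | 2, P => g.Kc - P.1 - P.2
  | 3, P => g.Y - P.2
  | 4, P => g.Y - P.2
  | 5, P => g.Y - P.2
  | 6, P => P.1 - g.u
  | _, P => P.2 - g.u

/-- indicator of the corners. -/
def winjC : ℕ → ℝ
  | 1 => 1
  | 2 => 1
  | 3 => 1
  | 6 => 1
  | 7 => 1
  | _ => 0

theorem winj_ix_cases (j : ℤ) :
    (ix j = 0 ∧ ix (j - 1) = 9) ∨ (ix j = 1 ∧ ix (j - 1) = 0) ∨ (ix j = 2 ∧ ix (j - 1) = 1) ∨
    (ix j = 3 ∧ ix (j - 1) = 2) ∨ (ix j = 4 ∧ ix (j - 1) = 3) ∨ (ix j = 5 ∧ ix (j - 1) = 4) ∨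
    (ix j = 6 ∧ ix (j - 1) = 5) ∨ (ix j = 7 ∧ ix (j - 1) = 6) ∨ (ix j = 8 ∧ ix (j - 1) = 7) ∨
    (ix j = 9 ∧ ix (j - 1) = 8) := by
  have h : j % 10 = 0 ∨ j % 10 = 1 ∨ j % 10 = 2 ∨ j % 10 = 3 ∨ j % 10 = 4 ∨ j % 10 = 5 ∨
      j % 10 = 6 ∨ j % 10 = 7 ∨ j % 10 = 8 ∨ j % 10 = 9 := by omega
  have e : (j - 1) % 10 = (j % 10 - 1) % 10 := by omega
  unfold ix
  rw [e]
  rcases h with h | h | h | h | h | h | h | h | h | h <;> rw [h] <;> decide

theorem winjC_cases (i : ℕ) : winjC i = 0 ∨ winjC i = 1 := by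
  unfold winjC
  split <;> simp

theorem winj_aff_vec (g : Pc) (j : ℤ) (a b : ℝ) :
    g.winjAff (ix j) (g.vtx (ix j) + a • dirn (ix j) - b • dirn (ix (j - 1))) =
        winjC (ix j) * b ∧
      g.winjAff (ix (j - 1)) (g.vtx (ix j) + a • dirn (ix j) - b • dirn (ix (j - 1))) =
        winjC (ix j) * a := by
  rcases winj_ix_cases j with h | h | h | h | h | h | h | h | h | h <;> rw [h.1, h.2] <;>
    constructor <;> simp [Pc.winjAff, Pc.vtx, dirn, winjC] <;> ring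

theorem winj_vec_zero (j : ℤ) {a b : ℝ} (ha : 0 ≤ a) (hb : 0 ≤ b)
    (h : a • dirn (ix j) + b • dirn (ix (j - 1)) = 0) : a = 0 ∧ b = 0 := by
  have h1 := congrArg Prod.fst h
  have h2 := congrArg Prod.snd h
  rcases winj_ix_cases j with e | e | e | e | e | e | e | e | e | e <;>
    rw [e.1, e.2] at h1 h2 <;>
    simp only [dirn, Prod.fst_add, Prod.snd_add, Prod.smul_fst, Prod.smul_snd, smul_eq_mul,
      Prod.fst_zero, Prod.snd_zero] at h1 h2 <;>
    constructor <;> linarith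

theorem winj_aff_cmp {g g' : Pc} (hc : g.Cmp g') (i : ℕ) (P : ℝ × ℝ) :
    g'.winjAff i P + (g'.u - g.u) ≤ g.winjAff i P := by
  have h1 := hc.hX
  have h2 := hc.hY
  have h3 := hc.hK
  unfold Pc.winjAff
  split <;> linarith

theorem winj_aff_nonneg {ν A : ℝ} {g : Pc} (h0 : 0 < ν) (h1 : ν ≤ 1 / 100) (hg : g.Good A)
    (i : ℕ) (M : ℝ) : 0 ≤ g.winjAff i (g.pt ν M) := by
  obtain ⟨a, b, c, d, e⟩ := Pc.pt_mem h0 h1 hg M
  unfold Pc.winjAff
  split <;> linarith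

theorem winj_len_pos {A : ℝ} {g : Pc} (hg : g.Good A) (i : ℕ) : 0 < g.len i := by
  have := hg.lo i
  have := hg.pos
  linarith

theorem winj_dirn_abs (i : ℕ) : |(dirn i).1| ≤ 1 ∧ |(dirn i).2| ≤ 1 := by
  unfold dirn
  split <;> simp

theorem winj_step1 {ν A : ℝ} {g g' : Pc} (h0 : 0 < ν) (h1 : ν ≤ 1 / 100)
    (hg : g.Good A) (hg' : g'.Good A) (hc : g.Cmp g') {M M' : ℝ}
    (h : g.pt ν M = g'.pt ν M') : g'.u - g.u ≤ ν * A := by
  have key : ∀ (i : ℕ) (x : ℝ), x ≤ 0 → ∀ c : ℝ, (c = 0 ∨ c = 1) →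
      c * (ramp ν x * g.len i) ≤ ν * A := by
    intro i x hx c hc
    have r1 := ramp_le_of_le h0 (x := x) (by linarith)
    have r0 := ramp_nonneg h0 x
    have l0 := winj_len_pos hg i
    have l1 := hg.hi i
    have : ramp ν x * g.len i ≤ ν * A := mul_le_mul r1 l1 l0.le h0.le
    rcases hc with rfl | rfl
    · have : 0 ≤ ν * A := mul_nonneg h0.le (by linarith)
      linarith
    · linarith
  obtain ⟨e1, e2⟩ := winj_aff_vec g (round M) (ramp ν (M - round M) * g.len (ix (round M)))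
    (ramp ν (round M - M) * g.len (ix (round M - 1)))
  have hp : g.pt ν M = g.vtx (ix (round M)) +
      (ramp ν (M - round M) * g.len (ix (round M))) • dirn (ix (round M)) -
      (ramp ν (round M - M) * g.len (ix (round M - 1))) • dirn (ix (round M - 1)) := rfl
  rw [← hp] at e1 e2
  rcases le_total (M - round M) 0 with hx | hx
  · have a1 := winj_aff_cmp hc (ix (round M - 1)) (g.pt ν M)
    have a2 := winj_aff_nonneg h0 h1 hg' (ix (round M - 1)) M'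
    rw [← h] at a2
    have a3 := key (ix (round M)) _ hx _ (winjC_cases (ix (round M)))
    linarith
  · have a1 := winj_aff_cmp hc (ix (round M)) (g.pt ν M)
    have a2 := winj_aff_nonneg h0 h1 hg' (ix (round M)) M'
    rw [← h] at a2
    have a3 := key (ix (round M - 1)) (round M - M) (by linarith) _ (winjC_cases (ix (round M)))
    linarith

theorem winj_pl_cmp {g g' : Pc} (hc : g.Cmp g') (M : ℝ) :
    |(g.pl M).1 - (g'.pl M).1| ≤ 12 * (g'.u - g.u) ∧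
      |(g.pl M).2 - (g'.pl M).2| ≤ 12 * (g'.u - g.u) := by
  have f0 := Int.fract_nonneg M
  have f1 := (Int.fract_lt_one M).le
  obtain ⟨l0, l1⟩ := hc.len (ix ⌊M⌋)
  obtain ⟨v1, v2⟩ := hc.vtx (ix ⌊M⌋)
  obtain ⟨d1, d2⟩ := winj_dirn_abs (ix ⌊M⌋)
  have key : ∀ d : ℝ, |d| ≤ 1 →
      |Int.fract M * g.len (ix ⌊M⌋) * d - Int.fract M * g'.len (ix ⌊M⌋) * d| ≤
        6 * (g'.u - g.u) := by
    intro d hd
    have e : Int.fract M * g.len (ix ⌊M⌋) * d - Int.fract M * g'.len (ix ⌊M⌋) * d =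
        Int.fract M * (g.len (ix ⌊M⌋) - g'.len (ix ⌊M⌋)) * d := by ring
    have p0 : 0 ≤ g.len (ix ⌊M⌋) - g'.len (ix ⌊M⌋) := by linarith
    have p1 : Int.fract M * (g.len (ix ⌊M⌋) - g'.len (ix ⌊M⌋)) ≤
        g.len (ix ⌊M⌋) - g'.len (ix ⌊M⌋) := mul_le_of_le_one_left p0 f1
    rw [e, abs_mul, abs_of_nonneg (mul_nonneg f0 p0)]
    have p2 := mul_le_of_le_one_right (mul_nonneg f0 p0) hd
    linarith
  constructor
  · have k := key _ d1
    have e : (g.pl M).1 - (g'.pl M).1 = ((g.vtx (ix ⌊M⌋)).1 - (g'.vtx (ix ⌊M⌋)).1) +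
        (Int.fract M * g.len (ix ⌊M⌋) * (dirn (ix ⌊M⌋)).1 -
          Int.fract M * g'.len (ix ⌊M⌋) * (dirn (ix ⌊M⌋)).1) := by
      simp only [Pc.pl, Prod.fst_add, Prod.smul_fst, smul_eq_mul]
      ring
    rw [e]
    have := abs_add_le ((g.vtx (ix ⌊M⌋)).1 - (g'.vtx (ix ⌊M⌋)).1)
      (Int.fract M * g.len (ix ⌊M⌋) * (dirn (ix ⌊M⌋)).1 -
          Int.fract M * g'.len (ix ⌊M⌋) * (dirn (ix ⌊M⌋)).1)
    linarith
  · have k := key _ d2
    have e : (g.pl M).2 - (g'.pl M).2 = ((g.vtx (ix ⌊M⌋)).2 - (g'.vtx (ix ⌊M⌋)).2) +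
        (Int.fract M * g.len (ix ⌊M⌋) * (dirn (ix ⌊M⌋)).2 -
          Int.fract M * g'.len (ix ⌊M⌋) * (dirn (ix ⌊M⌋)).2) := by
      simp only [Pc.pl, Prod.snd_add, Prod.smul_snd, smul_eq_mul]
      ring
    rw [e]
    have := abs_add_le ((g.vtx (ix ⌊M⌋)).2 - (g'.vtx (ix ⌊M⌋)).2)
      (Int.fract M * g.len (ix ⌊M⌋) * (dirn (ix ⌊M⌋)).2 -
          Int.fract M * g'.len (ix ⌊M⌋) * (dirn (ix ⌊M⌋)).2)
    linarith

theorem winj_step2 {ν A : ℝ} {g g' : Pc} (h0 : 0 < ν) (h1 : ν ≤ 1 / 100)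
    (hA : 1000 * ν * A ≤ g.ε) (hg : g.Good A) (hg' : g'.Good A) (hc : g.Cmp g') {M M' : ℝ}
    (h : g.pt ν M = g'.pt ν M') : ∃ c : ℤ, |M' - M - 10 * c| < 1 / 2 := by
  have hd := winj_step1 h0 h1 hg hg' hc h
  obtain ⟨a1, a2⟩ := Pc.pt_sub_pl h0 h1 hg M
  obtain ⟨b1, b2⟩ := Pc.pt_sub_pl h0 h1 hg' M'
  obtain ⟨c1, c2⟩ := winj_pl_cmp hc M
  rw [← h] at b1 b2
  have he := hc.he
  have hp := hg.pos
  rw [abs_le] at a1 a2 b1 b2 c1 c2
  refine Pc.pl_sep hg' (M := M) (M' := M') ?_ ?_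
  · rw [abs_lt]
    constructor <;> linarith [a1.1, a1.2, b1.1, b1.2, c1.1, c1.2]
  · rw [abs_lt]
    constructor <;> linarith [a2.1, a2.2, b2.1, b2.2, c2.1, c2.2]

theorem winj_half {ν Δ l l' c x x' : ℝ} (h0 : 0 < ν) (h1 : ν ≤ 1 / 100) (hΔ : 0 < Δ)
    (hc : c = 0 ∨ c = 1) (hl' : 0 < l') (hl : l' ≤ l) (hl6 : l - l' ≤ 6 * Δ) (hx : x ≤ ν)
    (hxx : x ≤ x') (h : c * (ramp ν x' * l') + Δ ≤ c * (ramp ν x * l)) : False := by
  rcases hc with rfl | rfl
  · linarith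
  · have m := monotone_ramp ν hxx
    have r1 := ramp_le_of_le h0 hx
    have r0 := ramp_nonneg h0 x
    have p1 : ramp ν x * l' ≤ ramp ν x' * l' := mul_le_mul_of_nonneg_right m hl'.le
    have p2 : ramp ν x * (l - l') ≤ ν * (6 * Δ) := mul_le_mul r1 hl6 (by linarith) h0.le
    have p3 : ν * (6 * Δ) ≤ 1 / 100 * (6 * Δ) := mul_le_mul_of_nonneg_right h1 (by linarith)
    nlinarith

theorem winj_lt_of_pos {ν Δ l l' c x x' : ℝ} (h0 : 0 < ν) (hΔ : 0 < Δ)
    (hc : c = 0 ∨ c = 1) (hl' : 0 < l')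
    (h : c * (ramp ν x' * l') + Δ ≤ c * (ramp ν x * l)) : -ν < x := by
  by_contra hx
  rw [ramp_of_le h0 (not_lt.mp hx)] at h
  have := mul_nonneg (ramp_nonneg h0 x') hl'.le
  rcases hc with rfl | rfl <;> linarith

theorem winj_step3 {ν A : ℝ} {g g' : Pc} (h0 : 0 < ν) (h1 : ν ≤ 1 / 100)
    (hg : g.Good A) (hg' : g'.Good A) (hc : g.Cmp g') (j : ℤ) {M M' : ℝ}
    (h : g.loc ν j M = g'.loc ν j M') : g.u = g'.u ∧ M' = M := by
  obtain ⟨e1, e2⟩ := winj_aff_vec g j (ramp ν (M - j) * g.len (ix j))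
    (ramp ν (j - M) * g.len (ix (j - 1)))
  obtain ⟨f1, f2⟩ := winj_aff_vec g' j (ramp ν (M' - j) * g'.len (ix j))
    (ramp ν (j - M') * g'.len (ix (j - 1)))
  have hp : g.loc ν j M = g.vtx (ix j) + (ramp ν (M - j) * g.len (ix j)) • dirn (ix j) -
      (ramp ν (j - M) * g.len (ix (j - 1))) • dirn (ix (j - 1)) := rfl
  have hp' : g'.loc ν j M' = g'.vtx (ix j) + (ramp ν (M' - j) * g'.len (ix j)) • dirn (ix j) -
      (ramp ν (j - M') * g'.len (ix (j - 1))) • dirn (ix (j - 1)) := rfl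
  rw [← hp] at e1 e2
  rw [← hp', ← h] at f1 f2
  have a1 := winj_aff_cmp hc (ix j) (g.loc ν j M)
  have a2 := winj_aff_cmp hc (ix (j - 1)) (g.loc ν j M)
  rw [e1, f1] at a1
  rw [e2, f2] at a2
  have cc := winjC_cases (ix j)
  have hu : g.u = g'.u := by
    refine le_antisymm hc.hu (not_lt.mp fun hlt => ?_)
    have hΔ : 0 < g'.u - g.u := by linarith
    have x1 := winj_lt_of_pos h0 hΔ cc (winj_len_pos hg' _) a1
    have x2 := winj_lt_of_pos h0 hΔ cc (winj_len_pos hg' _) a2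
    rcases le_total M M' with hM | hM
    · exact winj_half h0 h1 hΔ cc (winj_len_pos hg' _) (hc.len _).1 (hc.len _).2
        (by linarith) (by linarith) a2
    · exact winj_half h0 h1 hΔ cc (winj_len_pos hg' _) (hc.len _).1 (hc.len _).2
        (by linarith) (by linarith) a1
  refine ⟨hu, ?_⟩
  have hl : ∀ i, g'.len i = g.len i := fun i => by
    have := hc.len i
    rw [hu] at this
    linarith [this.1, this.2]
  have hv : g'.vtx (ix j) = g.vtx (ix j) := by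
    obtain ⟨v1, v2⟩ := hc.vtx (ix j)
    rw [hu, sub_self, mul_zero, abs_nonpos_iff, sub_eq_zero] at v1 v2
    exact Prod.ext v1.symm v2.symm
  rw [hp, hp', hv, hl, hl] at h
  have main : ∀ x y : ℝ, x ≤ y →
      g.vtx (ix j) + (ramp ν (x - j) * g.len (ix j)) • dirn (ix j) -
        (ramp ν (j - x) * g.len (ix (j - 1))) • dirn (ix (j - 1)) =
      g.vtx (ix j) + (ramp ν (y - j) * g.len (ix j)) • dirn (ix j) -
        (ramp ν (j - y) * g.len (ix (j - 1))) • dirn (ix (j - 1)) → y = x := by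
    intro x y hxy e
    have m1 := monotone_ramp ν (show x - j ≤ y - j by linarith)
    have m2 := monotone_ramp ν (show j - y ≤ j - x by linarith)
    have l1 := winj_len_pos hg (ix j)
    have l2 := winj_len_pos hg (ix (j - 1))
    have z := winj_vec_zero j
      (a := (ramp ν (y - j) - ramp ν (x - j)) * g.len (ix j))
      (b := (ramp ν (j - x) - ramp ν (j - y)) * g.len (ix (j - 1)))
      (mul_nonneg (by linarith) l1.le) (mul_nonneg (by linarith) l2.le) (by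
        rw [sub_mul, sub_mul, sub_smul, sub_smul]
        linear_combination (exp := 1) -e)
    have z1 := (mul_eq_zero.mp z.1).resolve_right l1.ne'
    have z2 := (mul_eq_zero.mp z.2).resolve_right l2.ne'
    have s1 := ramp_sub h0 (x - j)
    have s2 := ramp_sub h0 (y - j)
    rw [neg_sub] at s1 s2
    linarith
  rcases le_total M M' with hM | hM
  · exact main M M' hM h
  · exact (main M' M hM h.symm).symm

theorem Pc.pt_inj {ν A : ℝ} {g g' : Pc} (h0 : 0 < ν) (h1 : ν ≤ 1 / 100)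
    (hA : 1000 * ν * A ≤ g.ε) (hg : g.Good A) (hg' : g'.Good A) (hc : g.Cmp g') {M M' : ℝ}
    (h : g.pt ν M = g'.pt ν M') : g.u = g'.u ∧ ∃ c : ℤ, M' = M + 10 * c := by
  obtain ⟨c, hcc⟩ := winj_step2 h0 h1 hA hg hg' hc h
  have e : g'.pt ν M' = g'.pt ν (M' - 10 * c) := by
    have := Pc.pt_add (ν := ν) g' (M' - 10 * c) c
    rw [sub_add_cancel] at this
    exact this
  rw [abs_lt] at hcc
  have r := abs_sub_round ((M + (M' - 10 * c)) / 2)
  rw [abs_le] at r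
  rw [e, Pc.pt_eq_loc h0 h1 g (round ((M + (M' - 10 * c)) / 2))
      (by rw [abs_le]; constructor <;> linarith [r.1, r.2, hcc.1, hcc.2]),
    Pc.pt_eq_loc h0 h1 g' (round ((M + (M' - 10 * c)) / 2))
      (by rw [abs_le]; constructor <;> linarith [r.1, r.2, hcc.1, hcc.2])] at h
  obtain ⟨hu, hM⟩ := winj_step3 h0 h1 hg hg' hc _ h
  exact ⟨hu, c, by linarith⟩

end Vale.Agent.P209
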