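import Vale.Agent.P209.WRect
import Vale.Agent.P209.Cyl

/-! The window theorem for continuous data. Plan: `K` compact, `C` its projection to the
parameters, `δ₀` a margin (`u + δ₀ < w`, `x + δ₀ < lc + ellW` on `K`), bounds for `h, H` on `C`.
For small `e` choose smooth `h' ∈ (h - 4e, h - 3e)`, `w' ∈ (w - 4e, w - 3e)`,
`H' ∈ (H - 2e, H - e)`, `K' ∈ (K - 2e, K - e)` on an open `O' ⊇ C` (`exists_approx`), shrink
`O'` so that `w' ≥ 20 e`, `h' + H' ≤ A`; `ε = e`, `κ₀` small (`(u + e)/(1 - 2κ₀) ≤ u + 2e`),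
`ν = min (1/100) (min (κ₀/6) (e/(1000 A)))`. Then `isWin_rect`, `cyl`, `W_integral` and the
Lipschitz estimate `ellW_sub_le` show that `K` lies in the source of `cyl`; the polygons of the
primed data lie in those of the original data. -/

open scoped ContDiff Topology
open Set MeasureTheory

namespace Vale.Agent.P209

theorem wmain_min {a b a' b' c : ℝ} (h1 : a - a' ≤ c) (h2 : b - b' ≤ c) :
    min a b - min a' b' ≤ c := by
  rcases le_total a' b' with h | h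
  · rw [min_eq_left h]; linarith [min_le_left a b]
  · rw [min_eq_right h]; linarith [min_le_right a b]

theorem wmain_approx {κ : Type} [Fintype κ] [DecidableEq κ] {C O : Set (κ → ℝ)} (hC : IsCompact C)
    (hO : IsOpen O) (hCO : C ⊆ O) {f : (κ → ℝ) → ℝ} (hf : ContinuousOn f O) (a : ℝ) {e : ℝ}
    (he : 0 < e) :
    ∃ (g : (κ → ℝ) → ℝ) (O' : Set (κ → ℝ)), ContDiff ℝ ∞ g ∧ IsOpen O' ∧ C ⊆ O' ∧ O' ⊆ O ∧
      ∀ t ∈ O', f t - a - e < g t ∧ g t < f t - a := by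
  obtain ⟨g, O', hg, h1, h2, h3, h4⟩ := exists_approx hC hO hCO (f := fun t => f t - a - e / 2)
    ((hf.sub continuousOn_const).sub continuousOn_const) (half_pos he)
  refine ⟨g, O', hg, h1, h2, h3, fun t ht => ?_⟩
  have h5 := abs_lt.1 (h4 t ht)
  constructor <;> linarith [h5.1, h5.2]

theorem wmain_ellW_cont {X : Type*} [TopologicalSpace X] {S : Set X} (lam : ℕ)
    {h w H K u : X → ℝ} (hh : ContinuousOn h S) (hw : ContinuousOn w S) (hH : ContinuousOn H S)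
    (hK : ContinuousOn K S) (hu : ContinuousOn u S) :
    ContinuousOn (fun x => ellW lam (h x) (w x) (H x) (K x) (u x)) S := by
  unfold ellW
  have c2 : ContinuousOn (fun x => 2 * u x) S := continuousOn_const.mul hu
  refine ContinuousOn.sub (ContinuousOn.add (ContinuousOn.add (ContinuousOn.add ?_ ?_) ?_) ?_)
    (continuousOn_const.mul hu)
  · exact continuousOn_const.mul (((continuousOn_const.mul hh).add
      (continuousOn_const.mul hw)).sub (continuousOn_const.mul hu))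
  · exact (hh.sub hu).inf (hK.sub c2)
  · exact (hH.sub hu).inf (hK.sub c2)
  · exact (hK.sub hu).inf ((hh.add hH).sub c2)

theorem ellW_sub_le {lam : ℕ} (hl : 1 ≤ lam) {h w H K u h' w' H' K' u' c : ℝ}
    (h1 : |h - h'| ≤ c) (h2 : |w - w'| ≤ c) (h3 : |H - H'| ≤ c) (h4 : |K - K'| ≤ c)
    (h5 : |u - u'| ≤ c) : ellW lam h w H K u - ellW lam h' w' H' K' u' ≤ 14 * lam * c := by
  have a1 := abs_le.1 h1
  have a2 := abs_le.1 h2
  have a3 := abs_le.1 h3
  have a4 := abs_le.1 h4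
  have a5 := abs_le.1 h5
  have hl' : (0 : ℝ) ≤ (lam : ℝ) - 1 := by
    have : (1 : ℝ) ≤ lam := by exact_mod_cast hl
    linarith
  have b1 : min (h - u) (K - 2 * u) - min (h' - u') (K' - 2 * u') ≤ 3 * c :=
    wmain_min (by linarith [a1.2, a5.1]) (by linarith [a4.2, a5.1])
  have b2 : min (H - u) (K - 2 * u) - min (H' - u') (K' - 2 * u') ≤ 3 * c :=
    wmain_min (by linarith [a3.2, a5.1]) (by linarith [a4.2, a5.1])
  have b3 : min (K - u) (h + H - 2 * u) - min (K' - u') (h' + H' - 2 * u') ≤ 4 * c :=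
    wmain_min (by linarith [a4.2, a5.1]) (by linarith [a1.2, a3.2, a5.1])
  have b4 : (2 * h + 4 * w - 8 * u) - (2 * h' + 4 * w' - 8 * u') ≤ 14 * c := by
    linarith [a1.2, a2.2, a5.1]
  have b5 := mul_le_mul_of_nonneg_left b4 hl'
  unfold ellW
  linarith [a5.1]

theorem window {κ : Type} [Fintype κ] [DecidableEq κ] {lam : ℕ} (hl : 1 ≤ lam)
    {O : Set (κ → ℝ)} (hO : IsOpen O) {h w H K : (κ → ℝ) → ℝ} (hh : ContinuousOn h O)
    (hw : ContinuousOn w O) (hH : ContinuousOn H O) (hK : ContinuousOn K O)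
    (hi : ∀ t ∈ O, 2 * w t ≤ h t ∧ 2 * w t ≤ H t ∧ 3 * w t ≤ K t ∧ h t ≤ K t)
    {lc : (Option κ → ℝ) → ℝ} (hlc : Continuous lc) :
    TEmb {y : Option (Option κ) → ℝ | tt y ∈ O ∧ 0 < y (some none) ∧ y (some none) < w (tt y) ∧
      lc (bb y) < y none ∧ y none < lc (bb y) +
        ellW lam (h (tt y)) (w (tt y)) (H (tt y)) (K (tt y)) (y (some none))}
      (polyV lam h w H K O) := by
  intro S hS hSU
  have hl' : (1 : ℝ) ≤ lam := by exact_mod_cast hl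
  have ct : Continuous fun z : Ph (Option (Option κ)) => tt z.1 := by unfold tt; fun_prop
  have cb : Continuous fun z : Ph (Option (Option κ)) => bb z.1 := by unfold bb; fun_prop
  have cx : Continuous fun z : Ph (Option (Option κ)) => z.1 none := by fun_prop
  have cu : Continuous fun z : Ph (Option (Option κ)) => z.1 (some none) := by fun_prop
  have hm : MapsTo (fun z : Ph (Option (Option κ)) => tt z.1) S O := fun z hz => (hSU hz).1
  have c1 := hh.comp ct.continuousOn hm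
  have c2 := hw.comp ct.continuousOn hm
  have c3 := hH.comp ct.continuousOn hm
  have c4 := hK.comp ct.continuousOn hm
  have c5 := wmain_ellW_cont lam c1 c2 c3 c4 cu.continuousOn
  obtain ⟨δ, hδ, hδ'⟩ := hS.exists_forall_le' (a := 0)
    (f := fun z => min (w (tt z.1) - z.1 (some none)) (lc (bb z.1) +
      ellW lam (h (tt z.1)) (w (tt z.1)) (H (tt z.1)) (K (tt z.1)) (z.1 (some none)) - z.1 none))
    ((c2.sub cu.continuousOn).inf (((hlc.comp cb).continuousOn.add c5).sub cx.continuousOn))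
    fun z hz => lt_min (sub_pos.2 (hSU hz).2.2.1) (sub_pos.2 (hSU hz).2.2.2.2)
  obtain ⟨B, hB⟩ := (hS.image_of_continuousOn (c1.add c3)).bddAbove
  obtain ⟨A, hA1, hAB⟩ : ∃ A : ℝ, 1 ≤ A ∧ B < A :=
    ⟨max B 0 + 1, by linarith [le_max_right B 0], by linarith [le_max_left B 0]⟩
  obtain ⟨e, he, he1, heδ⟩ : ∃ e : ℝ, 0 < e ∧ e ≤ 1 ∧ 100 * lam * e ≤ δ := by
    refine ⟨min 1 (δ / (100 * lam)), lt_min one_pos (by positivity), min_le_left _ _, ?_⟩
    have h1 : min 1 (δ / (100 * lam)) ≤ δ / (100 * lam) := min_le_right _ _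
    rw [le_div_iff₀ (by positivity)] at h1
    linarith
  have heδ' : 100 * e ≤ δ := by nlinarith
  have hC := hS.image ct
  have hCO := hm.image_subset
  obtain ⟨h', O₁, sh, o1, p1, q1, r1⟩ := wmain_approx hC hO hCO hh (3 * e) he
  obtain ⟨w', O₂, sw, o2, p2, -, r2⟩ := wmain_approx hC hO hCO hw (3 * e) he
  obtain ⟨H', O₃, sH, o3, p3, -, r3⟩ := wmain_approx hC hO hCO hH e he
  obtain ⟨K', O₄, sK, o4, p4, -, r4⟩ := wmain_approx hC hO hCO hK e he
  have o5 : IsOpen (O ∩ w ⁻¹' Ioi δ) := hw.isOpen_inter_preimage hO isOpen_Ioi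
  have o6 : IsOpen (O ∩ (fun t => h t + H t) ⁻¹' Iio A) :=
    (hh.add hH).isOpen_inter_preimage hO isOpen_Iio
  obtain ⟨O', hO', hCO', hO'O, hO'p⟩ : ∃ O' : Set (κ → ℝ), IsOpen O' ∧
      (∀ z ∈ S, tt z.1 ∈ O') ∧ O' ⊆ O ∧ ∀ t ∈ O', (h t - 3 * e - e < h' t ∧ h' t < h t - 3 * e) ∧
        (w t - 3 * e - e < w' t ∧ w' t < w t - 3 * e) ∧ (H t - e - e < H' t ∧ H' t < H t - e) ∧
        (K t - e - e < K' t ∧ K' t < K t - e) ∧ δ < w t ∧ h t + H t < A := by
    refine ⟨O₁ ∩ O₂ ∩ O₃ ∩ O₄ ∩ (O ∩ w ⁻¹' Ioi δ) ∩ (O ∩ (fun t => h t + H t) ⁻¹' Iio A),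
      ((((o1.inter o2).inter o3).inter o4).inter o5).inter o6, fun z hz => ?_,
      fun t ht => ht.2.1, fun t ht => ⟨r1 t ht.1.1.1.1.1, r2 t ht.1.1.1.1.2, r3 t ht.1.1.1.2,
        r4 t ht.1.1.2, ht.1.2.2, ht.2.2⟩⟩
    have m : tt z.1 ∈ (fun z : Ph (Option (Option κ)) => tt z.1) '' S := ⟨z, hz, rfl⟩
    refine ⟨⟨⟨⟨⟨p1 m, p2 m⟩, p3 m⟩, p4 m⟩, hm hz, ?_⟩, hm hz, ?_⟩
    · have h1 := (le_min_iff.1 (hδ' z hz)).1
      have h2 : 0 < z.1 (some none) := (hSU hz).2.1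
      show δ < w (tt z.1)
      linarith
    · have h1 : h (tt z.1) + H (tt z.1) ≤ B := hB ⟨z, hz, rfl⟩
      show h (tt z.1) + H (tt z.1) < A
      linarith
  obtain ⟨κ₀, hκ, hκ4, hκe⟩ : ∃ κ₀ : ℝ, 0 < κ₀ ∧ κ₀ ≤ 1 / 4 ∧ 2 * κ₀ * (A + 2) ≤ e := by
    refine ⟨e / (2 * (A + 2)), by positivity, ?_, le_of_eq (by field_simp)⟩
    rw [div_le_iff₀ (by positivity)]
    linarith
  obtain ⟨ν, hν, hν1, hν2, hν3⟩ : ∃ ν : ℝ, 0 < ν ∧ ν ≤ 1 / 100 ∧ 1000 * ν * A ≤ e ∧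
      6 * ν ≤ κ₀ := by
    refine ⟨min (1 / 100) (min (κ₀ / 6) (e / (1000 * A))),
      lt_min (by norm_num) (lt_min (by positivity) (by positivity)), min_le_left _ _, ?_, ?_⟩
    · have h1 : min (1 / 100) (min (κ₀ / 6) (e / (1000 * A))) ≤ e / (1000 * A) :=
        (min_le_right _ _).trans (min_le_right _ _)
      rw [le_div_iff₀ (by positivity)] at h1
      linarith
    · have h1 : min (1 / 100) (min (κ₀ / 6) (e / (1000 * A))) ≤ κ₀ / 6 :=
        (min_le_right _ _).trans (min_le_left _ _)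
      linarith
  have hD : (⟨lam, e, ν, h', w', H', K'⟩ : WData κ).Ok O' A κ₀ := by
    refine ⟨hl, hO', sh, sw, sH, sK, fun t ht => ?_, he, hν, hν1, hν2, hκ, hκ4, hν3⟩
    obtain ⟨⟨a1, a2⟩, ⟨a3, a4⟩, ⟨a5, a6⟩, ⟨a7, a8⟩, a9, a10⟩ := hO'p t ht
    obtain ⟨b1, b2, b3, b4⟩ := hi t (hO'O ht)
    refine ⟨he, ?_, ?_, ?_, ?_, ?_, ?_⟩ <;> dsimp only <;> linarith
  obtain ⟨E, hE⟩ := isWin_rect hD he
  have hV : polyV lam h' w' H' K' O' ⊆ polyV lam h w H K O := by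
    rintro y ⟨a0, b1, b2, b3, b4, b5⟩
    obtain ⟨⟨a1, a2⟩, ⟨a3, a4⟩, ⟨a5, a6⟩, ⟨a7, a8⟩, a9, a10⟩ := hO'p _ a0
    have m : 2 * ((lam : ℝ) - 1) * w' (tt y) ≤ 2 * ((lam : ℝ) - 1) * w (tt y) :=
      mul_le_mul_of_nonneg_left (by linarith) (by linarith)
    exact ⟨hO'O a0, b1, by linarith, b3, by linarith, by linarith⟩
  refine ((cyl hE (lc := lc) hlc.continuousOn).mono Subset.rfl hV) S hS fun z hz => ?_
  obtain ⟨⟨a1, a2⟩, ⟨a3, a4⟩, ⟨a5, a6⟩, ⟨a7, a8⟩, a9, a10⟩ := hO'p _ (hCO' z hz)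
  obtain ⟨b1, b2, b3, b4⟩ := hi _ (hm hz)
  obtain ⟨d1, d2⟩ := le_min_iff.1 (hδ' z hz)
  obtain ⟨-, u0, -, x0, -⟩ := hSU hz
  have hk : 0 < 1 - 2 * κ₀ := by linarith
  obtain ⟨u', hu'⟩ : ∃ u', u' = (z.1 (some none) + e) / (1 - 2 * κ₀) := ⟨_, rfl⟩
  have uA : z.1 (some none) ≤ A := by linarith
  have u1 : z.1 (some none) ≤ u' := by
    rw [hu', le_div_iff₀ hk]
    nlinarith
  have u2 : u' ≤ z.1 (some none) + 2 * e := by
    rw [hu', div_le_iff₀ hk]
    nlinarith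
  have u3 : u' < w' (tt z.1) - 10 * e := by linarith
  have ebb : bb (Function.update (bb z.1) none u') = tt z.1 := by
    funext r
    simp [bb, tt]
  have hZ : Function.update (bb z.1) none u' ∈
      (⟨lam, e, ν, h', w', H', K'⟩ : WData κ).Z O' := by
    refine ⟨by rw [ebb]; exact hCO' z hz, ?_, ?_⟩
    · rw [Function.update_self]; linarith
    · rw [Function.update_self, ebb]; exact u3
  have hI := W_integral hD hZ (7 + ν)
  rw [ebb, Function.update_self] at hI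
  have hL := ellW_sub_le hl (h := h (tt z.1)) (w := w (tt z.1)) (H := H (tt z.1))
    (K := K (tt z.1)) (u := z.1 (some none)) (h' := h' (tt z.1)) (w' := w' (tt z.1))
    (H' := H' (tt z.1)) (K' := K' (tt z.1)) (u' := u') (c := 4 * e)
    (abs_le.2 ⟨by linarith, by linarith⟩) (abs_le.2 ⟨by linarith, by linarith⟩)
    (abs_le.2 ⟨by linarith, by linarith⟩) (abs_le.2 ⟨by linarith, by linarith⟩)
    (abs_le.2 ⟨by linarith, by linarith⟩)
  refine ⟨⟨hCO' z hz, u0, ?_⟩, x0, ?_⟩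
  · show (z.1 (some none) + e) / (1 - 2 * κ₀) < w' (tt z.1) - 10 * e
    rw [← hu']; exact u3
  · show z.1 none < lc (bb z.1) + ∫ M in (7 + ν)..(7 + ν) + 10 * (lam : ℝ),
      (⟨lam, e, ν, h', w', H', K'⟩ : WData κ).W M
        (Function.update (bb z.1) none ((z.1 (some none) + e) / (1 - 2 * κ₀)))
    rw [← hu']
    have hp : 0 < (lam : ℝ) * e := by positivity
    dsimp only at hI
    linarith

end Vale.Agent.P209
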