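import Vale.Agent.P209.WForm

/-! Auxiliary lemmas for `WRefl`. -/

open scoped ContDiff Topology
open Set MeasureTheory

namespace Vale.Agent.P209

variable {κ : Type} [Fintype κ] [DecidableEq κ] {D : WData κ} {O : Set (κ → ℝ)} {A κ₀ : ℝ}
  {G : ℕ → Ph (Option (Option κ)) → Ph (Option (Option κ))}

omit [Fintype κ] [DecidableEq κ] in
theorem refl_tt_Yp (D : WData κ) (p : ℕ) (y : Option (Option κ) → ℝ) : tt (D.Yp p y) = tt y := rfl

/-- the conclusion of `E_refl`. -/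
def ReflC (D : WData κ) (z z' : Ph (Option (Option κ))) : Prop :=
  bb z.1 = bb z'.1 ∧ (∀ r, ∃ m : ℤ, z'.2 (some r) = z.2 (some r) + m) ∧
    ∃ k j : ℤ, z'.1 none = z.1 none + k * (10 * D.lam) ∧
      z'.2 none = z.2 none + j * D.W (z.1 none) (bb z.1)

omit [Fintype κ] [DecidableEq κ] in
theorem refl_W_add (D : WData κ) (M : ℝ) (b : Option κ → ℝ) (k : ℤ) :
    D.W (M + k * (10 * D.lam)) b = D.W M b := by
  have h2 := Pc.wid_add (ν := D.ν) (D.geo (D.pc M) (b none) (bb b)) M (k * D.lam)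
  rw [show M + 10 * ((k * D.lam : ℤ) : ℝ) = M + k * (10 * D.lam) by push_cast; ring] at h2
  rw [WData.W, D.pc_add, h2, WData.W]

omit [Fintype κ] [DecidableEq κ] in
theorem ReflC.symm {z z' : Ph (Option (Option κ))} (h : ReflC D z z') : ReflC D z' z := by
  obtain ⟨h1, h2, k, j, h3, h4⟩ := h
  refine ⟨h1.symm, fun r => ?_, -k, -j, by push_cast; linarith, ?_⟩
  · obtain ⟨m, hm⟩ := h2 r
    exact ⟨-m, by push_cast; linarith⟩
  · rw [h3, ← h1, refl_W_add, h4]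
    push_cast
    ring

theorem refl_dvd {lam : ℕ} (h : 1 ≤ lam) {a M : ℝ} {c : ℤ}
    (e : (⌊(M + a) / 10⌋ % (lam : ℤ)).toNat = (⌊(M + 10 * c + a) / 10⌋ % (lam : ℤ)).toNat) :
    ∃ k : ℤ, (10 * c : ℝ) = k * (10 * lam) := by
  rw [show (M + 10 * c + a) / 10 = (M + a) / 10 + c by ring, Int.floor_add_intCast] at e
  have h1 := Int.emod_nonneg ⌊(M + a) / 10⌋ (show (lam : ℤ) ≠ 0 by omega)
  have h2 := Int.emod_nonneg (⌊(M + a) / 10⌋ + c) (show (lam : ℤ) ≠ 0 by omega)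
  have h3 : ⌊(M + a) / 10⌋ % (lam : ℤ) = (⌊(M + a) / 10⌋ + c) % (lam : ℤ) := by omega
  obtain ⟨k, hk⟩ := Int.ModEq.dvd h3
  refine ⟨k, ?_⟩
  have h4 : c = k * lam := by linarith
  rw [h4]
  push_cast
  ring

omit [Fintype κ] in
theorem refl_tt_upd (y : Option (Option κ) → ℝ) (a : ℝ) :
    tt (Function.update y none a) = tt y := by
  funext r
  simp [tt]

theorem refl_Tr_none (a : ℝ) (ζ : Ph (Option (Option κ))) :
    (Tr none (fun y => a * D.w (tt y)) ζ).1 none = ζ.1 none + a * D.w (tt ζ.1) ∧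
      tt (Tr none (fun y => a * D.w (tt y)) ζ).1 = tt ζ.1 ∧
      (Tr none (fun y => a * D.w (tt y)) ζ).2 none = ζ.2 none ∧
      (Tr none (fun y => a * D.w (tt y)) ζ).2 (some none) = ζ.2 (some none) := by
  refine ⟨by simp [Tr], refl_tt_upd _ _, ?_, ?_⟩
  · simp only [Tr]
    rw [fderiv_single_eq_zero none (fun y t => by rw [refl_tt_upd]), mul_zero, sub_zero]
  · simp only [Tr]
    rw [fderiv_single_eq_zero (some none) (fun y t => by
      rw [show tt (Function.update y (some none) t) = tt y from funext fun r => by simp [tt]]),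
      mul_zero, sub_zero]

theorem refl_Tr_base {a : ℝ} {ζ ζ' : Ph (Option (Option κ))}
    (h : (Tr none (fun y => a * D.w (tt y)) ζ).1 = (Tr none (fun y => a * D.w (tt y)) ζ').1) :
    ζ.1 = ζ'.1 := by
  have h1 := congrArg tt h
  rw [(refl_Tr_none a ζ).2.1, (refl_Tr_none a ζ').2.1] at h1
  funext i
  cases i with
  | none =>
    have h2 := congrFun h none
    rw [(refl_Tr_none a ζ).1, (refl_Tr_none a ζ').1, h1] at h2
    linarith
  | some r => simpa [Tr] using congrFun h (some r)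

omit [Fintype κ] [DecidableEq κ] in
theorem refl_pc'_lt (D : WData κ) (h : 1 ≤ D.lam) (M : ℝ) : D.pc' M < D.lam := by
  have h1 := Int.emod_lt_of_pos ⌊(M + 1 / 4) / 10⌋ (show (0 : ℤ) < D.lam by omega)
  have h2 := Int.emod_nonneg ⌊(M + 1 / 4) / 10⌋ (show (D.lam : ℤ) ≠ 0 by omega)
  unfold WData.pc'
  omega

omit [DecidableEq κ] in
theorem refl_W_pc' (hD : D.Ok O A κ₀) (y : Option (Option κ) → ℝ) :
    D.W (y none) (bb y) = (D.geo (D.pc' (y none)) (y (some none)) (tt y)).wid D.ν (y none) := by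
  obtain ⟨a1, a2⟩ := Int.floor_eq_iff.1 (rfl : ⌊(y none + 1 / 4) / 10⌋ = _)
  exact wid_eq hD ⌊(y none + 1 / 4) / 10⌋ (by linarith) (by linarith) (bb y)

omit [DecidableEq κ] in
theorem refl_pc'_strip (hD : D.Ok O A κ₀) {M : ℝ} (hM : M ∈ Ioo (7 + D.ν) (8 - D.ν)) :
    D.pc' M = 0 := by
  have e : ⌊(M + 1 / 4) / 10⌋ = 0 := Int.floor_eq_iff.2
    ⟨by push_cast; linarith [hM.1, hD.ν_pos], by push_cast; linarith [hM.2, hD.ν_pos]⟩
  rw [WData.pc', e]
  simp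

omit [DecidableEq κ] in
theorem refl_height (hD : D.Ok O A κ₀) (p : ℕ) {y : Option (Option κ) → ℝ}
    (hy : bb y ∈ D.Z O) : 0 < D.Yp p y none ∧ (p + 1 < D.lam → D.Yp p y none < 2 * D.w (tt y)) := by
  have g1 : (D.geo p (y (some none)) (tt y)).Good A := good_geo hD p hy
  obtain ⟨-, -, h1, h2, -⟩ := Pc.pt_mem hD.ν_pos hD.ν_le g1 (y none)
  have hu : 0 < y (some none) := hy.2.1
  rw [(wid_geo D p _ _).2.2] at h1
  refine ⟨lt_of_lt_of_le hu h1, fun hp => lt_of_le_of_lt h2 ?_⟩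
  rw [WData.geo, if_pos hp]
  simp only [geoA]
  linarith

/-- normal form of the second case of `E_cases`. -/
theorem refl_second (hD : D.Ok O A κ₀) {z : Ph (Option (Option κ))}
    (hz : z ∈ angS κ κ₀ ∩ WDom (D.Z O) D.W (7 + D.ν) (8 - D.ν)) {e : Ph (Option (Option κ))}
    (h : ((∃ c : ℤ, z.1 none - 10 * c ∈ Icc (37 / 4 : ℝ) (39 / 4)) ∧
          e = G (2 * D.pc (z.1 none)) (liftF (D.Yp (D.pc (z.1 none))) (fun _ => 0) z)) ∨
        ((∃ c : ℤ, z.1 none - 10 * c ∈ Icc (17 / 4 : ℝ) (19 / 4)) ∧ D.pc (z.1 none) + 1 < D.lam ∧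
          e = G (2 * D.pc (z.1 none) + 1) (Tr none (fun y => -D.w (tt y))
            (liftF (D.Yp (D.pc (z.1 none))) (fun _ => 0) z)))) :
    ∃ (i : ℕ) (ξ : Ph (Option (Option κ))), i ≤ 1 ∧ 2 * D.pc (z.1 none) + i < 2 * D.lam - 1 ∧
      ξ = Tr none (fun y => (-(i : ℝ)) * D.w (tt y))
        (liftF (D.Yp (D.pc (z.1 none))) (fun _ => 0) z) ∧
      e = G (2 * D.pc (z.1 none) + i) ξ ∧ 0 < ξ.1 none ∧ ξ.1 none < D.w (tt ξ.1) ∧
      ((-(i : ℤ) : ℤ) : ℝ) + κ₀ < ξ.2 none ∧ ξ.2 none < ((-(i : ℤ) : ℤ) : ℝ) + 1 - κ₀ ∧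
      tt ξ.1 = tt z.1 ∧ 0 < z.2 none ∧ z.2 none < D.W (z.1 none) (bb z.1) := by
  have u1 : 0 < z.1 (some none) := hz.2.1.2.1
  have u2 : z.1 (some none) < D.w (tt z.1) - 10 * D.ε := hz.2.1.2.2
  have hε := hD.ε_pos
  have hν := hD.ν_pos
  have l1 := D.pc_lt hD.lam_pos (z.1 none)
  have s1 : κ₀ < z.2 (some none) := hz.1.1
  have s2 : z.2 (some none) < 1 - κ₀ := hz.1.2
  rcases h with ⟨⟨c, hc⟩, he⟩ | ⟨⟨c, hc⟩, hp, he⟩
  · obtain ⟨a1, a2⟩ := lift_low hD (D.pc (z.1 none)) c hc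
    obtain ⟨b1, b2, b3, -⟩ := refl_Tr_none (D := D) (-((0 : ℕ) : ℝ))
      (liftF (D.Yp (D.pc (z.1 none))) (fun _ => 0) z)
    have b4 : tt (liftF (D.Yp (D.pc (z.1 none))) (fun _ => 0) z).1 = tt z.1 := rfl
    refine ⟨0, _, by omega, by omega, rfl, by rw [he]; simp [Tr], ?_, ?_, ?_, ?_, b2.trans b4,
      hz.2.2.resolve_right fun hM => ?_⟩
    · rw [b1, a1]; simpa using u1
    · rw [b1, a1, b2, b4]; simp; linarith
    · rw [b3, a2]; simpa using s1
    · rw [b3, a2]; simpa using s2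
    · have c1 : (-1 : ℝ) < c := by linarith [hM.1, hc.2]
      have c2 : (c : ℝ) < 0 := by linarith [hM.2, hc.1]
      have c3 : (-1 : ℤ) < c := by exact_mod_cast c1
      have c4 : c < 0 := by exact_mod_cast c2
      omega
  · obtain ⟨a1, a2⟩ := lift_up hD hp c hc
    obtain ⟨b1, b2, b3, -⟩ := refl_Tr_none (D := D) (-((1 : ℕ) : ℝ))
      (liftF (D.Yp (D.pc (z.1 none))) (fun _ => 0) z)
    have b4 : tt (liftF (D.Yp (D.pc (z.1 none))) (fun _ => 0) z).1 = tt z.1 := rfl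
    refine ⟨1, _, by omega, by omega, rfl, by rw [he]; simp, ?_, ?_, ?_, ?_, b2.trans b4,
      hz.2.2.resolve_right fun hM => ?_⟩
    · rw [b1, a1, b4]; push_cast; linarith
    · rw [b1, a1, b2, b4]; push_cast; linarith
    · rw [b3, a2]; push_cast; linarith
    · rw [b3, a2]; push_cast; linarith
    · have c1 : (0 : ℝ) < c := by linarith [hM.1, hc.2]
      have c2 : (c : ℝ) < 1 := by linarith [hM.2, hc.1]
      have c3 : (0 : ℤ) < c := by exact_mod_cast c1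
      have c4 : c < 1 := by exact_mod_cast c2
      omega

end Vale.Agent.P209
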