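import Vale.Agent.P209.WForm
import Vale.Agent.P209.WInj
import Vale.Agent.P209.WReflAux

/-! Injectivity of the window map modulo the lattice. Plan: `lift_refl`: equal base points give
(`Pc.pt_inj`, either order of depths) equal `u, t` and `M' = M + 10 c`; by `Yp_shift` the
derivatives agree; `liftF_pair` on the three kinds of basis vectors expresses the differences
of the source angles through `m₂, m₃`; `Yp_lattice` gives `m₂ = m₃ = 0`.
`E_refl`: both maps keep `t` and `y₂`. By `E_cases` and `IsPerm.range` both points are in the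
first case or both in the second. First case: `y₃ - 2 p' w ∈ (0, 2w)` for rectangles and `> 0`
for the last piece, so the pieces `pc'` agree, hence `c ≡ 0 mod lam`; if one point is in the
handle strip then the piece is `0`, so is `c mod lam`, use `lift_handle` (and `Yp_shift`),
`m₂ + m₃ = φ' - φ ∈ (-1, 1)`; otherwise `lift_refl`, `Tr_refl`. Second case: `IsPerm.sep` with
`n = 0` for even and `n = -1` for odd lanes, undo `Tr`, then `lift_refl`. -/

open scoped ContDiff Topology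
open Set MeasureTheory

namespace Vale.Agent.P209

variable {κ : Type} [Fintype κ] [DecidableEq κ] {D : WData κ} {O : Set (κ → ℝ)} {A κ₀ : ℝ}
  {G : ℕ → Ph (Option (Option κ)) → Ph (Option (Option κ))}

theorem Yp_inj (hD : D.Ok O A κ₀) (p : ℕ) {y y' : Option (Option κ) → ℝ} (hy : bb y ∈ D.Z O)
    (hy' : bb y' ∈ D.Z O) (h : D.Yp p y = D.Yp p y') :
    bb y = bb y' ∧ ∃ c : ℤ, y' none = y none + 10 * c := by
  have ht : tt y = tt y' := by
    have h1 := congrArg tt h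
    rwa [refl_tt_Yp, refl_tt_Yp] at h1
  have hpt : (D.geo p (y (some none)) (tt y)).pt D.ν (y none) =
      (D.geo p (y' (some none)) (tt y)).pt D.ν (y' none) := by
    have h1 := congrFun h none
    have h2 := congrFun h (some none)
    simp only [WData.Yp, mk3] at h1 h2
    rw [← ht] at h1 h2
    exact Prod.ext h2 h1
  have g1 : (D.geo p (y (some none)) (tt y)).Good A := good_geo hD p hy
  have g2 : (D.geo p (y' (some none)) (tt y)).Good A := by
    have h1 : (D.geo p (y' (some none)) (tt y')).Good A := good_geo hD p hy'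
    rwa [← ht] at h1
  have key : y (some none) = y' (some none) ∧ ∃ c : ℤ, y' none = y none + 10 * c := by
    rcases le_total (y (some none)) (y' (some none)) with hu | hu
    · have h1 := Pc.pt_inj hD.ν_pos hD.ν_le (by rw [(wid_geo D p _ _).1]; exact hD.νA) g1 g2
        (cmp_geo D p _ hu) hpt
      rw [(wid_geo D p _ _).2.2, (wid_geo D p _ _).2.2] at h1
      exact h1
    · obtain ⟨h1, c, hc⟩ := Pc.pt_inj hD.ν_pos hD.ν_le
        (by rw [(wid_geo D p _ _).1]; exact hD.νA) g2 g1 (cmp_geo D p _ hu) hpt.symm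
      rw [(wid_geo D p _ _).2.2, (wid_geo D p _ _).2.2] at h1
      exact ⟨h1.symm, -c, by push_cast; linarith⟩
  refine ⟨funext fun r => ?_, key.2⟩
  cases r with
  | none => exact key.1
  | some r => exact congrFun ht r

omit [Fintype κ] in
theorem refl_upd {y y' : Option (Option κ) → ℝ} (hb : bb y = bb y') {a : ℝ}
    (h : y' none = a) : y' = Function.update y none a := by
  funext i
  cases i with
  | none => simpa using h
  | some r => simpa [bb] using (congrFun hb r).symm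

theorem lift_refl (hD : D.Ok O A κ₀) (p : ℕ) {z z' : Ph (Option (Option κ))}
    (hz : bb z.1 ∈ D.Z O) (hz' : bb z'.1 ∈ D.Z O) (hS : z ∈ angS κ κ₀) (hS' : z' ∈ angS κ κ₀)
    (hb : D.Yp p z.1 = D.Yp p z'.1)
    (hη : |z'.2 none - z.2 none| < (D.geo p (z.1 (some none)) (tt z.1)).wid D.ν (z.1 none))
    (m₂ m₃ : ℤ)
    (h2 : (liftF (D.Yp p) (fun _ => 0) z').2 (some none) =
      (liftF (D.Yp p) (fun _ => 0) z).2 (some none) + m₂)
    (h3 : (liftF (D.Yp p) (fun _ => 0) z').2 none = (liftF (D.Yp p) (fun _ => 0) z).2 none + m₃) :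
    m₂ = 0 ∧ m₃ = 0 ∧ z'.2 none = z.2 none ∧ z'.2 (some none) = z.2 (some none) ∧
      ∀ r, z'.2 (some (some r)) - z.2 (some (some r)) =
        (liftF (D.Yp p) (fun _ => 0) z').2 (some (some r)) -
          (liftF (D.Yp p) (fun _ => 0) z).2 (some (some r)) := by
  obtain ⟨hbb, c, hc⟩ := Yp_inj hD p hz hz' hb
  have hL : fderiv ℝ (D.Yp p) z'.1 = fderiv ℝ (D.Yp p) z.1 := by
    rw [refl_upd hbb hc]
    exact (Yp_shift D p z.1 c).2
  have key : ∀ i, z'.2 i - z.2 i =
      m₂ * fderiv ℝ (D.Yp p) z.1 (Pi.single i 1) (some none) +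
        m₃ * fderiv ℝ (D.Yp p) z.1 (Pi.single i 1) none +
        ∑ r, ((liftF (D.Yp p) (fun _ => 0) z').2 (some (some r)) -
          (liftF (D.Yp p) (fun _ => 0) z).2 (some (some r))) *
            (Pi.single i 1 : Option (Option κ) → ℝ) (some (some r)) := fun i => by
    have e1 := liftF_pair (K := fun _ => 0) z (Yp_fderiv_inj hD p hz) (Pi.single i 1)
    have e2 := liftF_pair (K := fun _ => 0) z' (Yp_fderiv_inj hD p hz') (Pi.single i 1)
    rw [hL] at e2
    have e3 : ∀ q : Option (Option κ) → ℝ,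
        ∑ j, q j * (Pi.single i 1 : Option (Option κ) → ℝ) j = q i := fun q => by
      simp [Pi.single_apply]
    rw [e3, fderiv_fun_const] at e1 e2
    rw [Fintype.sum_option, Fintype.sum_option] at e1 e2
    simp only [Yp_fderiv_param hD, Pi.zero_apply, zero_apply, add_zero]
      at e1 e2
    rw [h2, h3] at e2
    simp only [sub_mul, Finset.sum_sub_distrib]
    linarith
  have k1 := key none
  have k2 := key (some none)
  simp only [ne_eq, reduceCtorEq, not_false_eq_true, Pi.single_eq_of_ne, mul_zero,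
    Finset.sum_const_zero, add_zero, Option.some.injEq] at k1 k2
  obtain ⟨m2, m3⟩ := Yp_lattice hD p hz m₂ m₃
    (by rw [← k2, abs_lt]; constructor <;> linarith [hS.1, hS.2, hS'.1, hS'.2])
    (by rw [← k1]; exact hη)
  subst m2 m3
  refine ⟨rfl, rfl, by simpa [sub_eq_zero] using k1, by simpa [sub_eq_zero] using k2, fun r => ?_⟩
  rw [key]
  simp [Pi.single_apply]

/-- both points off the handle, on the same piece. -/
theorem refl_same (hD : D.Ok O A κ₀) (p : ℕ) (a : ℝ) {z z' : Ph (Option (Option κ))}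
    (hz : bb z.1 ∈ D.Z O) (hz' : bb z'.1 ∈ D.Z O) (hS : z ∈ angS κ κ₀) (hS' : z' ∈ angS κ κ₀)
    (h0 : 0 < z.2 none)
    (h1 : z.2 none < (D.geo p (z.1 (some none)) (tt z.1)).wid D.ν (z.1 none))
    (h0' : 0 < z'.2 none)
    (h1' : z'.2 none < (D.geo p (z'.1 (some none)) (tt z'.1)).wid D.ν (z'.1 none))
    (hk : ∀ c : ℤ, z'.1 none = z.1 none + 10 * c → ∃ k : ℤ, (10 * c : ℝ) = k * (10 * D.lam))
    (h : LatEq (Tr none (fun y => a * D.w (tt y)) (liftF (D.Yp p) (fun _ => 0) z))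
      (Tr none (fun y => a * D.w (tt y)) (liftF (D.Yp p) (fun _ => 0) z'))) : ReflC D z z' := by
  have hb : D.Yp p z.1 = D.Yp p z'.1 := refl_Tr_base h.1
  obtain ⟨hbb, c, hc⟩ := Yp_inj hD p hz hz' hb
  have e1 : z'.1 (some none) = z.1 (some none) := (congrFun hbb none).symm
  have e2 : tt z'.1 = tt z.1 := funext fun r => (congrFun hbb (some r)).symm
  rw [e1, e2, hc, Pc.wid_add] at h1'
  obtain ⟨m₂, h2⟩ := h.2 (some none)
  obtain ⟨m₃, h3⟩ := h.2 none
  rw [(refl_Tr_none a _).2.2.2, (refl_Tr_none a _).2.2.2] at h2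
  rw [(refl_Tr_none a _).2.2.1, (refl_Tr_none a _).2.2.1] at h3
  obtain ⟨-, m3, k1, k2, k3⟩ := lift_refl hD p hz hz' hS hS' hb
    (by rw [abs_lt]; constructor <;> linarith) m₂ m₃ h2 h3
  subst m3
  have h4 := Tr_refl none (fun y t => by rw [refl_tt_upd]) h (by simpa using h3.symm)
  obtain ⟨k, hk'⟩ := hk c hc
  refine ⟨hbb, fun r => ?_, k, 0, by rw [hc, hk'], by simp [k1]⟩
  cases r with
  | none => exact ⟨0, by simp [k2]⟩
  | some r =>
    obtain ⟨m, hm⟩ := h4.2 (some (some r))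
    exact ⟨m, by linarith [k3 r]⟩

/-- the first point on the handle. -/
theorem refl_handle (hD : D.Ok O A κ₀) (p : ℕ) {z z' : Ph (Option (Option κ))}
    (hz : bb z.1 ∈ D.Z O) (hz' : bb z'.1 ∈ D.Z O) (hM : z.1 none ∈ Ioo (7 + D.ν) (8 - D.ν))
    (hk : ∀ c : ℤ, z'.1 none = z.1 none + 10 * c → ∃ k : ℤ, (10 * c : ℝ) = k * (10 * D.lam))
    (h : LatEq (liftF (D.Yp p) (fun _ => 0) z) (liftF (D.Yp p) (fun _ => 0) z')) :
    ReflC D z z' := by
  obtain ⟨hbb, c, hc⟩ := Yp_inj hD p hz hz' h.1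
  have hL : fderiv ℝ (D.Yp p) z'.1 = fderiv ℝ (D.Yp p) z.1 := by
    rw [refl_upd hbb hc]
    exact (Yp_shift D p z.1 c).2
  have e : (liftF (D.Yp p) (fun _ => 0) z').2 = (liftF (D.Yp p) (fun _ => 0) (z.1, z'.2)).2 := by
    funext i
    simp only [liftF, hL, fderiv_fun_const, Pi.zero_apply]
  have h2 := h.2
  rw [e, lift_handle hD p hM, lift_handle hD p (z := (z.1, z'.2)) hM] at h2
  obtain ⟨m₂, k2⟩ := h2 (some none)
  obtain ⟨m₃, k3⟩ := h2 none
  simp only [mk3] at k2 k3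
  obtain ⟨k, hk'⟩ := hk c hc
  have hε := hD.ε_pos
  refine ⟨hbb, fun r => ?_, k, m₂, by rw [hc, hk'], ?_⟩
  · cases r with
    | none => exact ⟨m₂ + m₃, by push_cast; linarith⟩
    | some r => exact h2 (some (some r))
  · rw [W_strip hD hM]
    field_simp at k2
    linarith

/-- both points in the first case of `E_cases`. -/
theorem refl_first (hD : D.Ok O A κ₀) {z z' : Ph (Option (Option κ))}
    (hz : z ∈ angS κ κ₀ ∩ WDom (D.Z O) D.W (7 + D.ν) (8 - D.ν))
    (hz' : z' ∈ angS κ κ₀ ∩ WDom (D.Z O) D.W (7 + D.ν) (8 - D.ν))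
    (h : LatEq (Tr none (fun y => ((2 * D.pc' (z.1 none) : ℕ) : ℝ) * D.w (tt y))
        (liftF (D.Yp (D.pc' (z.1 none))) (fun _ => 0) z))
      (Tr none (fun y => ((2 * D.pc' (z'.1 none) : ℕ) : ℝ) * D.w (tt y))
        (liftF (D.Yp (D.pc' (z'.1 none))) (fun _ => 0) z'))) : ReflC D z z' := by
  have ht : tt z.1 = tt z'.1 := by
    have h1 := congrArg tt h.1
    rwa [(refl_Tr_none _ _).2.1, (refl_Tr_none _ _).2.1] at h1
  have hw : 0 < D.w (tt z.1) := by
    have h1 : 0 < z.1 (some none) := hz.2.1.2.1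
    have h2 : z.1 (some none) < D.w (tt z.1) - 10 * D.ε := hz.2.1.2.2
    linarith [hD.ε_pos]
  have hp : D.pc' (z.1 none) = D.pc' (z'.1 none) := by
    have h1 := congrFun h.1 none
    rw [(refl_Tr_none _ _).1, (refl_Tr_none _ _).1] at h1
    simp only [liftF, refl_tt_Yp] at h1
    obtain ⟨a1, a2⟩ := refl_height hD (D.pc' (z.1 none)) hz.2.1
    obtain ⟨b1, b2⟩ := refl_height hD (D.pc' (z'.1 none)) hz'.2.1
    have l1 := refl_pc'_lt D hD.lam_pos (z.1 none)
    have l2 := refl_pc'_lt D hD.lam_pos (z'.1 none)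
    rw [← ht] at h1 b2
    push_cast at h1
    rcases lt_trichotomy (D.pc' (z.1 none)) (D.pc' (z'.1 none)) with hl | hl | hl
    · have c1 : (D.pc' (z.1 none) : ℝ) + 1 ≤ D.pc' (z'.1 none) := by exact_mod_cast hl
      nlinarith [a2 (by omega)]
    · exact hl
    · have c1 : (D.pc' (z'.1 none) : ℝ) + 1 ≤ D.pc' (z.1 none) := by exact_mod_cast hl
      nlinarith [b2 (by omega)]
  have hk : ∀ c : ℤ, z'.1 none = z.1 none + 10 * c →
      ∃ k : ℤ, (10 * c : ℝ) = k * (10 * D.lam) := fun c hc => by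
    rw [hc] at hp
    exact refl_dvd hD.lam_pos hp
  have hk' : ∀ c : ℤ, z.1 none = z'.1 none + 10 * c →
      ∃ k : ℤ, (10 * c : ℝ) = k * (10 * D.lam) := fun c hc => by
    rw [hc] at hp
    exact refl_dvd hD.lam_pos hp.symm
  have hT : ∀ ζ : Ph (Option (Option κ)),
      Tr none (fun y => ((2 * 0 : ℕ) : ℝ) * D.w (tt y)) ζ = ζ := fun ζ => by
    simp [Tr]
  rcases hz.2.2 with h1 | h1
  · rcases hz'.2.2 with h2 | h2
    · rw [refl_W_pc' hD] at h1 h2
      rw [← hp] at h h2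
      exact refl_same hD _ _ hz.2.1 hz'.2.1 hz.1 hz'.1 h1.1 h1.2 h2.1 h2.2 hk h
    · rw [hp, refl_pc'_strip hD h2, hT, hT] at h
      exact (refl_handle hD 0 hz'.2.1 hz.2.1 h2 hk' h.symm).symm
  · rw [← hp, refl_pc'_strip hD h1, hT, hT] at h
    exact refl_handle hD 0 hz.2.1 hz'.2.1 h1 hk h

theorem E_refl (hD : D.Ok O A κ₀)
    (hG : IsPerm (2 * D.lam - 1) (lanePerm D.lam) D.w (fun t => D.w t - 7 / 4 * D.ε) (D.ε / 2)
      κ₀ G) {z z' : Ph (Option (Option κ))}
    (hz : z ∈ angS κ κ₀ ∩ WDom (D.Z O) D.W (7 + D.ν) (8 - D.ν))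
    (hz' : z' ∈ angS κ κ₀ ∩ WDom (D.Z O) D.W (7 + D.ν) (8 - D.ν))
    (h : LatEq (D.E G z) (D.E G z')) :
    bb z.1 = bb z'.1 ∧ (∀ r, ∃ m : ℤ, z'.2 (some r) = z.2 (some r) + m) ∧
      ∃ k j : ℤ, z'.1 none = z.1 none + k * (10 * D.lam) ∧
        z'.2 none = z.2 none + j * D.W (z.1 none) (bb z.1) := by
  have hN : ((2 * D.lam - 1 : ℕ) : ℝ) = 2 * (D.lam : ℝ) - 1 := by
    rw [Nat.cast_sub (by have := hD.lam_pos; omega)]
    push_cast
    ring
  have mixed : ∀ {z z' : Ph (Option (Option κ))},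
      z' ∈ angS κ κ₀ ∩ WDom (D.Z O) D.W (7 + D.ν) (8 - D.ν) → (D.E G z).1 = (D.E G z').1 →
      tt (D.E G z).1 = tt z.1 →
      ((D.E G z).1 (some none) < D.w (tt z.1) - 7 / 4 * D.ε ∨
        D.w (tt z.1) - 5 / 4 * D.ε < (D.E G z).1 (some none) ∨
        (2 * (D.lam : ℝ) - 1) * D.w (tt z.1) ≤ (D.E G z).1 none) →
      D.w (tt z'.1) - 7 / 4 * D.ε ≤ (D.E G z').1 (some none) →
      (D.E G z').1 (some none) ≤ D.w (tt z'.1) - 5 / 4 * D.ε → _ → False :=
    fun {z z'} hz' hb ht h1 h2 h3 h4 => by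
      obtain ⟨i, ξ, -, i2, -, he, x1, x2, -, -, xt, -⟩ := refl_second (G := G) hD hz' h4
      have k1 := (hG.range _ i2 ξ x1 x2).2
      have k2 := (hG.keep (2 * D.pc (z'.1 none) + i) ξ).2
      rw [← he, xt] at k1 k2
      rw [hN] at k1
      rw [hb, k2] at ht
      rw [hb, ← ht] at h1
      rcases h1 with h1 | h1 | h1 <;> linarith
  change ReflC D z z'
  rcases E_cases hD hG hz.2.1 with ⟨e1, c1⟩ | ⟨c1, c2, c3⟩ <;>
    rcases E_cases hD hG hz'.2.1 with ⟨e2, d1⟩ | ⟨d1, d2, d3⟩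
  · rw [e1, e2] at h
    exact refl_first hD hz hz' h
  · exact (mixed hz' h.1 (by rw [e1, (refl_Tr_none _ _).2.1]; rfl) c1 d1 d2 d3).elim
  · exact (mixed hz h.1.symm (by rw [e2, (refl_Tr_none _ _).2.1]; rfl) d1 c1 c2 c3).elim
  · obtain ⟨i, ξ, i1, i2, hξ, he, x1, x2, x3, x4, -, w1, w2⟩ := refl_second (G := G) hD hz c3
    obtain ⟨i', ξ', j1, j2, hξ', he', y1, y2, y3, y4, -, v1, v2⟩ :=
      refl_second (G := G) hD hz' d3
    rw [he, he'] at h
    obtain ⟨k1, k2⟩ := hG.sep _ i2 _ j2 ξ ξ' (-(i : ℤ)) (-(i' : ℤ)) x1 x2 y1 y2 x3 x4 y3 y4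
      (fun hm => by omega) h
    have hp : D.pc (z.1 none) = D.pc (z'.1 none) := by omega
    have hi : i' = i := by omega
    rw [hξ, hξ', hi, ← hp] at k2
    refine refl_same hD _ _ hz.2.1 hz'.2.1 hz.1 hz'.1 w1 w2 v1 (by rw [hp]; exact v2)
      (fun c hc => ?_) k2
    rw [hc] at hp
    exact refl_dvd hD.lam_pos hp

end Vale.Agent.P209
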