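import Vale.Agent.P209.WForm

/-! The window map is symplectic, lands in the polygons and is equivariant on the handle.
Plan: `E_symp` by `Symp.of_local`: away from `r = 13/2` and `r = -1/8` the map is locally one
composite of `G`, `Tr`, `liftF`; near these two times it equals
`Tr none (2 p' w) ∘ liftF (Yp p') 0` with `p' = pc' M` locally constant (first case of `E_cases`,
the other cases are excluded by the position of `M`). `E_maps`: `E_cases`, `Pc.pt_mem`,
`geoB_bounds`, `IsPerm.range` with `lift_low`, `lift_up`. `E_equiv`: `pc M = 0`, `before`,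
`lift_handle`. -/

open scoped ContDiff Topology
open Set MeasureTheory

namespace Vale.Agent.P209

variable {κ : Type} [Fintype κ] [DecidableEq κ] {D : WData κ} {O : Set (κ → ℝ)} {A κ₀ : ℝ}
  {G : ℕ → Ph (Option (Option κ)) → Ph (Option (Option κ))}

theorem wsymp_floor {x : ℝ} {k : ℤ} (h1 : 10 * (k : ℝ) ≤ x) (h2 : x < 10 * (k : ℝ) + 10) :
    ⌊x / 10⌋ = k := Int.floor_eq_iff.2 ⟨by linarith, by linarith⟩

theorem wsymp_open (hD : D.Ok O A κ₀) : IsOpen {y : Option (Option κ) → ℝ | bb y ∈ D.Z O} :=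
  (isOpen_Z hD).preimage (continuous_pi fun r => continuous_apply (some r))

theorem wsymp_lift (hD : D.Ok O A κ₀) (p : ℕ) :
    Symp (liftF (D.Yp p) fun _ => 0) {z | bb z.1 ∈ D.Z O} :=
  liftF_symp (wsymp_open hD) (contDiff_Yp hD p).contDiffOn contDiffOn_const
    fun _ hq => Yp_fderiv_inj hD p hq

omit [Fintype κ] in
theorem wsymp_tt (y : Option (Option κ) → ℝ) (a : ℝ) : tt (Function.update y none a) = tt y := by
  funext r
  simp [tt]

theorem wsymp_Tr {w : (κ → ℝ) → ℝ} (hw : ContDiff ℝ ∞ w) :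
    Symp (Tr none fun y : Option (Option κ) → ℝ => w (tt y)) univ :=
  symp_Tr none isOpen_univ
    (hw.comp (contDiff_pi.2 fun r => contDiff_apply ℝ ℝ (some (some r)))).contDiffOn
    fun y _ => fderiv_single_eq_zero none (fun y t => by rw [wsymp_tt]) y

omit [Fintype κ] [DecidableEq κ] in
theorem wsymp_near (x : Ph (Option (Option κ))) {a b : ℝ} (ha : a < x.1 none)
    (hb : x.1 none < b) : ∀ᶠ z in 𝓝 x, a < z.1 none ∧ z.1 none < b :=
  ((continuous_apply none).comp continuous_fst).continuousAt.eventually (Ioo_mem_nhds ha hb)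

theorem E_symp (hD : D.Ok O A κ₀)
    (hG : IsPerm (2 * D.lam - 1) (lanePerm D.lam) D.w (fun t => D.w t - 7 / 4 * D.ε) (D.ε / 2)
      κ₀ G) : Symp (D.E G) {z | bb z.1 ∈ D.Z O} := by
  have hU := (wsymp_lift hD 0).isOpen
  have hT : ∀ (c : ℝ) (p : ℕ), Symp (fun z => Tr none (fun y => c * D.w (tt y))
      (liftF (D.Yp p) (fun _ => 0) z)) {z | bb z.1 ∈ D.Z O} := fun c p =>
    (wsymp_Tr (w := fun t => c * D.w t) (contDiff_const.mul hD.sw)).comp (wsymp_lift hD p)
      (mapsTo_univ _ _)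
  refine Symp.of_local hU fun x hx => ?_
  obtain ⟨k, hk⟩ : ∃ k, ⌊(x.1 none + 1 / 8) / 10⌋ = k := ⟨_, rfl⟩
  obtain ⟨h1, h2⟩ := Int.floor_eq_iff.1 hk
  by_cases hc : x.1 none = 10 * k - 1 / 8 ∨ x.1 none = 10 * k + 13 / 2
  · refine ⟨_, _, hT ((2 * (k % D.lam).toNat : ℕ) : ℝ) (k % D.lam).toNat, hx, ?_⟩
    filter_upwards [hU.mem_nhds hx, wsymp_near x (a := x.1 none - 1 / 16) (b := x.1 none + 1 / 16)
      (by linarith) (by linarith)] with z hz hM
    have h3 : D.pc' (z.1 none) = (k % D.lam).toNat := by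
      rw [WData.pc', wsymp_floor (k := k) (by rcases hc with h | h <;> linarith [hM.1])
        (by rcases hc with h | h <;> linarith [hM.2])]
    rcases E_cases hD hG hz with h | ⟨-, -, ⟨⟨c, h⟩, -⟩ | ⟨⟨c, h⟩, -⟩⟩
    · rw [h.1, h3]
    all_goals
      exfalso
      rcases lt_trichotomy c k with h4 | h4 | h4
      · rcases (Int.le_sub_one_of_lt h4).eq_or_lt with h5 | h5
        · rw [h5] at h
          push_cast at h
          rcases hc with h6 | h6 <;> linarith [h.1, h.2, hM.1, hM.2]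
        · have h7 : (c : ℝ) + 1 ≤ k - 1 := by exact_mod_cast h5
          rcases hc with h6 | h6 <;> linarith [h.1, h.2, hM.1, hM.2]
      · rw [h4] at h
        rcases hc with h6 | h6 <;> linarith [h.1, h.2, hM.1, hM.2]
      · have h7 : (k : ℝ) + 1 ≤ c := by exact_mod_cast h4
        rcases hc with h6 | h6 <;> linarith [h.1, h.2, hM.1, hM.2]
  · rw [not_or] at hc
    have h3 : 10 * k - 1 / 8 < x.1 none := lt_of_le_of_ne (by linarith) (Ne.symm hc.1)
    have h4 : ∀ z : Ph (Option (Option κ)), 10 * k - 1 / 8 < z.1 none → z.1 none < 10 * k + 79 / 8 →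
        ⌊(z.1 none + 1 / 8) / 10⌋ = k ∧ D.pc (z.1 none) = (k % D.lam).toNat := fun z ha hb => by
      have h5 : ⌊(z.1 none + 1 / 8) / 10⌋ = k := wsymp_floor (by linarith) (by linarith)
      exact ⟨h5, by rw [WData.pc, h5]⟩
    rcases lt_or_gt_of_ne hc.2 with h5 | h5
    · by_cases hp : (k % D.lam).toNat + 1 < D.lam
      · refine ⟨_, _, (hG.symp (2 * (k % D.lam).toNat + 1)).comp
          ((wsymp_Tr (w := fun t => -D.w t) hD.sw.neg).comp (wsymp_lift hD (k % D.lam).toNat)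
            (mapsTo_univ _ _)) (mapsTo_univ _ _), hx, ?_⟩
        filter_upwards [wsymp_near x h3 h5] with z hM
        obtain ⟨h6, h7⟩ := h4 z hM.1 (by linarith [hM.2])
        rw [WData.E, h6, h7, if_pos (by linarith [hM.2]), if_pos hp]
      · refine ⟨_, _, hT ((2 * (k % D.lam).toNat : ℕ) : ℝ) (k % D.lam).toNat, hx, ?_⟩
        filter_upwards [wsymp_near x h3 h5] with z hM
        obtain ⟨h6, h7⟩ := h4 z hM.1 (by linarith [hM.2])
        rw [WData.E, h6, h7, if_pos (by linarith [hM.2]), if_neg hp]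
    · refine ⟨_, _, (hG.symp (2 * (k % D.lam).toNat)).comp (wsymp_lift hD (k % D.lam).toNat)
        (mapsTo_univ _ _), hx, ?_⟩
      filter_upwards [wsymp_near x h5 (show x.1 none < 10 * k + 79 / 8 by linarith)] with z hM
      obtain ⟨h6, h7⟩ := h4 z (by linarith [hM.1]) hM.2
      rw [WData.E, h6, h7, if_neg (by linarith [hM.1])]

theorem wsymp_strip (hD : D.Ok O A κ₀)
    (hG : IsPerm (2 * D.lam - 1) (lanePerm D.lam) D.w (fun t => D.w t - 7 / 4 * D.ε) (D.ε / 2)
      κ₀ G) {m : ℕ} (hm : m < 2 * D.lam - 1) {ζ : Ph (Option (Option κ))} {t : κ → ℝ} (ht : t ∈ O)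
    (h0 : tt ζ.1 = t) (h1 : 0 < ζ.1 none) (h2 : ζ.1 none < D.w t)
    (h3 : D.w t - 7 / 4 * D.ε ≤ (G m ζ).1 (some none))
    (h4 : (G m ζ).1 (some none) ≤ D.w t - 5 / 4 * D.ε) :
    (G m ζ).1 ∈ polyV D.lam D.h D.w D.H D.K O := by
  subst h0
  obtain ⟨h5, h6⟩ := hG.range m hm ζ h1 h2
  have h7 := hD.dat _ ht
  have h8 := hD.lam_pos
  rw [Nat.cast_sub (by omega)] at h6
  push_cast at h6
  have := h7.pos
  have := h7.hw
  have := h7.hh
  have := h7.hH
  have := h7.hK
  rw [polyV, mem_ofPred_eq, (hG.keep m ζ).2]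
  exact ⟨ht, by linarith, by linarith, h5, by linarith, by linarith⟩

theorem E_maps (hD : D.Ok O A κ₀)
    (hG : IsPerm (2 * D.lam - 1) (lanePerm D.lam) D.w (fun t => D.w t - 7 / 4 * D.ε) (D.ε / 2)
      κ₀ G) {z : Ph (Option (Option κ))} (hz : bb z.1 ∈ D.Z O) :
    (D.E G z).1 ∈ polyV D.lam D.h D.w D.H D.K O := by
  have ht : tt z.1 ∈ O := hz.1
  have hu0 : 0 < z.1 (some none) := hz.2.1
  have hu1 : z.1 (some none) < D.w (tt z.1) - 10 * D.ε := hz.2.2
  have hd := hD.dat _ ht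
  have hε := hd.pos
  have hl := hD.lam_pos
  have hp := D.pc_lt hl (z.1 none)
  rcases E_cases hD hG hz with ⟨h, -⟩ | ⟨h1, h2, ⟨⟨c, hc⟩, h⟩ | ⟨⟨c, hc⟩, hp', h⟩⟩
  · have hq : D.pc' (z.1 none) < D.lam := by
      have h1 := Int.emod_lt_of_pos ⌊(z.1 none + 1 / 4) / 10⌋ (show (0 : ℤ) < D.lam by omega)
      rw [WData.pc']
      omega
    rw [h]
    generalize D.pc' (z.1 none) = p at hq
    obtain ⟨a1, a2, a3, a4, a5⟩ := Pc.pt_mem hD.ν_pos hD.ν_le (good_geo hD p hz) (z.1 none)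
    change tt z.1 ∈ O ∧ 0 < ((D.geo p (z.1 (some none)) (tt z.1)).pt D.ν (z.1 none)).1 ∧
      ((D.geo p (z.1 (some none)) (tt z.1)).pt D.ν (z.1 none)).1 < D.h (tt z.1) ∧
      0 < ((D.geo p (z.1 (some none)) (tt z.1)).pt D.ν (z.1 none)).2 +
        ((2 * p : ℕ) : ℝ) * D.w (tt z.1) ∧
      ((D.geo p (z.1 (some none)) (tt z.1)).pt D.ν (z.1 none)).2 +
        ((2 * p : ℕ) : ℝ) * D.w (tt z.1) < 2 * ((D.lam : ℝ) - 1) * D.w (tt z.1) + D.H (tt z.1) ∧
      ((D.geo p (z.1 (some none)) (tt z.1)).pt D.ν (z.1 none)).1 +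
        (((D.geo p (z.1 (some none)) (tt z.1)).pt D.ν (z.1 none)).2 +
          ((2 * p : ℕ) : ℝ) * D.w (tt z.1)) < 2 * ((D.lam : ℝ) - 1) * D.w (tt z.1) + D.K (tt z.1)
    change (D.geo p (z.1 (some none)) (tt z.1)).u ≤
      ((D.geo p (z.1 (some none)) (tt z.1)).pt D.ν (z.1 none)).1 at a1
    change ((D.geo p (z.1 (some none)) (tt z.1)).pt D.ν (z.1 none)).1 ≤
      (D.geo p (z.1 (some none)) (tt z.1)).X at a2
    change (D.geo p (z.1 (some none)) (tt z.1)).u ≤
      ((D.geo p (z.1 (some none)) (tt z.1)).pt D.ν (z.1 none)).2 at a3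
    change ((D.geo p (z.1 (some none)) (tt z.1)).pt D.ν (z.1 none)).2 ≤
      (D.geo p (z.1 (some none)) (tt z.1)).Y at a4
    change ((D.geo p (z.1 (some none)) (tt z.1)).pt D.ν (z.1 none)).1 +
      ((D.geo p (z.1 (some none)) (tt z.1)).pt D.ν (z.1 none)).2 ≤
      (D.geo p (z.1 (some none)) (tt z.1)).Kc at a5
    generalize (D.geo p (z.1 (some none)) (tt z.1)).pt D.ν (z.1 none) = q at *
    have hw : 0 < D.w (tt z.1) := by linarith
    have hpw : 0 ≤ (p : ℝ) * D.w (tt z.1) := by positivity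
    have := hd.hH
    have := hd.hhK
    push_cast
    by_cases hp1 : p + 1 < D.lam
    · rw [WData.geo, if_pos hp1] at a1 a2 a3 a4 a5
      simp only [geoA] at a1 a2 a3 a4 a5
      have h1 : (p : ℝ) + 1 + 1 ≤ D.lam := by exact_mod_cast hp1
      have h2 := mul_le_mul_of_nonneg_right h1 hw.le
      exact ⟨ht, by linarith, by linarith, by linarith, by linarith, by linarith⟩
    · rw [WData.geo, if_neg hp1] at a1 a2 a3 a4 a5
      simp only [geoB] at a1 a2 a3 a4 a5
      obtain ⟨-, b2, -, b4, -, b6⟩ := geoB_bounds hd hu0 hu1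
      have h1 : (D.lam : ℝ) = p + 1 := by exact_mod_cast (show D.lam = p + 1 by omega)
      rw [h1]
      exact ⟨ht, by linarith, by linarith, by linarith, by linarith, by linarith⟩
  · rw [h] at h1 h2 ⊢
    have h3 := (lift_low hD (D.pc (z.1 none)) c hc).1
    exact wsymp_strip hD hG (by omega) ht rfl (by rwa [h3]) (by rw [h3]; linarith) h1 h2
  · rw [h] at h1 h2 ⊢
    have h3 : (Tr none (fun y => -D.w (tt y))
        (liftF (D.Yp (D.pc (z.1 none))) (fun _ => 0) z)).1 none =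
        2 * D.w (tt z.1) - z.1 (some none) + -D.w (tt z.1) := by
      rw [← (lift_up hD hp' c hc).1]
      rfl
    exact wsymp_strip hD hG (by omega) ht (wsymp_tt _ _) (by rw [h3]; linarith)
      (by rw [h3]; linarith) h1 h2

theorem wsymp_handle (hD : D.Ok O A κ₀)
    (hG : IsPerm (2 * D.lam - 1) (lanePerm D.lam) D.w (fun t => D.w t - 7 / 4 * D.ε) (D.ε / 2)
      κ₀ G) {z : Ph (Option (Option κ))} (hz : bb z.1 ∈ D.Z O)
    (hM : z.1 none ∈ Ioo (7 + D.ν) (8 - D.ν)) :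
    D.E G z = (mk3 (z.1 (some none)) (z.1 (some none) + (z.1 none - 7) * D.ε) (tt z.1),
        mk3 (z.2 (some none) - z.2 none / D.ε) (z.2 none / D.ε) (tt z.2)) := by
  have hν := hD.ν_pos
  have hε := hD.ε_pos
  have hl := hD.lam_pos
  have hu1 : z.1 (some none) < D.w (tt z.1) - 10 * D.ε := hz.2.2
  have h1 : ⌊(z.1 none + 1 / 8) / 10⌋ = 0 :=
    wsymp_floor (by push_cast; linarith [hM.1]) (by push_cast; linarith [hM.2])
  have h2 : D.pc (z.1 none) = 0 := by rw [WData.pc, h1]; simp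
  rw [WData.E, h1, h2, if_neg (by push_cast; linarith [hM.1]), lift_handle hD 0 hM,
    hG.before _ (by omega) _ (by
      change z.1 (some none) + (z.1 none - 7) * D.ε ≤ D.w (tt z.1) - 7 / 4 * D.ε
      nlinarith [hM.2])]
  simp [Tr]

theorem E_equiv (hD : D.Ok O A κ₀)
    (hG : IsPerm (2 * D.lam - 1) (lanePerm D.lam) D.w (fun t => D.w t - 7 / 4 * D.ε) (D.ε / 2)
      κ₀ G) {z : Ph (Option (Option κ))} (hz : bb z.1 ∈ D.Z O)
    (hM : z.1 none ∈ Ioo (7 + D.ν) (8 - D.ν)) :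
    D.E G (z.1, Function.update z.2 none (z.2 none + D.ε)) =
      ((D.E G z).1, fun i => (D.E G z).2 i + handleV i) := by
  have hε := hD.ε_pos.ne'
  rw [wsymp_handle hD hG hz hM,
    wsymp_handle hD hG (z := (z.1, Function.update z.2 none (z.2 none + D.ε))) hz hM]
  refine Prod.ext rfl (funext fun i => ?_)
  rcases i with _ | _ | r
  · simp only [mk3, handleV, Function.update_self, ne_eq, reduceCtorEq, not_false_eq_true,
      Function.update_of_ne]
    push_cast
    field_simp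
    ring
  · simp only [mk3, handleV, Function.update_self]
    push_cast
    field_simp
  · simp [mk3, handleV, tt]

end Vale.Agent.P209
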