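import Vale.Agent.P209.WWid
import Vale.Agent.P209.WSymp
import Vale.Agent.P209.WRefl
import Vale.Agent.P209.Perm
import Vale.Agent.P209.Coord

/-! Assembling the window and restoring the full circle conjugate to the depth.
Plan: `isWin_core`: collect `WWid`, `WSymp`, `WRefl`. `coord_rect'`: copy the proof of
`coord_rect` (the new coordinates `i₀` depend only on the old coordinates `i₀`).
`isWin_rect`: `E' = E ∘ Sc ∘ F`, `F` from `coord_rect'` at `some none` (bound `A' + 1`, tolerance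
`e`), `Sc` from `symp_scale (some none) κ₀` with `c = 1 - 2 κ₀`; the new depth is positive and
less than `(u + e)/(1 - 2κ₀)`, so by antitonicity the point lies in the domain of `E`. -/

open scoped ContDiff Topology
open Set MeasureTheory

namespace Vale.Agent.P209

theorem coord_rect' {ι : Type} [Fintype ι] [DecidableEq ι] (i₀ : ι) {A ε : ℝ} (hA : 0 < A)
    (hε : 0 < ε) :
    ∃ F : Ph ι → Ph ι, Symp F {z | 0 < z.1 i₀ ∧ z.1 i₀ < A} ∧
      (∀ z j, j ≠ i₀ → (F z).1 j = z.1 j ∧ (F z).2 j = z.2 j) ∧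
      (∀ z : Ph ι, 0 < z.1 i₀ → z.1 i₀ < A → 0 < (F z).1 i₀ ∧ (F z).1 i₀ < z.1 i₀ + ε ∧
        0 < (F z).2 i₀ ∧ (F z).2 i₀ < 1) ∧
      (∀ z z' : Ph ι, 0 < z.1 i₀ → z.1 i₀ < A → 0 < z'.1 i₀ → z'.1 i₀ < A →
        (F z).1 i₀ = (F z').1 i₀ → (F z).2 i₀ = (F z').2 i₀ →
        z.1 i₀ = z'.1 i₀ ∧ ∃ m : ℤ, z'.2 i₀ = z.2 i₀ + m) ∧
      ∀ z z' : Ph ι, z.1 i₀ = z'.1 i₀ → z.2 i₀ = z'.2 i₀ →
        (F z).1 i₀ = (F z').1 i₀ ∧ (F z).2 i₀ = (F z').2 i₀ := by
  obtain ⟨σ, hσ, hinj, hpres, hb⟩ := exists_rect hA hε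
  have hO : IsOpen {x : ℝ × ℝ | 0 < x.1 ∧ x.1 < A} :=
    (isOpen_lt continuous_const continuous_fst).inter (isOpen_lt continuous_fst continuous_const)
  have hD : IsOpen {z : ℂ | Real.pi * ‖z‖ ^ 2 < A} := isOpen_lt (by fun_prop) continuous_const
  have hm : ∀ x : ℝ × ℝ, 0 < x.1 → x.1 < A → Real.pi * ‖pol x.1 x.2‖ ^ 2 < A := fun x h1 h2 => by
    rwa [norm_pol h1.le]
  obtain ⟨F, hF, h1, h2⟩ := coord_plane i₀ (G := fun x => σ (pol x.1 x.2)) hO
    (hσ.comp (contDiffOn_pol.mono fun x hx => hx.1) fun x hx => hm x hx.1 hx.2) (by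
      intro x hx u v
      have d1 : DifferentiableAt ℝ σ (pol x.1 x.2) :=
        (hσ.contDiffAt (hD.mem_nhds (hm x hx.1 hx.2))).differentiableAt (by simp)
      have d2 : DifferentiableAt ℝ (fun x : ℝ × ℝ => pol x.1 x.2) x :=
        (contDiffOn_pol.contDiffAt ((isOpen_lt continuous_const continuous_fst).mem_nhds
          hx.1)).differentiableAt (by simp)
      have e : fderiv ℝ (fun x : ℝ × ℝ => σ (pol x.1 x.2)) x =
          (fderiv ℝ σ (pol x.1 x.2)).comp (fderiv ℝ (fun x : ℝ × ℝ => pol x.1 x.2) x) :=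
        (d1.hasFDerivAt.comp x d2.hasFDerivAt).fderiv
      rw [e, ContinuousLinearMap.comp_apply, ContinuousLinearMap.comp_apply,
        hpres _ (hm x hx.1 hx.2), pol_pres x hx.1])
  refine ⟨F, hF, h1, fun z h3 h4 => ?_, fun z z' h3 h4 h5 h6 h7 h8 => ?_, fun z z' h3 h4 => ?_⟩
  · have h5 := hb _ (hm (z.1 i₀, z.2 i₀) h3 h4)
    rw [norm_pol h3.le] at h5
    rw [(h2 z).1, (h2 z).2]
    exact h5
  · rw [(h2 z).1, (h2 z').1] at h7
    rw [(h2 z).2, (h2 z').2] at h8
    exact pol_inj h3 h5 (hinj (hm (z.1 i₀, z.2 i₀) h3 h4) (hm (z'.1 i₀, z'.2 i₀) h5 h6)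
      (Prod.ext h7 h8))
  · rw [(h2 z).1, (h2 z).2, (h2 z').1, (h2 z').2, h3, h4]
    exact ⟨rfl, rfl⟩

variable {κ : Type} [Fintype κ] [DecidableEq κ]

theorem wrect_phi {ι : Type} [Fintype ι] [DecidableEq ι] (i₀ : ι) {A e κ₀ : ℝ} (hA : 0 < A)
    (he : 0 < e) (hκ : 0 < 1 - 2 * κ₀) :
    ∃ F : Ph ι → Ph ι, Symp F {z | 0 < z.1 i₀ ∧ z.1 i₀ < A} ∧
      (∀ z j, j ≠ i₀ → (F z).1 j = z.1 j ∧ (F z).2 j = z.2 j) ∧
      (∀ z : Ph ι, 0 < z.1 i₀ → z.1 i₀ < A → 0 < (F z).1 i₀ ∧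
        (F z).1 i₀ < (z.1 i₀ + e) / (1 - 2 * κ₀) ∧ κ₀ < (F z).2 i₀ ∧ (F z).2 i₀ < 1 - κ₀) ∧
      (∀ z z' : Ph ι, 0 < z.1 i₀ → z.1 i₀ < A → 0 < z'.1 i₀ → z'.1 i₀ < A →
        (F z).1 i₀ = (F z').1 i₀ → (F z).2 i₀ = (F z').2 i₀ →
        z.1 i₀ = z'.1 i₀ ∧ ∃ m : ℤ, z'.2 i₀ = z.2 i₀ + m) ∧
      ∀ z z' : Ph ι, z.1 i₀ = z'.1 i₀ → z.2 i₀ = z'.2 i₀ →
        (F z).1 i₀ = (F z').1 i₀ ∧ (F z).2 i₀ = (F z').2 i₀ := by
  obtain ⟨F, h1, h2, h3, h4, h5⟩ := coord_rect' i₀ hA he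
  refine ⟨_, (symp_scale i₀ κ₀ hκ.ne').comp h1 (mapsTo_univ _ _), fun z j hj => ?_,
    fun z a b => ?_, fun z z' a b c d e1 e2 => ?_, fun z z' e1 e2 => ?_⟩
  · simp only [Function.update_of_ne hj]
    exact h2 z j hj
  · obtain ⟨k1, k2, k3, k4⟩ := h3 z a b
    simp only [Function.update_self]
    exact ⟨div_pos k1 hκ, div_lt_div_of_pos_right k2 hκ, by nlinarith, by nlinarith⟩
  · simp only [Function.update_self] at e1 e2
    exact h4 z z' a b c d ((div_left_inj' hκ.ne').1 e1)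
      (mul_left_cancel₀ hκ.ne' (add_left_cancel e2))
  · simp only [Function.update_self]
    rw [(h5 z z' e1 e2).1, (h5 z z' e1 e2).2]
    exact ⟨rfl, rfl⟩

theorem wrect_open {μ : Type} {Z : Set (μ → ℝ)} (hZ : IsOpen Z) {W : ℝ → (μ → ℝ) → ℝ}
    (hW : Continuous fun p : ℝ × (μ → ℝ) => W p.1 p.2) (m₀ m₁ : ℝ) : IsOpen (WDom Z W m₀ m₁) := by
  have h1 : Continuous fun z : Ph (Option μ) => bb z.1 := by
    unfold bb
    fun_prop
  have h2 : Continuous fun z : Ph (Option μ) => z.1 none := by fun_prop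
  have h3 : Continuous fun z : Ph (Option μ) => z.2 none := by fun_prop
  exact (hZ.preimage h1).inter (((isOpen_lt continuous_const h3).inter
    (isOpen_lt h3 (hW.comp (h2.prodMk h1)))).union (isOpen_Ioo.preimage h2))

theorem isWin_core {D : WData κ} {O : Set (κ → ℝ)} {A κ₀ : ℝ} (hD : D.Ok O A κ₀) :
    ∃ E, IsWin (D.Z O) (angS κ κ₀) D.W (10 * D.lam) (7 + D.ν) (8 - D.ν) D.ε E
      (polyV D.lam D.h D.w D.H D.K O) handleV := by
  have hl := hD.lam_pos
  obtain ⟨G, hG⟩ := exists_perm (κ := κ) (N := 2 * D.lam - 1) (by omega) (lanePerm D.lam)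
    (fun m hm => lanePerm_lt hl hm) (fun m hm m' hm' h => lanePerm_inj hl hm hm' h)
    (x₀ := fun t => D.w t - 7 / 4 * D.ε) hD.sw (hD.sw.sub contDiff_const) (half_pos hD.ε_pos)
    hD.κ_pos
  have hc : Continuous fun z : Ph (Option (Option κ)) => z.2 (some none) := by fun_prop
  have hS : IsOpen (angS κ κ₀) :=
    (isOpen_lt continuous_const hc).inter (isOpen_lt hc continuous_const)
  have hl' : (1 : ℝ) ≤ D.lam := by exact_mod_cast hl
  exact ⟨D.E G, isOpen_Z hD, (contDiff_W hD).contDiffOn, fun M b hb => W_pos hD M hb,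
    fun M b _ => W_per D M b, by linarith [hD.ν_le], by linarith [hD.ν_pos],
    fun M hM b _ => W_strip hD hM b,
    (E_symp hD hG).mono (hS.inter (wrect_open (isOpen_Z hD) (contDiff_W hD).continuous _ _))
      fun z hz => hz.2.1, fun z hz => E_maps hD hG hz.2.1, fun z _ hz hM => E_equiv hD hG hz hM,
    fun z hz z' hz' h => E_refl hD hG hz hz' h⟩

theorem isWin_rect {D : WData κ} {O : Set (κ → ℝ)} {A κ₀ : ℝ} (hD : D.Ok O A κ₀) {e : ℝ}
    (he : 0 < e) :
    ∃ E, IsWin {b | bb b ∈ O ∧ 0 < b none ∧ (b none + e) / (1 - 2 * κ₀) < D.w (bb b) - 10 * D.ε}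
      univ (fun M b => D.W M (Function.update b none ((b none + e) / (1 - 2 * κ₀))))
      (10 * D.lam) (7 + D.ν) (8 - D.ν) D.ε E (polyV D.lam D.h D.w D.H D.K O) handleV := by
  obtain ⟨E, hE⟩ := isWin_core hD
  have hc : 0 < 1 - 2 * κ₀ := by linarith [hD.κ_le]
  obtain ⟨F, h1, h2, h3, h4, h5⟩ := wrect_phi (some none : Option (Option κ))
    (A := |A| + 1) (by positivity) he hc
  obtain ⟨Z, hZ⟩ : ∃ Z : Set (Option κ → ℝ), Z =
    {b | bb b ∈ O ∧ 0 < b none ∧ (b none + e) / (1 - 2 * κ₀) < D.w (bb b) - 10 * D.ε} := ⟨_, rfl⟩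
  obtain ⟨W, hW⟩ : ∃ W : ℝ → (Option κ → ℝ) → ℝ, W =
    fun M b => D.W M (Function.update b none ((b none + e) / (1 - 2 * κ₀))) := ⟨_, rfl⟩
  rw [← hZ, ← hW]
  have hbb : ∀ (b : Option κ → ℝ) (x : ℝ), bb (Function.update b none x) = bb b := fun b x =>
    funext fun r => Function.update_of_ne (by simp) _ _
  have hZo : IsOpen Z := by
    have k1 : Continuous fun b : Option κ → ℝ => bb b := wid_bb.continuous.snd
    have k2 : Continuous fun b : Option κ → ℝ => b none := by fun_prop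
    have k3 := hD.sw.continuous
    rw [hZ]
    exact (hD.isOpen.preimage k1).inter ((isOpen_lt continuous_const k2).inter
      (isOpen_lt ((k2.add continuous_const).div_const _) ((k3.comp k1).sub continuous_const)))
  have hWs : ContDiff ℝ ∞ fun p : ℝ × (Option κ → ℝ) => W p.1 p.2 := by
    rw [hW]
    refine (contDiff_W hD).comp (f := fun p : ℝ × (Option κ → ℝ) =>
      (p.1, Function.update p.2 none ((p.2 none + e) / (1 - 2 * κ₀))))
      (contDiff_fst.prodMk (contDiff_pi.2 fun j => ?_))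
    rcases j with _ | r
    · simp only [Function.update_self]
      fun_prop
    · simp only [Function.update_of_ne (Option.some_ne_none r)]
      fun_prop
  have hmem : ∀ b ∈ Z, Function.update b none ((b none + e) / (1 - 2 * κ₀)) ∈ D.Z O := by
    intro b hb
    rw [hZ] at hb
    refine ⟨by rw [hbb]; exact hb.1, ?_, ?_⟩
    · rw [Function.update_self]
      exact div_pos (by linarith [hb.2.1]) hc
    · rw [Function.update_self, hbb]
      exact hb.2.2
  have hbd : ∀ z : Ph (Option (Option κ)), bb z.1 ∈ Z →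
      0 < z.1 (some none) ∧ z.1 (some none) < |A| + 1 := by
    intro z hz
    rw [hZ] at hz
    obtain ⟨k1, k2, k3⟩ := hz
    have k4 := hD.dat _ k1
    have k5 : 0 < z.1 (some none) := k2
    have k6 : (z.1 (some none) + e) / (1 - 2 * κ₀) < D.w (bb (bb z.1)) - 10 * D.ε := k3
    have k7 : z.1 (some none) + e ≤ (z.1 (some none) + e) / (1 - 2 * κ₀) := by
      rw [le_div_iff₀ hc]
      nlinarith [hD.κ_pos]
    exact ⟨k5, by linarith [k4.pos, k4.hw, k4.hh, k4.hH, k4.hA, le_abs_self A]⟩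
  have hn : ∀ z, (F z).1 none = z.1 none ∧ (F z).2 none = z.2 none := fun z => h2 z none (by simp)
  have htt : ∀ z, bb (bb (F z).1) = bb (bb z.1) := fun z =>
    funext fun r => (h2 z (some (some r)) (by simp)).1
  have hF : ∀ z : Ph (Option (Option κ)), bb z.1 ∈ Z → F z ∈ angS κ κ₀ ∧ bb (F z).1 ∈ D.Z O ∧
      ∀ M, W M (bb z.1) ≤ D.W M (bb (F z).1) := by
    intro z hz
    obtain ⟨k1, k2, k3, k4⟩ := h3 z (hbd z hz).1 (hbd z hz).2
    rw [hZ] at hz
    refine ⟨⟨k3, k4⟩, ⟨by rw [htt]; exact hz.1, k1, ?_⟩, fun M => ?_⟩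
    · rw [htt]
      exact k2.trans hz.2.2
    · rw [hW]
      refine W_anti D M (by rw [hbb, htt]) ?_
      rw [Function.update_self]
      exact k2.le
  have hmap : MapsTo F (univ ∩ WDom Z W (7 + D.ν) (8 - D.ν))
      (angS κ κ₀ ∩ WDom (D.Z O) D.W (7 + D.ν) (8 - D.ν)) := by
    intro z hz
    obtain ⟨k1, k2, k3⟩ := hF z hz.2.1
    refine ⟨k1, k2, ?_⟩
    rw [(hn z).1, (hn z).2]
    exact hz.2.2.imp_left fun k => ⟨k.1, k.2.trans_le (k3 _)⟩
  have hper : ∀ (b : Option κ → ℝ) (M : ℝ) (k : ℤ), D.W (M + k * (10 * D.lam)) b = D.W M b :=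
    fun b M k => by
      have := Function.Periodic.int_mul (f := fun M => D.W M b) (fun M => W_per D M b) k M
      simpa using this
  refine ⟨fun z => E (F z), hZo, hWs.contDiffOn, fun M b hb => ?_, fun M b _ => ?_, hE.lt01,
    hE.le1L, fun M hM b _ => ?_, hE.symp.comp (h1.mono (isOpen_univ.inter
      (wrect_open hZo hWs.continuous _ _)) fun z hz => hbd z hz.2.1) hmap,
    fun z hz => hE.maps (hmap hz), fun z _ hz hM => ?_, fun z hz z' hz' h => ?_⟩
  · rw [hW]
    exact W_pos hD M (hmem b hb)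
  · rw [hW]
    exact W_per D M _
  · rw [hW]
    exact W_strip hD hM _
  · obtain ⟨k1, k2, -⟩ := hF z hz
    have k3 := hE.equiv (F z) k1 k2 (by rw [(hn z).1]; exact hM)
    have k4 := h5 (z.1, Function.update z.2 none (z.2 none + D.ε)) z rfl (by simp)
    have k5 : F (z.1, Function.update z.2 none (z.2 none + D.ε)) =
        ((F z).1, Function.update (F z).2 none ((F z).2 none + D.ε)) := by
      refine Prod.ext (funext fun j => ?_) (funext fun j => ?_)
      · by_cases hj : j = some none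
        · rw [hj]
          exact k4.1
        · exact (h2 _ j hj).1.trans (h2 z j hj).1.symm
      · by_cases hj : j = some none
        · rw [hj]
          exact k4.2.trans (by simp)
        · rw [(h2 _ j hj).2]
          by_cases hj' : j = none
          · rw [hj']
            simp only [Function.update_self, (hn z).2]
          · simp only [Function.update_of_ne hj', (h2 z j hj).2]
    simp only [k5]
    exact k3
  · obtain ⟨k1, k2, k, j, k3, k4⟩ := hE.refl _ (hmap hz) _ (hmap hz') h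
    rw [(hn z).1, (hn z').1] at k3
    rw [(hn z).1, (hn z).2, (hn z').2] at k4
    obtain ⟨a1, a2⟩ := hbd z hz.2.1
    obtain ⟨a3, a4⟩ := hbd z' hz'.2.1
    obtain ⟨-, -, a5, a6⟩ := h3 z a1 a2
    obtain ⟨-, -, a7, a8⟩ := h3 z' a3 a4
    obtain ⟨m, hm⟩ := k2 none
    have hm0 : m = 0 := by
      have b1 : (m : ℝ) < 1 := by linarith [hD.κ_pos]
      have b2 : (-1 : ℝ) < m := by linarith [hD.κ_pos]
      have b3 : m < 1 := by exact_mod_cast b1
      have b4 : -1 < m := by exact_mod_cast b2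
      omega
    rw [hm0, Int.cast_zero, add_zero] at hm
    obtain ⟨c1, c2⟩ := h4 z z' a1 a2 a3 a4 (congrFun k1 none) hm.symm
    have c3 : bb z.1 = bb z'.1 := by
      funext r
      rcases r with _ | r
      · exact c1
      · exact congrFun ((htt z).symm.trans ((congrArg bb k1).trans (htt z'))) r
    refine ⟨c3, fun r => ?_, ?_⟩
    · rcases r with _ | r
      · exact c2
      · obtain ⟨n, hn'⟩ := k2 (some r)
        rw [(h2 z _ (by simp)).2, (h2 z' _ (by simp)).2] at hn'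
        exact ⟨n, hn'⟩
    rcases hz.2.2 with d1 | d1
    · rcases hz'.2.2 with d2 | d2
      · have d3 := (hF z hz.2.1).2.2 (z.1 none)
        have d4 := (hF z' hz'.2.1).2.2 (z'.1 none)
        rw [← k1, k3, hper] at d4
        rw [k3] at d2
        have d5 : 0 < D.W (z.1 none) (bb (F z).1) := by linarith [d1.1, d1.2]
        have b1 : (j : ℝ) < 1 := by
          by_contra b
          nlinarith [d1.1, d2.2]
        have b2 : (-1 : ℝ) < j := by
          by_contra b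
          nlinarith [d1.2, d2.1]
        have b3 : j < 1 := by exact_mod_cast b1
        have b4 : -1 < j := by exact_mod_cast b2
        obtain rfl : j = 0 := by omega
        exact ⟨k, 0, k3, by simpa using k4⟩
      · refine ⟨k, j, k3, ?_⟩
        rw [k4, hW]
        simp only
        rw [← hper _ _ k, ← hper _ (z.1 none) k, ← k3, W_strip hD d2, W_strip hD d2]
    · refine ⟨k, j, k3, ?_⟩
      rw [k4, hW]
      simp only
      rw [W_strip hD d1, W_strip hD d1]

end Vale.Agent.P209
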