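import Vale.Agent.P209.WGeo
import Vale.Agent.P209.WLoop

/-! The width function of the chain. Plan: `pc` is constant on `[10 k - 1/8, 10 k + 10 - 1/8)`;
near `M = 10 k - 1/8` every piece has `wid = ε` and the same `pt` (`Pc.pt_pure` with
`j = 10 k - 1`, `ix j = 9`), so `W` is locally the width of one piece. The integral over a
period: move the base point to `-1/8` (periodicity), split in `lam` intervals of length ten,
`Pc.integral_wid`, `sum_len`, `sum_geoB`. -/

open scoped ContDiff Topology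
open Set MeasureTheory

namespace Vale.Agent.P209

variable {κ : Type} [Fintype κ] [DecidableEq κ] {D : WData κ} {O : Set (κ → ℝ)} {A κ₀ : ℝ}

omit [Fintype κ] [DecidableEq κ] in
theorem WData.pc_lt (D : WData κ) (h : 1 ≤ D.lam) (M : ℝ) : D.pc M < D.lam := by
  have h1 := Int.emod_lt_of_pos ⌊(M + 1 / 8) / 10⌋ (show (0 : ℤ) < D.lam by omega)
  have h2 := Int.emod_nonneg ⌊(M + 1 / 8) / 10⌋ (show (D.lam : ℤ) ≠ 0 by omega)
  unfold WData.pc
  omega

omit [Fintype κ] [DecidableEq κ] in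
theorem WData.pc_add (D : WData κ) (M : ℝ) (k : ℤ) : D.pc (M + k * (10 * D.lam)) = D.pc M := by
  have e : (M + k * (10 * D.lam) + 1 / 8) / 10 = (M + 1 / 8) / 10 + ((k * D.lam : ℤ) : ℝ) := by
    push_cast
    ring
  unfold WData.pc
  rw [e, Int.floor_add_intCast, Int.add_mul_emod_self_right]

omit [DecidableEq κ] in
theorem wid_bb : ContDiff ℝ ∞ (fun b : Option κ → ℝ => (b none, bb b)) :=
  (contDiff_apply ℝ ℝ none).prodMk (contDiff_pi.2 fun r => contDiff_apply ℝ ℝ (some r))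

theorem wid_junc {ν : ℝ} (h0 : 0 < ν) (h1 : ν ≤ 1 / 100) (g : Pc) (k : ℤ) {M : ℝ}
    (h : 10 * (k : ℝ) - 1 + ν ≤ M) (h' : M ≤ 10 * (k : ℝ) - ν) :
    g.pt ν M = (g.w - 2 * g.ε + (M - (10 * k - 1)) * g.ε, g.u) ∧ g.wid ν M = g.ε := by
  have e : ix (10 * k - 1) = 9 := by
    unfold ix
    omega
  have h2 := Pc.pt_pure h0 h1 g (10 * k - 1) (M := M) (by push_cast; linarith)
    (by push_cast; linarith)
  rw [e] at h2
  refine ⟨h2.1.trans ?_, h2.2⟩
  simp [Pc.vtx, Pc.len, dirn]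

omit [Fintype κ] [DecidableEq κ] in
theorem wid_geo (D : WData κ) (p : ℕ) (u : ℝ) (t : κ → ℝ) :
    (D.geo p u t).ε = D.ε ∧ (D.geo p u t).w = D.w t ∧ (D.geo p u t).u = u := by
  unfold WData.geo
  split_ifs <;> exact ⟨rfl, rfl, rfl⟩

omit [DecidableEq κ] in
theorem wid_eq (hD : D.Ok O A κ₀) (k : ℤ) {M : ℝ} (h1 : 10 * (k : ℝ) - 1 / 2 ≤ M)
    (h2 : M ≤ 10 * (k : ℝ) + 10 - 1 / 8) (b : Option κ → ℝ) :
    D.W M b = (D.geo (k % (D.lam : ℤ)).toNat (b none) (bb b)).wid D.ν M := by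
  have n0 := hD.ν_pos
  have n1 := hD.ν_le
  have key : ∀ j : ℤ, 10 * (j : ℝ) - 1 + D.ν ≤ M → M ≤ 10 * (j : ℝ) - D.ν →
      D.W M b = (D.geo (k % (D.lam : ℤ)).toNat (b none) (bb b)).wid D.ν M := fun j a1 a2 => by
    rw [WData.W, (wid_junc n0 n1 _ j a1 a2).2, (wid_junc n0 n1 _ j a1 a2).2, (wid_geo _ _ _ _).1,
      (wid_geo _ _ _ _).1]
  rcases lt_or_ge M (10 * (k : ℝ) - 1 / 8) with h3 | h3
  · exact key k (by linarith) (by linarith)
  rcases h2.eq_or_lt with h4 | h4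
  · exact key (k + 1) (by push_cast; linarith) (by push_cast; linarith)
  · have e : ⌊(M + 1 / 8) / 10⌋ = k := Int.floor_eq_iff.2 ⟨by linarith, by linarith⟩
    rw [WData.W, WData.pc, e]

theorem isOpen_Z (hD : D.Ok O A κ₀) : IsOpen (D.Z O) := by
  have h1 : Continuous (bb : (Option κ → ℝ) → κ → ℝ) :=
    continuous_pi fun r => continuous_apply (some r)
  exact (hD.isOpen.preimage h1).inter ((isOpen_lt continuous_const (continuous_apply none)).inter
    (isOpen_lt (continuous_apply none) ((hD.sw.continuous.comp h1).sub continuous_const)))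

theorem contDiff_W (hD : D.Ok O A κ₀) :
    ContDiff ℝ ∞ (fun p : ℝ × (Option κ → ℝ) => D.W p.1 p.2) := by
  refine contDiff_iff_contDiffAt.2 fun q => ?_
  obtain ⟨k, hk⟩ : ∃ k, k = ⌊(q.1 + 1 / 8) / 10⌋ := ⟨_, rfl⟩
  obtain ⟨a1, a2⟩ := Int.floor_eq_iff.1 hk.symm
  have h := (contDiff_pt hD.ν_pos hD.ν_le
    (fun b : Option κ → ℝ => D.geo (k % (D.lam : ℤ)).toNat (b none) (bb b))
    (fun j => (contDiff_geo_vtx hD _ j).comp wid_bb)
    fun j => (contDiff_geo_len hD _ j).comp wid_bb).2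
  refine h.contDiffAt.congr_of_eventuallyEq ?_
  filter_upwards [continuous_fst.continuousAt.preimage_mem_nhds (Ioo_mem_nhds
    (show 10 * (k : ℝ) - 1 / 2 < q.1 by linarith)
    (show q.1 < 10 * (k : ℝ) + 10 - 1 / 8 by linarith))] with z hz
  exact wid_eq hD k hz.1.le hz.2.le z.2

theorem W_pos (hD : D.Ok O A κ₀) (M : ℝ) {b : Option κ → ℝ} (hb : b ∈ D.Z O) : 0 < D.W M b :=   Pc.wid_pos hD.ν_pos (good_geo hD _ hb) M

theorem W_per (D : WData κ) (M : ℝ) (b : Option κ → ℝ) : D.W (M + 10 * D.lam) b = D.W M b := by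
  have h1 := D.pc_add M 1
  have h2 := Pc.wid_add (ν := D.ν) (D.geo (D.pc M) (b none) (bb b)) M D.lam
  rw [Int.cast_one, one_mul] at h1
  rw [Int.cast_natCast] at h2
  rw [WData.W, h1, h2, WData.W]

theorem W_strip (hD : D.Ok O A κ₀) {M : ℝ} (hM : M ∈ Ioo (7 + D.ν) (8 - D.ν))
    (b : Option κ → ℝ) : D.W M b = D.ε := by
  have h := (Pc.pt_pure hD.ν_pos hD.ν_le (D.geo (D.pc M) (b none) (bb b)) 7 (M := M)
    (by push_cast; exact hM.1.le) (by push_cast; linarith [hM.2])).2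
  exact h.trans (wid_geo _ _ _ _).1

theorem W_anti (D : WData κ) (M : ℝ) {b b' : Option κ → ℝ} (h : bb b = bb b')
    (hu : b none ≤ b' none) : D.W M b' ≤ D.W M b := by
  rw [WData.W, WData.W, ← h]
  exact Pc.wid_anti (cmp_geo D _ _ hu) M

theorem W_integral (hD : D.Ok O A κ₀) {b : Option κ → ℝ} (hb : b ∈ D.Z O) (c : ℝ) :
    ellW D.lam (D.h (bb b)) (D.w (bb b)) (D.H (bb b)) (D.K (bb b)) (b none) -
      16 * D.lam * D.ε ≤ ∫ M in c..c + 10 * D.lam, D.W M b := by
  have hc : Continuous fun M => D.W M b :=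
    (contDiff_W hD).continuous.comp (continuous_id.prodMk continuous_const)
  have hp : Function.Periodic (fun M => D.W M b) (10 * D.lam) := fun M => W_per D M b
  have h1 := intervalIntegral.sum_integral_adjacent_intervals (μ := volume)
    (a := fun k : ℕ => -1 / 8 + 10 * (k : ℝ)) (n := D.lam) fun k _ => hc.intervalIntegrable _ _
  have h2 : ∀ k ∈ Finset.range D.lam,
      ∫ M in (-1 / 8 + 10 * (k : ℝ))..(-1 / 8 + 10 * ((k + 1 : ℕ) : ℝ)), D.W M b =
        ∑ j ∈ Finset.range 10, (D.geo k (b none) (bb b)).len j := fun k hk => by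
    have e : ((k : ℤ) % (D.lam : ℤ)).toNat = k := by
      rw [Int.emod_eq_of_lt (by omega) (by exact_mod_cast Finset.mem_range.1 hk), Int.toNat_natCast]
    rw [← Pc.integral_wid hD.ν_pos hD.ν_le _ (-1 / 8 + 10 * (k : ℝ)), Nat.cast_succ, mul_add,
      mul_one, ← add_assoc]
    refine intervalIntegral.integral_congr fun M hM => ?_
    rw [uIcc_of_le (by linarith)] at hM
    have h := wid_eq hD k (M := M) (by push_cast; linarith [hM.1]) (by push_cast; linarith [hM.2]) b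
    rwa [e] at h
  simp only [Nat.cast_zero, mul_zero, add_zero] at h1
  rw [hp.intervalIntegral_add_eq c (-1 / 8), ← h1, Finset.sum_congr rfl h2]
  obtain ⟨n, hn⟩ : ∃ n, D.lam = n + 1 := ⟨D.lam - 1, by have := hD.lam_pos; omega⟩
  have h3 : ∀ k ∈ Finset.range n, ∑ j ∈ Finset.range 10, (D.geo k (b none) (bb b)).len j =
      2 * D.h (bb b) + 4 * D.w (bb b) - 8 * b none - 3 * D.ε := fun k hk => by
    rw [sum_len, WData.geo, if_pos (by have := Finset.mem_range.1 hk; omega)]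
    simp only [geoA]
    ring
  have h4 := sum_geoB (hD.dat _ hb.1) hb.2.1 hb.2.2
  have h5 : ∑ j ∈ Finset.range 10, (D.geo n (b none) (bb b)).len j =
      pX D.ε (D.h (bb b)) (D.H (bb b)) (D.K (bb b)) (b none) +
        pY D.ε (D.h (bb b)) (D.H (bb b)) (D.K (bb b)) (b none) +
        pKc D.ε (D.h (bb b)) (D.H (bb b)) (D.K (bb b)) (b none) - 4 * b none := by
    rw [sum_len, WData.geo, if_neg (by omega)]
    rfl
  have h6 := mul_nonneg (Nat.cast_nonneg (α := ℝ) n) hD.ε_pos.le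
  rw [hn, Finset.sum_range_succ, Finset.sum_congr rfl h3, h5, Finset.sum_const, Finset.card_range,
    nsmul_eq_mul, ellW]
  push_cast
  linarith

/-- near the junction all pieces have the same base map. -/
theorem Yp_junction (hD : D.Ok O A κ₀) (p p' : ℕ) (k : ℤ) {y : Option (Option κ) → ℝ}
    (h1 : 10 * (k : ℝ) - 1 + D.ν < y none) (h2 : y none < 10 * (k : ℝ) - D.ν) :
    D.Yp p =ᶠ[𝓝 y] D.Yp p' := by
  filter_upwards [(continuous_apply none).continuousAt.preimage_mem_nhds (Ioo_mem_nhds h1 h2)]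
    with z hz
  have h := fun g => (wid_junc hD.ν_pos hD.ν_le g k hz.1.le hz.2.le).1
  simp only [WData.Yp, h, wid_geo]

end Vale.Agent.P209
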